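import Mathlib.Algebra.Order.BigOperators.Expect
import Mathlib.Algebra.BigOperators.Pi
import Mathlib.Algebra.BigOperators.Field
import Mathlib.Algebra.BigOperators.Ring.Finset
import Mathlib.Analysis.SpecialFunctions.Exp
import Mathlib.Analysis.SpecialFunctions.Trigonometric.Series
import Mathlib.Analysis.Convex.SpecificFunctions.Basic

/-!
Finite uniform probability: `pr`, Markov, union bound, product formula, Chernoff bounds.
-/

namespace Vale.Agent.P318.R

open Finset
open scoped BigOperators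

/-- Probability of an event under the uniform distribution on a finite type. -/
noncomputable def pr {Ω : Type*} [Fintype Ω] (E : Ω → Prop) : ℝ :=
  open Classical in 𝔼 ω, if E ω then (1 : ℝ) else 0

section
variable {Ω : Type*} [Fintype Ω]

lemma pr_eq_expect (E : Ω → Prop) [DecidablePred E] :
    pr E = 𝔼 ω, if E ω then (1 : ℝ) else 0 := by
  unfold pr
  refine expect_congr rfl fun ω _ => ?_
  by_cases h : E ω <;> simp [h]

lemma pr_nonneg (E : Ω → Prop) : 0 ≤ pr E := by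
  unfold pr
  exact expect_nonneg fun ω _ => by split_ifs <;> norm_num

lemma pr_le_expect {E : Ω → Prop} {f : Ω → ℝ} (h0 : ∀ ω, 0 ≤ f ω) (h1 : ∀ ω, E ω → 1 ≤ f ω) :
    pr E ≤ 𝔼 ω, f ω := by
  unfold pr
  refine expect_le_expect fun ω _ => ?_
  split_ifs with h
  · exact h1 ω h
  · exact h0 ω

lemma expect_le_pr {E : Ω → Prop} {f : Ω → ℝ} (h0 : ∀ ω, ¬ E ω → f ω ≤ 0) (h1 : ∀ ω, f ω ≤ 1) :
    𝔼 ω, f ω ≤ pr E := by
  unfold pr
  refine expect_le_expect fun ω _ => ?_
  split_ifs with h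
  · exact h1 ω
  · exact h0 ω h

lemma pr_mono {E F : Ω → Prop} (h : ∀ ω, E ω → F ω) : pr E ≤ pr F := by
  unfold pr
  refine expect_le_expect fun ω _ => ?_
  by_cases hE : E ω
  · simp [hE, h ω hE]
  · simp only [hE, if_false]
    split_ifs <;> norm_num

lemma pr_le_one (E : Ω → Prop) : pr E ≤ 1 := by
  unfold pr
  rcases isEmpty_or_nonempty Ω with h | h
  · simp
  · exact expect_le univ_nonempty fun ω _ => by split_ifs <;> norm_num

lemma pr_not [Nonempty Ω] (E : Ω → Prop) : pr (fun ω => ¬ E ω) = 1 - pr E := by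
  unfold pr
  have h : (1 : ℝ) = 𝔼 _ω : Ω, (1 : ℝ) := (Fintype.expect_const _).symm
  rw [eq_sub_iff_add_eq, ← expect_add_distrib]
  conv_rhs => rw [h]
  refine expect_congr rfl fun ω _ => ?_
  by_cases hE : E ω <;> simp [hE]

lemma pr_or_le (E F : Ω → Prop) : pr (fun ω => E ω ∨ F ω) ≤ pr E + pr F := by
  unfold pr
  rw [← expect_add_distrib]
  refine expect_le_expect fun ω _ => ?_
  by_cases hE : E ω <;> by_cases hF : F ω <;> simp [hE, hF]

lemma pr_exists_mem_le {ι : Type*} (s : Finset ι) (E : ι → Ω → Prop) :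
    pr (fun ω => ∃ i ∈ s, E i ω) ≤ ∑ i ∈ s, pr (E i) := by
  unfold pr
  rw [← expect_sum_comm]
  refine expect_le_expect fun ω _ => ?_
  split_ifs with h
  · obtain ⟨i, hi, hE⟩ := h
    refine le_trans ?_ (single_le_sum (f := fun i => open Classical in if E i ω then (1 : ℝ) else 0)
      (fun j _ => by split_ifs <;> norm_num) hi)
    simp [hE]
  · exact sum_nonneg fun j _ => by split_ifs <;> norm_num

lemma pr_exists_le {ι : Type*} [Fintype ι] (E : ι → Ω → Prop) :
    pr (fun ω => ∃ i, E i ω) ≤ ∑ i, pr (E i) := by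
  have := pr_exists_mem_le univ E
  simpa using this

/-- Union bound with a uniform estimate. -/
lemma pr_exists_mem_le_card_mul {ι : Type*} (s : Finset ι) (E : ι → Ω → Prop) {δ : ℝ}
    (h : ∀ i ∈ s, pr (E i) ≤ δ) : pr (fun ω => ∃ i ∈ s, E i ω) ≤ s.card * δ := by
  refine (pr_exists_mem_le s E).trans ?_
  have := sum_le_card_nsmul s (fun i => pr (E i)) δ h
  simpa using this

lemma exists_not_of_pr_lt_one [Nonempty Ω] {E : Ω → Prop} (h : pr E < 1) : ∃ ω, ¬ E ω := by
  by_contra hc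
  push Not at hc
  have : pr E = 1 := by
    unfold pr
    rw [expect_congr rfl (g := fun _ => (1 : ℝ)) fun ω _ => by simp [hc ω]]
    exact Fintype.expect_const _
  linarith

lemma pr_eq_card (E : Ω → Prop) [DecidablePred E] :
    pr E = ((univ.filter E).card : ℝ) / Fintype.card Ω := by
  unfold pr
  rw [Fintype.expect_eq_sum_div_card]
  congr 1
  rw [card_filter]
  push_cast
  refine sum_congr rfl fun ω _ => ?_
  by_cases h : E ω <;> simp [h]

lemma pr_equiv {Ω' : Type*} [Fintype Ω'] (e : Ω ≃ Ω') (E : Ω' → Prop) :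
    pr (fun ω => E (e ω)) = pr E := by
  unfold pr
  exact Fintype.expect_equiv e _ _ fun ω => by congr

lemma pr_prod {Ω' : Type*} [Fintype Ω'] (E : Ω × Ω' → Prop) :
    pr E = 𝔼 ω, pr (fun ω' => E (ω, ω')) := by
  unfold pr
  rw [← univ_product_univ, expect_product]

lemma pr_prod_le {Ω' : Type*} [Fintype Ω'] (E : Ω × Ω' → Prop) {δ : ℝ} (hδ : 0 ≤ δ)
    (h : ∀ ω, pr (fun ω' => E (ω, ω')) ≤ δ) : pr E ≤ δ := by
  rw [pr_prod]
  rcases isEmpty_or_nonempty Ω with h0 | h0
  · simpa using hδ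
  · exact expect_le univ_nonempty fun ω _ => h ω

/-- Markov in exponential form. -/
lemma pr_ge_le_exp (X : Ω → ℝ) (u t : ℝ) (ht : 0 ≤ t) :
    pr (fun ω => u ≤ X ω) ≤ Real.exp (-(t * u)) * 𝔼 ω, Real.exp (t * X ω) := by
  rw [mul_expect]
  refine pr_le_expect (fun ω => by positivity) fun ω h => ?_
  rw [← Real.exp_add]
  exact Real.one_le_exp (by nlinarith)

/-- Subgaussian tail: `E exp(t X) ≤ A exp(t² V)` for all `t ≥ 0` gives `P(X ≥ u) ≤ A exp(-u²/(4V))`. -/
lemma pr_ge_le_of_mgf (X : Ω → ℝ) {A V u : ℝ} (hV : 0 < V) (hu : 0 ≤ u)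
    (h : ∀ t : ℝ, 0 ≤ t → 𝔼 ω, Real.exp (t * X ω) ≤ A * Real.exp (t ^ 2 * V)) :
    pr (fun ω => u ≤ X ω) ≤ A * Real.exp (-(u ^ 2 / (4 * V))) := by
  have ht : 0 ≤ u / (2 * V) := by positivity
  refine (pr_ge_le_exp X u _ ht).trans ?_
  refine (mul_le_mul_of_nonneg_left (h _ ht) (Real.exp_pos _).le).trans (le_of_eq ?_)
  rw [mul_left_comm, ← Real.exp_add]
  congr 2
  field_simp
  ring

lemma pr_abs_ge_le_of_mgf (X : Ω → ℝ) {A V u : ℝ} (hV : 0 < V) (hu : 0 ≤ u)
    (h : ∀ t : ℝ, 𝔼 ω, Real.exp (t * X ω) ≤ A * Real.exp (t ^ 2 * V)) :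
    pr (fun ω => u ≤ |X ω|) ≤ 2 * (A * Real.exp (-(u ^ 2 / (4 * V)))) := by
  have h1 := pr_ge_le_of_mgf X hV hu fun t _ => h t
  have h2 := pr_ge_le_of_mgf (fun ω => -X ω) (A := A) hV hu fun t _ => by
    have := h (-t)
    simpa using this
  have h3 := pr_or_le (fun ω => u ≤ X ω) (fun ω => u ≤ -X ω)
  have h4 : pr (fun ω => u ≤ |X ω|) ≤ pr (fun ω => u ≤ X ω ∨ u ≤ -X ω) :=
    pr_mono fun ω h => le_abs.1 h
  linarith

end

/-- Product formula for independent coordinates. -/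
lemma expect_prod_pi {ι : Type*} [Fintype ι] [DecidableEq ι] {Ω : ι → Type*}
    [∀ i, Fintype (Ω i)] {K : Type*} [Field K] [CharZero K] (f : ∀ i, Ω i → K) :
    𝔼 x : (∀ i, Ω i), ∏ i, f i (x i) = ∏ i, 𝔼 u, f i u := by
  simp only [Fintype.expect_eq_sum_div_card]
  rw [prod_div_distrib, Fintype.card_pi, prod_univ_sum, Fintype.piFinset_univ]
  push_cast
  rfl

/-- Product formula over a subset of the coordinates. -/
lemma expect_prod_pi_mem {ι : Type*} [Fintype ι] [DecidableEq ι] {Ω : ι → Type*}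
    [∀ i, Fintype (Ω i)] [∀ i, Nonempty (Ω i)] {K : Type*} [Field K] [CharZero K]
    (s : Finset ι) (f : ∀ i, Ω i → K) :
    𝔼 x : (∀ i, Ω i), ∏ i ∈ s, f i (x i) = ∏ i ∈ s, 𝔼 u, f i u := by
  have h := expect_prod_pi (Ω := Ω) (fun i u => if i ∈ s then f i u else 1)
  have e1 : ∀ x : (∀ i, Ω i), ∏ i, (if i ∈ s then f i (x i) else 1) = ∏ i ∈ s, f i (x i) := by
    intro x
    rw [prod_ite_mem, univ_inter]
  simp only [e1] at h
  rw [h]
  have e2 : ∀ i, (𝔼 u, if i ∈ s then f i u else 1) = if i ∈ s then 𝔼 u, f i u else 1 := by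
    intro i
    split_ifs
    · rfl
    · exact Fintype.expect_const _
  simp only [e2]
  rw [prod_ite_mem, univ_inter]

/-- The moment generating function of a sum of independent terms. -/
lemma expect_exp_sum_le {ι : Type*} [Fintype ι] [DecidableEq ι] {Ω : ι → Type*}
    [∀ i, Fintype (Ω i)] [∀ i, Nonempty (Ω i)] (s : Finset ι) (X : ∀ i, Ω i → ℝ) (B : ι → ℝ)
    (h : ∀ i ∈ s, 𝔼 u, Real.exp (X i u) ≤ B i) :
    𝔼 x : (∀ i, Ω i), Real.exp (∑ i ∈ s, X i (x i)) ≤ ∏ i ∈ s, B i := by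
  simp only [Real.exp_sum]
  rw [expect_prod_pi_mem s (fun i u => Real.exp (X i u))]
  exact prod_le_prod (fun i _ => expect_nonneg fun u _ => (Real.exp_pos _).le) h

/-- Hoeffding's lemma (crude form): a centred variable with `|X| ≤ c` has
`E exp(t X) ≤ exp(t² c² / 2)`. -/
lemma expect_exp_le_of_abs_le {Ω : Type*} [Fintype Ω] [Nonempty Ω] (X : Ω → ℝ) {c : ℝ}
    (hc : ∀ ω, |X ω| ≤ c) (h0 : 𝔼 ω, X ω = 0) (t : ℝ) :
    𝔼 ω, Real.exp (t * X ω) ≤ Real.exp (t ^ 2 * c ^ 2 / 2) := by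
  have hc0 : 0 ≤ c := (abs_nonneg _).trans (hc (Classical.arbitrary Ω))
  rcases hc0.eq_or_lt with rfl | hpos
  · have : ∀ ω, X ω = 0 := fun ω => abs_nonpos_iff.1 (hc ω)
    simp [this]
  have key : ∀ ω, Real.exp (t * X ω) ≤ Real.cosh (t * c) + X ω / c * Real.sinh (t * c) := by
    intro ω
    have h1 := abs_le.1 (hc ω)
    have ha : 0 ≤ (c + X ω) / (2 * c) := div_nonneg (by linarith) (by positivity)
    have hb : 0 ≤ (c - X ω) / (2 * c) := div_nonneg (by linarith) (by positivity)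
    have hab : (c + X ω) / (2 * c) + (c - X ω) / (2 * c) = 1 := by field_simp; ring
    have := convexOn_exp.2 (Set.mem_univ (t * c)) (Set.mem_univ (-(t * c))) ha hb hab
    simp only [smul_eq_mul] at this
    have e : (c + X ω) / (2 * c) * (t * c) + (c - X ω) / (2 * c) * -(t * c) = t * X ω := by
      field_simp; ring
    rw [e] at this
    refine this.trans (le_of_eq ?_)
    rw [Real.cosh_eq, Real.sinh_eq]
    field_simp
    ring
  refine (expect_le_expect fun ω _ => key ω).trans ?_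
  rw [expect_add_distrib, Fintype.expect_const, ← expect_mul, ← expect_div, h0]
  have := Real.cosh_le_exp_half_sq (t * c)
  rw [mul_pow] at this
  simpa using this

/-- Hoeffding's inequality for independent bounded centred terms. -/
lemma pr_sum_ge_le {ι : Type*} [Fintype ι] [DecidableEq ι] {Ω : ι → Type*}
    [∀ i, Fintype (Ω i)] [∀ i, Nonempty (Ω i)] (s : Finset ι) (X : ∀ i, Ω i → ℝ) (c : ι → ℝ)
    (hc : ∀ i ∈ s, ∀ u, |X i u| ≤ c i) (h0 : ∀ i ∈ s, 𝔼 u, X i u = 0) {V u : ℝ} (hV : 0 < V)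
    (hcV : ∑ i ∈ s, c i ^ 2 ≤ V) (hu : 0 ≤ u) :
    pr (fun x : (∀ i, Ω i) => u ≤ ∑ i ∈ s, X i (x i)) ≤ Real.exp (-(u ^ 2 / (2 * V))) := by
  have := pr_ge_le_of_mgf (fun x : (∀ i, Ω i) => ∑ i ∈ s, X i (x i)) (A := 1) (V := V / 2)
    (by positivity) hu (fun t _ => by
      simp only [mul_sum]
      refine (expect_exp_sum_le s (fun i u => t * X i u) (fun i => Real.exp (t ^ 2 * c i ^ 2 / 2))
        fun i hi => expect_exp_le_of_abs_le (X i) (hc i hi) (h0 i hi) t).trans ?_
      rw [← Real.exp_sum, one_mul]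
      refine Real.exp_le_exp.2 ?_
      rw [← sum_div, ← mul_sum]
      have := mul_le_mul_of_nonneg_left hcV (sq_nonneg t)
      linarith)
  rw [one_mul] at this
  convert this using 4
  ring

/-- Multiplicative Chernoff bound, lower tail: if each event has probability at least `q`
then at most `q |s| / 2` of them occur with probability at most `exp(-q |s| / 8)`. -/
lemma pr_card_le_le {ι : Type*} [Fintype ι] [DecidableEq ι] {Ω : ι → Type*}
    [∀ i, Fintype (Ω i)] [∀ i, Nonempty (Ω i)] (s : Finset ι) (E : ∀ i, Ω i → Prop)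
    [∀ i, DecidablePred (E i)] {q : ℝ} (hq : ∀ i ∈ s, q ≤ pr (E i)) :
    pr (fun x : (∀ i, Ω i) => ((s.filter fun i => E i (x i)).card : ℝ) ≤ q * s.card / 2) ≤
      Real.exp (-(q * s.card / 8)) := by
  have h1 := pr_ge_le_exp (fun x : (∀ i, Ω i) => ∑ i ∈ s, -(if E i (x i) then (1 : ℝ) else 0))
    (-(q * s.card / 2)) (1 / 2) (by norm_num)
  have e : ∀ x : (∀ i, Ω i), (∑ i ∈ s, -(if E i (x i) then (1 : ℝ) else 0)) =
      -((s.filter fun i => E i (x i)).card : ℝ) := by
    intro x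
    rw [sum_neg_distrib, card_filter]
    push_cast
    rfl
  have h2 : pr (fun x : (∀ i, Ω i) => ((s.filter fun i => E i (x i)).card : ℝ) ≤ q * s.card / 2) ≤
      pr (fun x : (∀ i, Ω i) => -(q * s.card / 2) ≤
        ∑ i ∈ s, -(if E i (x i) then (1 : ℝ) else 0)) :=
    pr_mono fun x hx => by rw [e]; linarith
  refine h2.trans (h1.trans ?_)
  have h3 : 𝔼 x : (∀ i, Ω i), Real.exp (1 / 2 * ∑ i ∈ s, -(if E i (x i) then (1 : ℝ) else 0)) ≤
      ∏ _i ∈ s, Real.exp (-(3 / 8 * q)) := by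
    simp only [mul_sum]
    refine expect_exp_sum_le s (fun i u => 1 / 2 * -(if E i u then (1 : ℝ) else 0)) _
      fun i hi => ?_
    have hk : ∀ u, Real.exp (1 / 2 * -(if E i u then (1 : ℝ) else 0)) ≤
        1 - 3 / 8 * (if E i u then (1 : ℝ) else 0) := by
      intro u
      by_cases hu : E i u
      · simp only [hu, if_true]
        have h5 := Real.add_one_le_exp (1 / 4 : ℝ)
        have h6 : Real.exp (1 / 2 * -1) * (Real.exp (1 / 4) * Real.exp (1 / 4)) = 1 := by
          rw [← Real.exp_add, ← Real.exp_add]; norm_num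
        have h7 : (8 / 5 : ℝ) ≤ Real.exp (1 / 4) * Real.exp (1 / 4) := by
          have h8 := Real.quadratic_le_exp_of_nonneg (show (0 : ℝ) ≤ 1 / 4 by norm_num)
          nlinarith
        have h9 := Real.exp_pos (1 / 2 * -1 : ℝ)
        nlinarith
      · simp [hu]
    refine (expect_le_expect fun u _ => hk u).trans ?_
    rw [expect_sub_distrib, Fintype.expect_const, ← mul_expect]
    have := hq i hi
    rw [pr_eq_expect] at this
    have h4 := Real.add_one_le_exp (-(3 / 8 * q))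
    linarith
  refine (mul_le_mul_of_nonneg_left h3 (Real.exp_pos _).le).trans (le_of_eq ?_)
  rw [prod_const, ← Real.exp_nat_mul, ← Real.exp_add]
  congr 1
  ring

/-- Multiplicative Chernoff bound, upper tail: if each event has probability at most `q`, then
at least `u` of them occur with probability at most `exp(-t u + q |s| (e^t - 1))`. -/
lemma pr_card_ge_le {ι : Type*} [Fintype ι] [DecidableEq ι] {Ω : ι → Type*}
    [∀ i, Fintype (Ω i)] [∀ i, Nonempty (Ω i)] (s : Finset ι) (E : ∀ i, Ω i → Prop)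
    [∀ i, DecidablePred (E i)] {q : ℝ} (hq : ∀ i ∈ s, pr (E i) ≤ q) (u : ℝ) {t : ℝ} (ht : 0 ≤ t) :
    pr (fun x : (∀ i, Ω i) => u ≤ ((s.filter fun i => E i (x i)).card : ℝ)) ≤
      Real.exp (-(t * u) + q * s.card * (Real.exp t - 1)) := by
  have h1 := pr_ge_le_exp (fun x : (∀ i, Ω i) => ((s.filter fun i => E i (x i)).card : ℝ)) u t ht
  refine h1.trans ?_
  have e : ∀ x : (∀ i, Ω i), t * ((s.filter fun i => E i (x i)).card : ℝ) =
      ∑ i ∈ s, t * (if E i (x i) then (1 : ℝ) else 0) := by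
    intro x
    rw [← mul_sum, card_filter]
    push_cast
    rfl
  have het : 0 ≤ Real.exp t - 1 := by linarith [Real.one_le_exp ht]
  have h3 : 𝔼 x : (∀ i, Ω i), Real.exp (t * ((s.filter fun i => E i (x i)).card : ℝ)) ≤
      ∏ _i ∈ s, Real.exp (q * (Real.exp t - 1)) := by
    simp only [e]
    refine expect_exp_sum_le s (fun i u => t * (if E i u then (1 : ℝ) else 0)) _
      fun i hi => ?_
    have hk : ∀ u, Real.exp (t * (if E i u then (1 : ℝ) else 0)) =
        1 + (Real.exp t - 1) * (if E i u then (1 : ℝ) else 0) := by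
      intro u
      by_cases hu : E i u <;> simp [hu]
    simp only [hk]
    rw [expect_add_distrib, Fintype.expect_const, ← mul_expect]
    have := hq i hi
    rw [pr_eq_expect] at this
    have h4 := Real.add_one_le_exp (q * (Real.exp t - 1))
    nlinarith
  refine (mul_le_mul_of_nonneg_left h3 (Real.exp_pos _).le).trans (le_of_eq ?_)
  rw [prod_const, ← Real.exp_nat_mul, ← Real.exp_add]
  congr 1
  ring

end Vale.Agent.P318.R
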