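import Vale.Agent.P318.RProb
import Mathlib.Analysis.SpecialFunctions.Complex.CircleAddChar
import Mathlib.NumberTheory.LegendreSymbol.AddCharacter
import Mathlib.Analysis.Complex.ExponentialBounds
import Mathlib.Algebra.Field.ZMod

/-!
Random parity check matrices over `ZMod p`: the lattice `{k : H k = 0}` has no short vectors and
the dual code is far from the integers.  Counting of integer points in a ball.
-/

namespace Vale.Agent.P318.R

open Finset
open scoped BigOperators

/-! ### Integer points in a ball -/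

/-- Integer vectors with squared norm at most `R`. -/
noncomputable def ballZ (ι : Type*) [Fintype ι] [DecidableEq ι] (R : ℕ) : Finset (ι → ℤ) :=
  (Fintype.piFinset fun _ => Icc (-(R : ℤ)) R).filter fun k => ∑ j, k j ^ 2 ≤ R

lemma mem_ballZ {ι : Type*} [Fintype ι] [DecidableEq ι] {R : ℕ} {k : ι → ℤ} :
    k ∈ ballZ ι R ↔ ∑ j, k j ^ 2 ≤ R := by
  unfold ballZ
  rw [mem_filter, Fintype.mem_piFinset]
  refine ⟨fun h => h.2, fun h => ⟨fun j => ?_, h⟩⟩
  have h1 : k j ^ 2 ≤ R :=
    (single_le_sum (f := fun j => k j ^ 2) (fun _ _ => sq_nonneg _) (mem_univ j)).trans h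
  rw [mem_Icc]
  constructor <;> nlinarith [sq_nonneg (k j - 1), sq_nonneg (k j + 1)]

lemma sum_Icc_pow_le {x : ℝ} (hx0 : 0 ≤ x) (hx1 : x < 1) (R : ℕ) :
    ∑ n ∈ Icc (-(R : ℤ)) R, x ^ n.natAbs ≤ 1 + 2 * x / (1 - x) := by
  have key : ∀ R : ℕ, (∑ n ∈ Icc (-(R : ℤ)) R, x ^ n.natAbs) * (1 - x) =
      1 + x - 2 * x ^ (R + 1) := by
    intro R
    induction R with
    | zero => simp; ring
    | succ R ih =>
      have e : Icc (-((R + 1 : ℕ) : ℤ)) ((R + 1 : ℕ) : ℤ) =
          insert ((R + 1 : ℕ) : ℤ) (insert (-((R + 1 : ℕ) : ℤ)) (Icc (-(R : ℤ)) R)) := by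
        ext n
        simp only [mem_Icc, mem_insert]
        push_cast
        omega
      rw [e, sum_insert, sum_insert]
      · simp only [Int.natAbs_neg, Int.natAbs_natCast]
        rw [add_mul, add_mul, ih]
        ring
      · simp only [mem_Icc]; push_cast; omega
      · simp only [mem_Icc, mem_insert]; push_cast; omega
  have h1 : 0 < 1 - x := by linarith
  have h2 := key R
  have h3 : 0 ≤ x ^ (R + 1) := by positivity
  rw [← mul_le_mul_iff_left₀ h1, h2, add_mul, div_mul_cancel₀ _ h1.ne']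
  linarith

lemma card_ballZ_le (ι : Type*) [Fintype ι] [DecidableEq ι] (R : ℕ) {t : ℝ} (ht : 0 < t) :
    ((ballZ ι R).card : ℝ) ≤
      Real.exp (t * R) * (1 + 2 * Real.exp (-t) / (1 - Real.exp (-t))) ^ Fintype.card ι := by
  have hx1 : Real.exp (-t) < 1 := Real.exp_lt_one_iff.2 (by linarith)
  have h1 : ((ballZ ι R).card : ℝ) ≤ ∑ k ∈ (Fintype.piFinset fun _ : ι => Icc (-(R : ℤ)) R),
      Real.exp (t * R) * ∏ j, Real.exp (-t) ^ (k j).natAbs := by
    unfold ballZ
    rw [card_filter]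
    push_cast
    refine sum_le_sum fun k _ => ?_
    split_ifs with h
    · simp only [← Real.exp_nat_mul]
      rw [← Real.exp_sum, ← Real.exp_add]
      refine Real.one_le_exp ?_
      have h2 : ∑ j, ((k j).natAbs : ℝ) ≤ R := by
        have h3 : ∑ j, ((k j).natAbs : ℤ) ≤ R := by
          refine le_trans (sum_le_sum fun j _ => ?_) h
          rw [Int.natCast_natAbs]
          have := Int.natAbs_le_self_sq (k j)
          rwa [Int.natCast_natAbs] at this
        exact_mod_cast h3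
      have e : ∑ j, ((k j).natAbs : ℝ) * -t = -t * ∑ j, ((k j).natAbs : ℝ) := by
        rw [mul_sum]; exact sum_congr rfl fun _ _ => mul_comm _ _
      rw [e]
      nlinarith
    · positivity
  refine h1.trans ?_
  rw [← mul_sum, ← prod_univ_sum (fun _ : ι => Icc (-(R : ℤ)) R)
    (fun _ n => Real.exp (-t) ^ n.natAbs)]
  refine mul_le_mul_of_nonneg_left ?_ (Real.exp_pos _).le
  rw [← card_univ, ← prod_const]
  exact prod_le_prod (fun _ _ => sum_nonneg fun _ _ => by positivity)
    fun _ _ => sum_Icc_pow_le (Real.exp_pos _).le hx1 R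

/-- A simple bound: at most `exp(R + |ι|)` integer points of squared norm at most `R`. -/
lemma card_ballZ_le_exp (ι : Type*) [Fintype ι] [DecidableEq ι] (R : ℕ) :
    ((ballZ ι R).card : ℝ) ≤ Real.exp (R + Fintype.card ι) := by
  refine (card_ballZ_le ι R one_pos).trans ?_
  rw [one_mul, Real.exp_add]
  refine mul_le_mul_of_nonneg_left ?_ (Real.exp_pos _).le
  rw [← mul_one (Fintype.card ι : ℝ), Real.exp_nat_mul]
  have h1 := Real.exp_neg_one_lt_d9
  have h2 := Real.exp_pos (-1)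
  have h3 := Real.exp_one_gt_d9
  refine pow_le_pow_left₀ (by have : 0 < 1 - Real.exp (-1) := by linarith
                              positivity) ?_ _
  have : 2 * Real.exp (-1) / (1 - Real.exp (-1)) ≤ 1.7 := by
    rw [div_le_iff₀ (by linarith)]; linarith
  linarith

/-- At most `exp(M/41)` integer points of squared norm at most `M/500`. -/
lemma card_ballZ_small (ι : Type*) [Fintype ι] [DecidableEq ι] {R : ℕ}
    (hR : (R : ℝ) ≤ Fintype.card ι / 500) :
    ((ballZ ι R).card : ℝ) ≤ Real.exp (Fintype.card ι / 41) := by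
  refine (card_ballZ_le ι R (t := 5) (by norm_num)).trans ?_
  have h1 : Real.exp (-5) ≤ 1 / 148 := by
    have h2 := Real.exp_one_gt_d9
    have h3 : Real.exp 5 = Real.exp 1 ^ 5 := by rw [← Real.exp_nat_mul]; norm_num
    have h4 : (148 : ℝ) ≤ Real.exp 5 := by
      rw [h3]
      calc (148 : ℝ) ≤ 2.7182818283 ^ 5 := by norm_num
        _ ≤ _ := pow_le_pow_left₀ (by norm_num) h2.le _
    rw [Real.exp_neg, one_div]
    exact inv_anti₀ (by norm_num) h4
  have h2 := Real.exp_pos (-5)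
  have h3 : 1 + 2 * Real.exp (-5) / (1 - Real.exp (-5)) ≤ Real.exp (1 / 73) := by
    have : 2 * Real.exp (-5) / (1 - Real.exp (-5)) ≤ 1 / 73 := by
      rw [div_le_iff₀ (by linarith)]; linarith
    linarith [Real.add_one_le_exp (1 / 73 : ℝ)]
  have h4 : 0 ≤ 1 + 2 * Real.exp (-5) / (1 - Real.exp (-5)) := by
    have : 0 < 1 - Real.exp (-5) := by linarith
    positivity
  refine (mul_le_mul_of_nonneg_left (pow_le_pow_left₀ h4 h3 _) (Real.exp_pos _).le).trans ?_
  rw [← Real.exp_nat_mul, ← Real.exp_add]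
  refine Real.exp_le_exp.2 ?_
  have : (0 : ℝ) ≤ Fintype.card ι := Nat.cast_nonneg _
  linarith

/-! ### Parity checks -/

variable {p : ℕ} {ι κ : Type*} [Fintype ι] [Fintype κ]

/-- The syndrome `H k` of an integer vector. -/
def syn (H : κ → ι → ZMod p) (k : ι → ℤ) : κ → ZMod p := fun a => ∑ j, H a j * (k j : ZMod p)

/-- The dual code word `Hᵀ y`. -/
def dualv (H : κ → ι → ZMod p) (y : κ → ZMod p) : ι → ZMod p := fun j => ∑ a, y a * H a j

omit [Fintype κ] in
lemma syn_add (H : κ → ι → ZMod p) (k l : ι → ℤ) : syn H (k + l) = syn H k + syn H l := by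
  funext a
  simp [syn, mul_add, sum_add_distrib]

omit [Fintype κ] in
lemma syn_sub (H : κ → ι → ZMod p) (k l : ι → ℤ) : syn H (k - l) = syn H k - syn H l := by
  funext a
  simp [syn, mul_sub, sum_sub_distrib]

omit [Fintype κ] in
lemma syn_smul (H : κ → ι → ZMod p) (n : ℤ) (k : ι → ℤ) :
    syn H (n • k) = (n : ZMod p) • syn H k := by
  funext a
  simp only [syn, Pi.smul_apply, smul_eq_mul, mul_sum]
  push_cast
  exact sum_congr rfl fun _ _ => by ring

omit [Fintype κ] in
lemma syn_zero (H : κ → ι → ZMod p) : syn H 0 = 0 := by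
  funext a
  simp [syn]

omit [Fintype ι] in
lemma dualv_sub (H : κ → ι → ZMod p) (y y' : κ → ZMod p) :
    dualv H (y - y') = dualv H y - dualv H y' := by
  funext a
  simp [dualv, sub_mul, sum_sub_distrib]

omit [Fintype ι] in
lemma dualv_zero (H : κ → ι → ZMod p) : dualv H 0 = 0 := by
  funext a
  simp [dualv]

lemma dot_syn (H : κ → ι → ZMod p) (y : κ → ZMod p) (k : ι → ℤ) :
    ∑ a, y a * syn H k a = ∑ j, dualv H y j * (k j : ZMod p) := by
  simp only [syn, dualv, mul_sum, sum_mul]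
  rw [sum_comm]
  exact sum_congr rfl fun _ _ => sum_congr rfl fun _ _ => by ring

/-- The angle `2 π u / p` of a residue. -/
noncomputable def ang (u : ZMod p) : ℝ := 2 * Real.pi * (u.val : ℝ) / p

lemma stdAddChar_eq [NeZero p] (u : ZMod p) :
    (ZMod.stdAddChar u : ℂ) = Complex.exp ((ang u : ℝ) * Complex.I) := by
  rw [ZMod.stdAddChar_apply, ZMod.toCircle_apply]
  congr 1
  unfold ang
  push_cast
  ring

lemma cos_ang [NeZero p] (u : ZMod p) : Real.cos (ang u) = (ZMod.stdAddChar u : ℂ).re := by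
  rw [stdAddChar_eq, Complex.exp_ofReal_mul_I_re]

lemma cos_ang_sub [NeZero p] (u v : ZMod p) : Real.cos (ang (u - v)) = Real.cos (ang u - ang v) := by
  rw [cos_ang, sub_eq_add_neg, AddChar.map_add_eq_mul, AddChar.map_neg_eq_inv, stdAddChar_eq,
    stdAddChar_eq, ← Complex.exp_neg, ← Complex.exp_add, ← Complex.exp_ofReal_mul_I_re]
  congr 2
  push_cast
  ring

/-- A good parity check matrix: no short lattice vectors, dual code words far from zero. -/
structure GoodH (H : κ → ι → ZMod p) : Prop where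
  short : ∀ k : ι → ℤ, k ≠ 0 → syn H k = 0 → (Fintype.card ι : ℝ) / 500 < ∑ j, (k j : ℝ) ^ 2
  dual : ∀ y : κ → ZMod p, y ≠ 0 → ∑ j, Real.cos (ang (dualv H y j)) ≤ (Fintype.card ι : ℝ) / 2

/-- A nonzero linear form is uniformly distributed. -/
lemma expect_dot [Fact p.Prime] [DecidableEq ι] {K : Type*} [Field K] [CharZero K]
    {y : ι → ZMod p} (hy : y ≠ 0) (φ : ZMod p → K) :
    𝔼 h : ι → ZMod p, φ (∑ j, h j * y j) = 𝔼 u, φ u := by
  obtain ⟨a, ha⟩ : ∃ a, y a ≠ 0 := by
    by_contra hc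
    push Not at hc
    exact hy (funext hc)
  have h1 : ∀ u : ZMod p, 𝔼 h : ι → ZMod p, φ (∑ j, h j * y j) =
      𝔼 h : ι → ZMod p, φ (∑ j, h j * y j + u) := by
    intro u
    refine (Fintype.expect_equiv (Equiv.addRight (Pi.single a (u / y a) : ι → ZMod p)) _ _
      fun h => ?_).symm
    congr 1
    simp only [Equiv.coe_addRight, Pi.add_apply, add_mul, sum_add_distrib]
    congr 1
    rw [sum_eq_single a]
    · simp [div_mul_cancel₀ _ ha]
    · intro b _ hb
      simp [Pi.single_eq_of_ne hb]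
    · simp
  calc 𝔼 h : ι → ZMod p, φ (∑ j, h j * y j)
      = 𝔼 u : ZMod p, 𝔼 h : ι → ZMod p, φ (∑ j, h j * y j + u) := by
        rw [← Fintype.expect_const (ι := ZMod p) (𝔼 h : ι → ZMod p, φ (∑ j, h j * y j))]
        exact expect_congr rfl fun u _ => h1 u
    _ = 𝔼 h : ι → ZMod p, 𝔼 u : ZMod p, φ (∑ j, h j * y j + u) := expect_comm _ _ _
    _ = 𝔼 _h : ι → ZMod p, 𝔼 u : ZMod p, φ u := by
        refine expect_congr rfl fun h _ => ?_
        exact Fintype.expect_equiv (Equiv.addLeft (∑ j, h j * y j)) _ _ fun u => rfl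
    _ = _ := Fintype.expect_const _

lemma expect_cos_ang [Fact p.Prime] : 𝔼 u : ZMod p, Real.cos (ang u) = 0 := by
  simp only [cos_ang]
  rw [Fintype.expect_eq_sum_div_card, ← Complex.re_sum]
  have h : (ZMod.stdAddChar (N := p)) ≠ 1 := by
    intro h
    have h1 : ZMod.stdAddChar (N := p) 1 = ZMod.stdAddChar (N := p) 0 := by rw [h]; rfl
    exact one_ne_zero (ZMod.injective_stdAddChar h1)
  rw [AddChar.sum_eq_zero_of_ne_one h]
  simp

lemma pr_syn_eq_zero [Fact p.Prime] [DecidableEq ι] [DecidableEq κ] {k : ι → ℤ}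
    (hk : (fun j => (k j : ZMod p)) ≠ 0) :
    pr (fun H : κ → ι → ZMod p => syn H k = 0) = ((p : ℝ) ^ Fintype.card κ)⁻¹ := by
  rw [pr_eq_expect]
  have e : ∀ H : κ → ι → ZMod p, (if syn H k = 0 then (1 : ℝ) else 0) =
      ∏ a, (if ∑ j, H a j * (k j : ZMod p) = 0 then (1 : ℝ) else 0) := by
    intro H
    rw [prod_ite_zero]
    simp only [mem_univ, true_imp_iff, prod_const_one]
    congr 1
    exact propext funext_iff
  simp only [e]
  rw [expect_prod_pi (Ω := fun _ : κ => ι → ZMod p)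
    (fun _ h => if ∑ j, h j * (k j : ZMod p) = 0 then (1 : ℝ) else 0)]
  have e2 : 𝔼 h : ι → ZMod p, (if ∑ j, h j * (k j : ZMod p) = 0 then (1 : ℝ) else 0) =
      (p : ℝ)⁻¹ := by
    rw [expect_dot hk (fun u => if u = 0 then (1 : ℝ) else 0), Fintype.expect_eq_sum_div_card]
    simp [ZMod.card]
  simp only [e2]
  rw [prod_const, card_univ, inv_pow]

lemma pr_dual_bad [Fact p.Prime] [DecidableEq ι] [DecidableEq κ] [Nonempty ι] {y : κ → ZMod p}
    (hy : y ≠ 0) :
    pr (fun H : κ → ι → ZMod p =>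
      (Fintype.card ι : ℝ) / 2 ≤ ∑ j, Real.cos (ang (dualv H y j))) ≤
      Real.exp (-(Fintype.card ι / 8)) := by
  have hM : (0 : ℝ) < Fintype.card ι := Nat.cast_pos.2 Fintype.card_pos
  rw [← pr_equiv (Equiv.piComm fun (_ : ι) (_ : κ) => ZMod p)]
  have := pr_sum_ge_le (Ω := fun _ : ι => κ → ZMod p) univ
    (fun _ h => Real.cos (ang (∑ a, h a * y a))) (fun _ => 1)
    (fun _ _ _ => Real.abs_cos_le_one _)
    (fun _ _ => by rw [expect_dot hy (fun u => Real.cos (ang u)), expect_cos_ang])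
    (V := Fintype.card ι) (u := Fintype.card ι / 2) hM (by simp) (by positivity)
  refine le_trans (le_of_eq ?_) (this.trans (le_of_eq ?_))
  · congr 1
    funext H
    congr 2
    funext j
    congr 2
    unfold dualv
    exact sum_congr rfl fun a _ => by simp [mul_comm, Equiv.piComm, Function.swap]
  · congr 1
    field_simp
    ring

/-- A random parity check matrix is good with probability at least `1/4`. -/
theorem pr_not_goodH [Fact p.Prime] [DecidableEq ι] [DecidableEq κ]
    (hM : 2000 ≤ Fintype.card ι) (hp : (Fintype.card ι : ℝ) ≤ (p : ℝ) ^ 2)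
    (hlo : Real.exp (Fintype.card ι / 40) ≤ (p : ℝ) ^ Fintype.card κ)
    (hhi : (p : ℝ) ^ Fintype.card κ ≤ Real.exp (Fintype.card ι / 20)) :
    pr (fun H : κ → ι → ZMod p => ¬ GoodH H) ≤ 3 / 4 := by
  have : Nonempty ι := Fintype.card_pos_iff.1 (by omega)
  set M : ℝ := (Fintype.card ι : ℝ) with hMdef
  have hM' : (2000 : ℝ) ≤ M := by rw [hMdef]; exact_mod_cast hM
  have hq : (0 : ℝ) < (p : ℝ) ^ Fintype.card κ := (Real.exp_pos _).trans_le hlo
  set R : ℕ := ⌊M / 500⌋₊ with hR
  have hRle : (R : ℝ) ≤ M / 500 := Nat.floor_le (by positivity)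
  have h1 : pr (fun H : κ → ι → ZMod p => ∃ k ∈ (ballZ ι R).erase 0, syn H k = 0) ≤
      Real.exp (M / 41) * ((p : ℝ) ^ Fintype.card κ)⁻¹ := by
    refine (pr_exists_mem_le_card_mul _ _ (δ := ((p : ℝ) ^ Fintype.card κ)⁻¹)
      fun k hk => le_of_eq (pr_syn_eq_zero ?_)).trans ?_
    · obtain ⟨hk0, hk⟩ := mem_erase.1 hk
      rw [mem_ballZ] at hk
      intro h0
      apply hk0
      funext j
      have hj : ((k j : ℤ) : ZMod p) = 0 := congrFun h0 j
      rw [ZMod.intCast_zmod_eq_zero_iff_dvd] at hj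
      have h2 : k j ^ 2 ≤ R :=
        (single_le_sum (f := fun j => k j ^ 2) (fun _ _ => sq_nonneg _) (mem_univ j)).trans hk
      have h3 : ((k j : ℝ)) ^ 2 ≤ R := by exact_mod_cast h2
      have h4 : ((k j : ℝ)) ^ 2 < (p : ℝ) ^ 2 := by linarith
      have h5 : |k j| < (p : ℤ) := by
        have := abs_lt_of_sq_lt_sq h4 (Nat.cast_nonneg p)
        exact_mod_cast this
      exact Int.eq_zero_of_abs_lt_dvd hj h5
    · refine mul_le_mul_of_nonneg_right ?_ (by positivity)
      refine le_trans ?_ (card_ballZ_small ι hRle)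
      exact_mod_cast card_erase_le
  have h2 : pr (fun H : κ → ι → ZMod p => ∃ y ∈ (univ : Finset (κ → ZMod p)).erase 0,
      M / 2 ≤ ∑ j, Real.cos (ang (dualv H y j))) ≤
      (p : ℝ) ^ Fintype.card κ * Real.exp (-(M / 8)) := by
    refine (pr_exists_mem_le_card_mul _ _ (δ := Real.exp (-(M / 8)))
      fun y hy => pr_dual_bad (mem_erase.1 hy).1).trans ?_
    refine mul_le_mul_of_nonneg_right ?_ (by positivity)
    have : ((univ : Finset (κ → ZMod p)).erase 0).card ≤ p ^ Fintype.card κ := by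
      refine card_erase_le.trans (le_of_eq ?_)
      simp [ZMod.card]
    exact_mod_cast this
  have h3 : Real.exp (M / 41) * ((p : ℝ) ^ Fintype.card κ)⁻¹ ≤ Real.exp (-1) := by
    rw [← div_eq_mul_inv, div_le_iff₀ hq]
    refine le_trans ?_ (mul_le_mul_of_nonneg_left hlo (Real.exp_pos _).le)
    rw [← Real.exp_add]
    exact Real.exp_le_exp.2 (by linarith)
  have h4 : (p : ℝ) ^ Fintype.card κ * Real.exp (-(M / 8)) ≤ Real.exp (-1) := by
    refine (mul_le_mul_of_nonneg_right hhi (Real.exp_pos _).le).trans ?_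
    rw [← Real.exp_add]
    exact Real.exp_le_exp.2 (by linarith)
  have h5 := Real.exp_neg_one_lt_d9
  refine le_trans (pr_mono fun H hG => ?_)
    (((pr_or_le _ _).trans (add_le_add (h1.trans h3) (h2.trans h4))).trans (by linarith))
  by_contra hH
  rw [not_or] at hH
  refine hG ⟨fun k hk0 hk => ?_, fun y hy => ?_⟩
  · by_contra hc
    push Not at hc
    refine hH.1 ⟨k, mem_erase.2 ⟨hk0, mem_ballZ.2 ?_⟩, hk⟩
    have h6 : ((∑ j, k j ^ 2 : ℤ) : ℝ) ≤ M / 500 := by push_cast; exact hc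
    have h7 : (0 : ℤ) ≤ ∑ j, k j ^ 2 := sum_nonneg fun _ _ => sq_nonneg _
    obtain ⟨n, hn⟩ := Int.eq_ofNat_of_zero_le h7
    rw [hn] at h6 ⊢
    exact_mod_cast Nat.le_floor (by exact_mod_cast h6)
  · by_contra hc
    push Not at hc
    exact hH.2 ⟨y, mem_erase.2 ⟨hy, mem_univ _⟩, hc.le⟩

/-- Existence of a good parity check matrix. -/
theorem exists_goodH [Fact p.Prime] [DecidableEq ι] [DecidableEq κ]
    (hM : 2000 ≤ Fintype.card ι) (hp : (Fintype.card ι : ℝ) ≤ (p : ℝ) ^ 2)
    (hlo : Real.exp (Fintype.card ι / 40) ≤ (p : ℝ) ^ Fintype.card κ)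
    (hhi : (p : ℝ) ^ Fintype.card κ ≤ Real.exp (Fintype.card ι / 20)) :
    ∃ H : κ → ι → ZMod p, GoodH H := by
  obtain ⟨H, hH⟩ := exists_not_of_pr_lt_one
    ((pr_not_goodH hM hp hlo hhi).trans_lt (by norm_num))
  exact ⟨H, not_not.1 hH⟩

end Vale.Agent.P318.R
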