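import Vale.Agent.P318.RedFin

/-!
From a weighted instance in which only balanced cuts are expensive to the integrality gap
`gap n` for every large `n`.
-/

namespace Vale.Agent.P318

open Finset

variable {X : Type*} [Fintype X] [DecidableEq X]

theorem exists_nat_round (t : X → ℝ) (ht : ∀ x, 0 ≤ t x) {n : ℕ} (hn : ∑ x, t x = n) :
    ∃ m : X → ℕ, ∑ x, m x = n ∧ ∀ x, ⌊t x⌋₊ ≤ m x ∧ m x ≤ ⌈t x⌉₊ := by
  classical
  let F : Finset X := univ.filter fun x => ⌊t x⌋₊ ≠ ⌈t x⌉₊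
  have h1 : ∑ x, ⌊t x⌋₊ ≤ n := by
    have : ((∑ x, ⌊t x⌋₊ : ℕ) : ℝ) ≤ n := by
      rw [← hn]; push_cast
      exact Finset.sum_le_sum fun x _ => Nat.floor_le (ht x)
    exact_mod_cast this
  have h2 : n ≤ ∑ x, ⌈t x⌉₊ := by
    have : (n : ℝ) ≤ ((∑ x, ⌈t x⌉₊ : ℕ) : ℝ) := by
      rw [← hn]; push_cast
      exact Finset.sum_le_sum fun x _ => Nat.le_ceil _
    exact_mod_cast this
  have h3 : ∀ x, ⌈t x⌉₊ = ⌊t x⌋₊ + if x ∈ F then 1 else 0 := by
    intro x
    have a1 := Nat.floor_le_ceil (t x)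
    have a2 := Nat.ceil_le_floor_add_one (t x)
    by_cases hx : x ∈ F
    · have : ⌊t x⌋₊ ≠ ⌈t x⌉₊ := by simpa [F] using hx
      simp only [hx, if_true]; omega
    · have : ⌊t x⌋₊ = ⌈t x⌉₊ := by simpa [F] using hx
      simp only [hx, if_false]; omega
  have h4 : ∑ x, ⌈t x⌉₊ = ∑ x, ⌊t x⌋₊ + F.card := by
    simp_rw [h3]
    rw [Finset.sum_add_distrib]
    simp
  obtain ⟨G, hG, hGc⟩ := Finset.exists_subset_card_eq (s := F) (n := n - ∑ x, ⌊t x⌋₊) (by omega)
  refine ⟨fun x => ⌊t x⌋₊ + if x ∈ G then 1 else 0, ?_, fun x => ⟨Nat.le_add_right _ _, ?_⟩⟩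
  · rw [Finset.sum_add_distrib]
    simp [hGc]
    omega
  · rw [h3]
    by_cases hx : x ∈ G
    · simp [hx, hG hx]
    · simp [hx]

theorem sum_sigma_fst (m : X → ℕ) (T : Finset X) (g : X → ℝ) :
    ∑ i ∈ univ.filter (fun i : (Σ v : X, Fin (m v)) => i.1 ∈ T), g i.1
      = ∑ v ∈ T, (m v : ℝ) * g v := by
  rw [Finset.sum_filter, Fintype.sum_sigma]
  simp only [Finset.sum_const, Finset.card_univ, Fintype.card_fin, nsmul_eq_mul, mul_ite, mul_zero]
  rw [← Finset.sum_filter]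
  simp

theorem sum_sigma_univ (m : X → ℕ) (g : X → ℝ) :
    ∑ i : (Σ v : X, Fin (m v)), g i.1 = ∑ v, (m v : ℝ) * g v := by
  simpa using sum_sigma_fst m univ g

/-- Replication of vertices: `m v` copies of the vertex `v`. -/
theorem gap_ge_of_mult (m : X → ℕ) {n : ℕ} (hn : ∑ x, m x = n) (Y : Finset X)
    (hY : ∀ v, v ∈ Y ↔ m v ≠ 0)
    {c d : X → X → ℝ} (hcs : ∀ x y, c x y = c y x) (hc0 : ∀ x y, 0 ≤ c x y)
    (hd : NegKer d) (htri : ∀ i j k, d i k ≤ d i j + d j k) {φ A D : ℝ} (hφ : 0 < φ) (hD : 0 < D)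
    (hcut : ∀ T : Finset X, T ⊆ Y → T.Nonempty → T ≠ Y →
      φ * ((∑ v ∈ T, (m v : ℝ)) * ∑ v ∈ Y \ T, (m v : ℝ)) ≤ ∑ v ∈ T, ∑ w ∈ Y \ T, c v w)
    (hA : ∑ i, ∑ j, c i j * d i j ≤ A)
    (hDd : D ≤ ∑ v, ∑ w, (m v : ℝ) * m w * d v w) : φ * D / A ≤ gap n := by
  classical
  let V := Σ v : X, Fin (m v)
  have hV : Fintype.card V = n := by simp [V, Fintype.card_sigma, hn]
  have hm : ∀ i : V, (0 : ℝ) < m i.1 := fun i => by exact_mod_cast Fin.pos i.2
  let c' : V → V → ℝ := fun i j =>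
    if i.1 = j.1 then (if i = j then 0 else φ * (n : ℝ) ^ 2) else c i.1 j.1 / (m i.1 * m j.1)
  have hc'0 : ∀ i j, 0 ≤ c' i j := by
    intro i j
    simp only [c']
    split_ifs
    · exact le_rfl
    · positivity
    · exact div_nonneg (hc0 _ _) (by positivity)
  refine gap_ge_fintype (V := V) hV (c := c') (d := fun i j => d i.1 j.1) ?_ hc'0 ?_
    (hd.comp fun i : V => i.1) (fun i j k => htri _ _ _) hφ hD ?_ ?_ ?_
  · intro i j
    simp only [c', eq_comm (a := i.1), eq_comm (a := i), hcs i.1, mul_comm (m i.1 : ℝ)]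
  · intro i
    simp [c']
  · intro S h1 h2
    by_cases hsplit : ∃ i ∈ S, ∃ j ∈ Sᶜ, i.1 = j.1
    · obtain ⟨i, hi, j, hj, hij⟩ := hsplit
      have hne : i ≠ j := fun h => (mem_compl.mp hj) (h ▸ hi)
      have e1 : c' i j = φ * (n : ℝ) ^ 2 := by simp [c', hij, hne]
      have e2 : (S.card : ℝ) ≤ n := by exact_mod_cast hV ▸ Finset.card_le_univ S
      have e3 : (0 : ℝ) ≤ S.card := by positivity
      calc φ * ((S.card : ℝ) * ((n : ℝ) - (S.card : ℝ))) ≤ φ * (n : ℝ) ^ 2 := by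
            apply mul_le_mul_of_nonneg_left _ hφ.le
            nlinarith
        _ = c' i j := e1.symm
        _ ≤ ∑ j ∈ Sᶜ, c' i j := Finset.single_le_sum (fun j _ => hc'0 i j) hj
        _ ≤ ∑ i ∈ S, ∑ j ∈ Sᶜ, c' i j :=
            Finset.single_le_sum (f := fun i => ∑ j ∈ Sᶜ, c' i j)
              (fun i _ => Finset.sum_nonneg fun j _ => hc'0 i j) hi
    · push Not at hsplit
      let T : Finset X := S.image fun i => i.1
      have hS : S = univ.filter fun i : V => i.1 ∈ T := by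
        ext i
        simp only [T, mem_filter, mem_univ, true_and, mem_image]
        refine ⟨fun hi => ⟨i, hi, rfl⟩, fun ⟨j, hj, hji⟩ => ?_⟩
        by_contra hi
        exact hsplit j hj i (mem_compl.mpr hi) hji
      have hYi : ∀ i : V, i.1 ∈ Y := fun i => (hY _).mpr (Fin.pos i.2).ne'
      have hSc : Sᶜ = univ.filter fun i : V => i.1 ∈ Y \ T := by
        ext i
        rw [mem_compl, hS]
        simp [hYi i]
      have hTY : T ⊆ Y := by
        intro v hv
        obtain ⟨i, -, rfl⟩ := mem_image.mp hv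
        exact hYi i
      have hTne : T ≠ Y := by
        intro h
        apply h2
        rw [hS]
        ext i
        simp [h, hYi i]
      have h := hcut T hTY (h1.image _) hTne
      have c1 : (S.card : ℝ) = ∑ v ∈ T, (m v : ℝ) := by
        have := sum_sigma_fst m T fun _ => 1
        rw [← hS] at this
        simpa using this
      have c2 : (n : ℝ) - S.card = ∑ v ∈ Y \ T, (m v : ℝ) := by
        have := sum_sigma_fst m (Y \ T) fun _ => 1
        rw [← hSc] at this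
        simp only [sum_const, nsmul_eq_mul, mul_one] at this
        rw [← this, Finset.card_compl, hV, Nat.cast_sub (hV ▸ Finset.card_le_univ S)]
      rw [c2, c1]
      refine h.trans (le_of_eq ?_)
      have e1 : ∑ i ∈ S, ∑ j ∈ Sᶜ, c' i j
          = ∑ i ∈ S, ∑ j ∈ Sᶜ, c i.1 j.1 / (m i.1 * m j.1) :=
        Finset.sum_congr rfl fun i hi => Finset.sum_congr rfl fun j hj => by
          simp [c', hsplit i hi j hj]
      rw [e1]
      conv_rhs => rw [hSc]; rw [hS]
      rw [sum_sigma_fst m T fun v => ∑ j ∈ univ.filter (fun i : V => i.1 ∈ Y \ T),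
        c v j.1 / (m v * m j.1)]
      refine Finset.sum_congr rfl fun v hv => ?_
      rw [sum_sigma_fst m (Y \ T) fun w => c v w / (m v * m w), Finset.mul_sum]
      refine Finset.sum_congr rfl fun w hw => ?_
      have a1 : (m v : ℝ) ≠ 0 := by exact_mod_cast (hY v).mp (hTY hv)
      have a2 : (m w : ℝ) ≠ 0 := by exact_mod_cast (hY w).mp (mem_sdiff.mp hw).1
      field_simp
  · refine le_trans ?_ hA
    have e1 : ∀ i j : V, c' i j * d i.1 j.1 = c i.1 j.1 * d i.1 j.1 / (m i.1 * m j.1) := by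
      intro i j
      by_cases h : i.1 = j.1
      · simp [h, hd.self]
      · simp only [c', h, if_false]; ring
    simp only [e1]
    rw [sum_sigma_univ m fun v => ∑ j : V, c v j.1 * d v j.1 / (m v * m j.1)]
    refine Finset.sum_le_sum fun v _ => ?_
    rw [sum_sigma_univ m fun w => c v w * d v w / (m v * m w), Finset.mul_sum]
    refine Finset.sum_le_sum fun w _ => ?_
    have h0 : 0 ≤ c v w * d v w := mul_nonneg (hc0 _ _) (hd.nonneg _ _)
    by_cases a1 : (m v : ℝ) = 0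
    · simpa [a1] using h0
    by_cases a2 : (m w : ℝ) = 0
    · simpa [a2] using h0
    exact le_of_eq (by field_simp)
  · refine hDd.trans (le_of_eq ?_)
    rw [sum_sigma_univ m fun v => ∑ j : V, d v j.1]
    refine Finset.sum_congr rfl fun v _ => ?_
    rw [sum_sigma_univ m fun w => d v w, Finset.mul_sum]
    exact Finset.sum_congr rfl fun w _ => by ring

/-- Removal of a maximal sparse set: afterwards every small set expands. -/
theorem exists_core (μ a : X → ℝ)
    {c : X → X → ℝ} (hc0 : ∀ x y, 0 ≤ c x y) {K L β : ℝ} (hβ0 : 0 ≤ β) (hβ : β ≤ 1 / 4)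
    (hL : ∀ S : Finset X, ∑ x ∈ S, μ x ≤ 1 - β → L * ∑ x ∈ S, a x < K)
    (hcut : ∀ S : Finset X, β ≤ ∑ x ∈ S, μ x → ∑ x ∈ S, μ x ≤ 1 - β →
      K ≤ ∑ x ∈ S, ∑ y ∈ Sᶜ, c x y) :
    ∃ Y : Finset X, ∑ x ∈ Yᶜ, μ x ≤ β ∧ ∀ T : Finset X, T ⊆ Y → T.Nonempty →
      ∑ x ∈ T, μ x ≤ 1 / 2 → L * ∑ x ∈ T, a x ≤ ∑ x ∈ T, ∑ y ∈ Y \ T, c x y := by
  classical
  let 𝒮 : Finset (Finset X) := univ.filter fun S =>
    ∑ x ∈ S, μ x ≤ β ∧ ∑ x ∈ S, ∑ y ∈ Sᶜ, c x y ≤ L * ∑ x ∈ S, a x
  have hne : 𝒮.Nonempty := ⟨∅, by simp [𝒮, hβ0]⟩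
  obtain ⟨S, hS, hmax⟩ := Finset.exists_max_image 𝒮 Finset.card hne
  simp only [𝒮, mem_filter, mem_univ, true_and] at hS hmax
  refine ⟨Sᶜ, by simpa using hS.1, fun T hT hTne hTμ => ?_⟩
  by_contra hlt
  push Not at hlt
  have hdisj : Disjoint S T := Finset.disjoint_left.mpr fun x hx hx' => mem_compl.mp (hT hx') hx
  have hsparse : ∑ x ∈ S ∪ T, ∑ y ∈ (S ∪ T)ᶜ, c x y ≤ L * ∑ x ∈ S ∪ T, a x := by
    rw [Finset.sum_union hdisj, Finset.sum_union hdisj, mul_add]
    refine add_le_add (le_trans ?_ hS.2) (le_trans (le_of_eq ?_) hlt.le)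
    · exact Finset.sum_le_sum fun x _ => Finset.sum_le_sum_of_subset_of_nonneg
        (Finset.compl_subset_compl.mpr subset_union_left) fun y _ _ => hc0 x y
    · refine Finset.sum_congr rfl fun x _ => ?_
      congr 1
      ext y; simp
  have hbig : β < ∑ x ∈ S ∪ T, μ x := by
    by_contra h
    have := hmax (S ∪ T) ⟨not_lt.mp h, hsparse⟩
    rw [Finset.card_union_of_disjoint hdisj] at this
    have := hTne.card_pos
    omega
  have hsmall : ∑ x ∈ S ∪ T, μ x ≤ 1 - β := by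
    rw [Finset.sum_union hdisj]
    linarith [hS.1]
  have h1 := hcut _ hbig.le hsmall
  have h2 := hL _ hsmall
  linarith

/-- Main reduction. `μ` is a probability vector on `X`, `c` are capacities, `d` is a
negative-type semimetric. Every cut with `μ`-measure in `[β, 1 - β]` costs at least `K`, the
relaxation costs at most `A`, and the average distance stays at least `B` after the removal of any
set of measure at most `β`. Then `gap n ≥ K B / (32 A)` for all `n ≥ 2 |X|`. -/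
theorem gap_ge_of_weighted (μ : X → ℝ) (hμ0 : ∀ x, 0 ≤ μ x) (hμ1 : ∑ x, μ x = 1)
    {c d : X → X → ℝ} (hcs : ∀ x y, c x y = c y x) (hc0 : ∀ x y, 0 ≤ c x y)
    (hd : NegKer d) (htri : ∀ x y z, d x z ≤ d x y + d y z) {K A B β : ℝ} (hK : 0 < K)
    (hB : 0 < B) (hβ0 : 0 < β) (hβ : β ≤ 1 / 4)
    (hcut : ∀ S : Finset X, β ≤ ∑ x ∈ S, μ x → ∑ x ∈ S, μ x ≤ 1 - β →
      K ≤ ∑ x ∈ S, ∑ y ∈ Sᶜ, c x y)
    (hA : ∑ x, ∑ y, c x y * d x y ≤ A)
    (hspread : ∀ Y : Finset X, 1 - β ≤ ∑ x ∈ Y, μ x → B ≤ ∑ x ∈ Y, ∑ y ∈ Y, μ x * μ y * d x y)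
    {n : ℕ} (hn : 2 * Fintype.card X ≤ n) : K * B / (32 * A) ≤ gap n := by
  classical
  have hX : 0 < Fintype.card X := by
    rw [Fintype.card_pos_iff]
    by_contra h
    rw [not_nonempty_iff] at h
    simp at hμ1
  set N : ℝ := (Fintype.card X : ℝ) with hN
  have hN0 : 0 < N := by rw [hN]; exact_mod_cast hX
  have hnN : 2 * N ≤ n := by rw [hN]; exact_mod_cast hn
  have hn0 : (0 : ℝ) < n := by linarith
  let a : X → ℝ := fun x => μ x + 1 / N
  have ha0 : ∀ x, 0 < a x := fun x => add_pos_of_nonneg_of_pos (hμ0 x) (by positivity)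
  have haS : ∀ S : Finset X, ∑ x ∈ S, a x ≤ ∑ x ∈ S, μ x + 1 := by
    intro S
    simp only [a, Finset.sum_add_distrib, Finset.sum_const, nsmul_eq_mul]
    have : (S.card : ℝ) ≤ N := by rw [hN]; exact_mod_cast Finset.card_le_univ S
    have : (S.card : ℝ) * (1 / N) ≤ 1 := by rw [mul_one_div, div_le_one hN0]; exact this
    linarith
  obtain ⟨Y, hY1, hY2⟩ := exists_core μ a hc0 (K := K) (L := K / 2) hβ0.le hβ
    (fun S hS => by have := haS S; nlinarith) hcut
  have hμY : 1 - β ≤ ∑ x ∈ Y, μ x := by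
    have := Finset.sum_add_sum_compl Y μ
    linarith
  have hμY1 : ∑ x ∈ Y, μ x ≤ 1 :=
    hμ1 ▸ Finset.sum_le_sum_of_subset_of_nonneg (subset_univ _) fun x _ _ => hμ0 x
  set s := ∑ x ∈ Y, a x with hs
  have hs1 : 3 / 4 ≤ s := by
    have : ∑ x ∈ Y, μ x ≤ s := Finset.sum_le_sum fun x _ => by
      simp only [a]; have : 0 ≤ 1 / N := by positivity
      linarith
    linarith
  have hs2 : s ≤ 2 := by have := haS Y; linarith
  have hs0 : 0 < s := by linarith
  let t : X → ℝ := fun x => if x ∈ Y then n * a x / s else 0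
  have ht0 : ∀ x, 0 ≤ t x := fun x => by
    simp only [t]; split_ifs
    · exact div_nonneg (mul_nonneg hn0.le (ha0 x).le) hs0.le
    · exact le_rfl
  have ht1 : ∀ x ∈ Y, 1 ≤ t x := by
    intro x hx
    simp only [t, hx, if_true]
    rw [le_div_iff₀ hs0]
    have h1 : 1 / N ≤ a x := by simp only [a]; linarith [hμ0 x]
    have h2 : 2 * N * (1 / N) ≤ n * a x := mul_le_mul hnN h1 (by positivity) hn0.le
    have h3 : 2 * N * (1 / N) = 2 := by field_simp
    linarith
  have htn : ∑ x, t x = n := by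
    simp only [t]
    rw [← Finset.sum_filter]
    simp only [Finset.filter_mem_eq_inter, Finset.univ_inter]
    rw [← Finset.sum_div, ← Finset.mul_sum, ← hs]
    field_simp
  obtain ⟨m, hmn, hm⟩ := exists_nat_round t ht0 htn
  have hm1 : ∀ x ∈ Y, t x / 2 ≤ m x := by
    intro x hx
    have h1 : (⌊t x⌋₊ : ℝ) ≤ m x := by exact_mod_cast (hm x).1
    have h2 := Nat.lt_floor_add_one (t x)
    have h3 : (1 : ℝ) ≤ ⌊t x⌋₊ := by exact_mod_cast (Nat.one_le_floor_iff _).mpr (ht1 x hx)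
    linarith
  have hm2 : ∀ x ∈ Y, (m x : ℝ) ≤ 2 * t x := by
    intro x hx
    have h1 : (m x : ℝ) ≤ ⌈t x⌉₊ := by exact_mod_cast (hm x).2
    have h2 := Nat.ceil_lt_add_one (ht0 x)
    linarith [ht1 x hx]
  have hYm : ∀ v, v ∈ Y ↔ m v ≠ 0 := by
    intro v
    refine ⟨fun hv h => ?_, fun h => ?_⟩
    · have h1 := hm1 v hv
      rw [h] at h1
      have := ht1 v hv
      simp at h1
      linarith
    · by_contra hv
      have h1 := (hm v).2
      simp only [t, hv, if_false, Nat.ceil_zero] at h1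
      omega
  have hmT : ∀ T : Finset X, T ⊆ Y → ∑ v ∈ T, (m v : ℝ) ≤ 2 * n / s * ∑ v ∈ T, a v := by
    intro T hT
    rw [Finset.mul_sum]
    refine Finset.sum_le_sum fun v hv => (hm2 v (hT hv)).trans (le_of_eq ?_)
    simp only [t, hT hv, if_true]; ring
  have hmn' : ∀ T : Finset X, ∑ v ∈ T, (m v : ℝ) ≤ n := by
    intro T
    rw [← hmn]; push_cast
    exact Finset.sum_le_sum_of_subset_of_nonneg (subset_univ _) fun x _ _ => by positivity
  have hsmall : ∀ T : Finset X, T ⊆ Y → T.Nonempty → ∑ x ∈ T, μ x ≤ 1 / 2 → ∀ r : ℝ, 0 ≤ r →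
      r ≤ n → K * s / (4 * (n : ℝ) ^ 2) * ((∑ v ∈ T, (m v : ℝ)) * r)
        ≤ ∑ v ∈ T, ∑ w ∈ Y \ T, c v w := by
    intro T hT hTne hTμ r hr0 hr
    refine le_trans ?_ (hY2 T hT hTne hTμ)
    have h1 := hmT T hT
    have h2 : 0 ≤ ∑ v ∈ T, a v := Finset.sum_nonneg fun v _ => (ha0 v).le
    calc K * s / (4 * (n : ℝ) ^ 2) * ((∑ v ∈ T, (m v : ℝ)) * r)
        ≤ K * s / (4 * (n : ℝ) ^ 2) * ((2 * n / s * ∑ v ∈ T, a v) * n) := by gcongr
      _ = K / 2 * ∑ v ∈ T, a v := by field_simp; ring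
  have key := gap_ge_of_mult m hmn Y hYm hcs hc0 hd htri (φ := K * s / (4 * (n : ℝ) ^ 2))
    (D := (n / (2 * s)) ^ 2 * B) (by positivity) (by positivity) ?_ hA ?_
  · refine le_trans ?_ key
    have hA0 : 0 ≤ A := le_trans (Finset.sum_nonneg fun x _ => Finset.sum_nonneg fun y _ =>
      mul_nonneg (hc0 x y) (hd.nonneg x y)) hA
    rcases hA0.eq_or_lt with rfl | hA0
    · simp
    have : K * s / (4 * (n : ℝ) ^ 2) * ((n / (2 * s)) ^ 2 * B) / A = K * B / (16 * s * A) := by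
      field_simp; ring
    rw [this]
    gcongr
    linarith
  · intro T hT hTne hTY
    by_cases h : ∑ x ∈ T, μ x ≤ 1 / 2
    · exact hsmall T hT hTne h _ (Finset.sum_nonneg fun v _ => by positivity) (hmn' _)
    · have h1 : ∑ x ∈ Y \ T, μ x ≤ 1 / 2 := by
        have := Finset.sum_sdiff (f := μ) hT
        linarith
      have h2 : (Y \ T).Nonempty := by
        rw [Finset.sdiff_nonempty]
        exact fun h => hTY (Finset.Subset.antisymm hT h)
      have h3 := hsmall (Y \ T) sdiff_subset h2 h1 (∑ v ∈ T, (m v : ℝ))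
        (Finset.sum_nonneg fun v _ => by positivity) (hmn' _)
      rw [Finset.sdiff_sdiff_eq_self hT, Finset.sum_comm] at h3
      rw [mul_comm (∑ v ∈ T, (m v : ℝ))]
      refine h3.trans (le_of_eq ?_)
      exact Finset.sum_congr rfl fun v _ => Finset.sum_congr rfl fun w _ => hcs _ _
  · have h1 : ∀ x ∈ Y, n / (2 * s) * μ x ≤ m x := by
      intro x hx
      refine le_trans ?_ (hm1 x hx)
      simp only [t, hx, if_true]
      have : μ x ≤ a x := by
        simp only [a]; have : 0 ≤ 1 / N := by positivity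
        linarith
      calc n / (2 * s) * μ x ≤ n / (2 * s) * a x := by gcongr
        _ = n * a x / s / 2 := by field_simp
    calc (n / (2 * s)) ^ 2 * B ≤ (n / (2 * s)) ^ 2 * ∑ x ∈ Y, ∑ y ∈ Y, μ x * μ y * d x y :=
          mul_le_mul_of_nonneg_left (hspread Y hμY) (by positivity)
      _ = ∑ x ∈ Y, ∑ y ∈ Y, (n / (2 * s) * μ x) * (n / (2 * s) * μ y) * d x y := by
          rw [Finset.mul_sum]
          refine Finset.sum_congr rfl fun x _ => ?_
          rw [Finset.mul_sum]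
          exact Finset.sum_congr rfl fun y _ => by ring
      _ ≤ ∑ x ∈ Y, ∑ y ∈ Y, (m x : ℝ) * m y * d x y := by
          refine Finset.sum_le_sum fun x hx => Finset.sum_le_sum fun y hy => ?_
          refine mul_le_mul_of_nonneg_right ?_ (hd.nonneg x y)
          exact mul_le_mul (h1 x hx) (h1 y hy)
            (mul_nonneg (by positivity) (hμ0 y)) (by positivity)
      _ ≤ ∑ x ∈ Y, ∑ y, (m x : ℝ) * m y * d x y :=
          Finset.sum_le_sum fun x _ => Finset.sum_le_sum_of_subset_of_nonneg (subset_univ _)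
            fun y _ _ => mul_nonneg (by positivity) (hd.nonneg x y)
      _ ≤ ∑ x, ∑ y, (m x : ℝ) * m y * d x y :=
          Finset.sum_le_sum_of_subset_of_nonneg (subset_univ _)
            fun x _ _ => Finset.sum_nonneg fun y _ => mul_nonneg (by positivity) (hd.nonneg x y)

omit [DecidableEq X] in
/-- The spread hypothesis from a bound on the probability of short distances. -/
theorem spread_of_far (μ : X → ℝ) (hμ0 : ∀ x, 0 ≤ μ x) {d : X → X → ℝ}
    (hd0 : ∀ x y, 0 ≤ d x y) {R β γ : ℝ} (hR : 0 ≤ R) (hβ : β ≤ 1)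
    (hfar : ∑ x, ∑ y, (if d x y < R then μ x * μ y else 0) ≤ γ) (Y : Finset X)
    (hY : 1 - β ≤ ∑ x ∈ Y, μ x) :
    R * ((1 - β) ^ 2 - γ) ≤ ∑ x ∈ Y, ∑ y ∈ Y, μ x * μ y * d x y := by
  have h1 : (1 - β) ^ 2 ≤ ∑ x ∈ Y, ∑ y ∈ Y, μ x * μ y := by
    rw [← Finset.sum_mul_sum, ← sq]
    exact pow_le_pow_left₀ (by linarith) hY 2
  have h2 : ∑ x ∈ Y, ∑ y ∈ Y, (if d x y < R then μ x * μ y else 0) ≤ γ := by
    have h0 : ∀ x y, 0 ≤ (if d x y < R then μ x * μ y else 0) := fun x y => by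
      split_ifs
      · exact mul_nonneg (hμ0 x) (hμ0 y)
      · exact le_rfl
    refine le_trans ?_ hfar
    calc _ ≤ ∑ x ∈ Y, ∑ y, (if d x y < R then μ x * μ y else 0) :=
          Finset.sum_le_sum fun x _ => Finset.sum_le_sum_of_subset_of_nonneg (subset_univ _)
            fun y _ _ => h0 x y
      _ ≤ _ := Finset.sum_le_sum_of_subset_of_nonneg (subset_univ _)
            fun x _ _ => Finset.sum_nonneg fun y _ => h0 x y
  calc R * ((1 - β) ^ 2 - γ) ≤ R * (∑ x ∈ Y, ∑ y ∈ Y, μ x * μ y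
        - ∑ x ∈ Y, ∑ y ∈ Y, (if d x y < R then μ x * μ y else 0)) :=
        mul_le_mul_of_nonneg_left (by linarith) hR
    _ = ∑ x ∈ Y, ∑ y ∈ Y, R * (μ x * μ y - if d x y < R then μ x * μ y else 0) := by
        rw [← Finset.sum_sub_distrib, Finset.mul_sum]
        refine Finset.sum_congr rfl fun x _ => ?_
        rw [← Finset.sum_sub_distrib, Finset.mul_sum]
    _ ≤ _ := by
        refine Finset.sum_le_sum fun x _ => Finset.sum_le_sum fun y _ => ?_
        have h3 := mul_nonneg (hμ0 x) (hμ0 y)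
        split_ifs with h
        · simpa using mul_nonneg h3 (hd0 x y)
        · rw [sub_zero, mul_comm]
          exact mul_le_mul_of_nonneg_left (not_lt.mp h) h3

end Vale.Agent.P318
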