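import Vale.Agent.P318.RNet

/-!
Independent subgaussian rows: tails of linear forms, operator norms of submatrices,
off-diagonal restricted isometry.
-/

namespace Vale.Agent.P318.R

open Finset
open scoped BigOperators

variable {ι α Ω : Type*} [Fintype ι] [Fintype α] [Fintype Ω]

/-- The random vector `ρ` is subgaussian with constant `A`. -/
def SG (ρ : Ω → ι → ℝ) (A : ℝ) : Prop :=
  ∀ v : ι → ℝ, 𝔼 u, Real.exp (∑ j, v j * ρ u j) ≤ A * Real.exp (∑ j, v j ^ 2)

lemma SG.one_le [Nonempty Ω] {ρ : Ω → ι → ℝ} {A : ℝ} (h : SG ρ A) : 1 ≤ A := by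
  simpa using h 0

/-- The rows in `T` form a matrix of operator norm at most `K`. -/
def OpLe (b : α → ι → ℝ) (T : Finset α) (K : ℝ) : Prop :=
  ∀ (x : α → ℝ) (y : ι → ℝ), |∑ i ∈ T, x i * ∑ j, b i j * y j| ≤ K * √(∑ i ∈ T, x i ^ 2) * nr y

/-- Off-diagonal part of the Gram matrix on sets `S`, `T`. -/
def OffLe [DecidableEq α] (b : α → ι → ℝ) (S T : Finset α) (K : ℝ) : Prop :=
  ∀ z q : α → ℝ, |∑ i ∈ S, ∑ l ∈ T.erase i, z i * q l * ∑ j, b i j * b l j| ≤
    K * √(∑ i ∈ S, z i ^ 2) * √(∑ l ∈ T, q l ^ 2)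

omit [Fintype α] in
lemma OpLe.mono {b : α → ι → ℝ} {T : Finset α} {K K' : ℝ} (h : OpLe b T K) (hK : K ≤ K') :
    OpLe b T K' := fun x y =>
  (h x y).trans (by have := nr_nonneg y; gcongr)

omit [Fintype α] in
lemma OpLe.subset [DecidableEq α] {b : α → ι → ℝ} {S T : Finset α} {K : ℝ} (h : OpLe b T K)
    (hS : S ⊆ T) : OpLe b S K := by
  intro x y
  have := h (fun i => if i ∈ S then x i else 0) y
  simp only [ite_mul, zero_mul, ite_pow, ne_eq, OfNat.ofNat_ne_zero, not_false_eq_true,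
    zero_pow, sum_ite_mem, inter_eq_right.2 hS] at this
  exact this

omit [Fintype α] in
/-- `|∑ x_i b_i| ≤ K |x|`. -/
lemma OpLe.nr_comb {b : α → ι → ℝ} {T : Finset α} {K : ℝ} (h : OpLe b T K) (hK : 0 ≤ K)
    (x : α → ℝ) : nr (fun j => ∑ i ∈ T, x i * b i j) ≤ K * √(∑ i ∈ T, x i ^ 2) := by
  refine nr_le_of_dot (by positivity) fun y => le_trans (le_of_eq ?_) ((le_abs_self _).trans (h x y))
  simp only [sum_mul, mul_sum]
  rw [sum_comm]
  exact sum_congr rfl fun _ _ => sum_congr rfl fun _ _ => by ring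

omit [Fintype α] in
lemma OpLe.sum_sq_comb {b : α → ι → ℝ} {T : Finset α} {K : ℝ} (h : OpLe b T K) (hK : 0 ≤ K)
    (x : α → ℝ) : ∑ j, (∑ i ∈ T, x i * b i j) ^ 2 ≤ K ^ 2 * ∑ i ∈ T, x i ^ 2 := by
  have := pow_le_pow_left₀ (nr_nonneg _) (h.nr_comb hK x) 2
  rwa [nr_sq, mul_pow, Real.sq_sqrt (sum_nonneg fun _ _ => sq_nonneg _)] at this

omit [Fintype α] in
/-- `∑ (b_i · y)² ≤ K² |y|²`. -/
lemma OpLe.sum_sq_dot {b : α → ι → ℝ} {T : Finset α} {K : ℝ} (h : OpLe b T K) (hK : 0 ≤ K)
    (y : ι → ℝ) : ∑ i ∈ T, (∑ j, b i j * y j) ^ 2 ≤ K ^ 2 * ∑ j, y j ^ 2 := by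
  have h1 := h (fun i => ∑ j, b i j * y j) y
  simp only [← sq] at h1
  have h0 : 0 ≤ ∑ i ∈ T, (∑ j, b i j * y j) ^ 2 := sum_nonneg fun _ _ => sq_nonneg _
  rw [abs_of_nonneg h0] at h1
  set Q := ∑ i ∈ T, (∑ j, b i j * y j) ^ 2
  have h2 := Real.sq_sqrt h0
  have h3 := Real.sqrt_nonneg Q
  have h4 := nr_nonneg y
  rw [← nr_sq, ← mul_pow]
  have h5 : √Q ≤ K * nr y := by
    by_contra hc
    push Not at hc
    have : 0 ≤ K * nr y := by positivity
    nlinarith
  rw [← h2]
  exact pow_le_pow_left₀ h3 h5 2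

variable [DecidableEq α] [Nonempty Ω]

/-- Tail of a linear form in independent subgaussian rows. -/
lemma pr_lin_ge {ρ : Ω → ι → ℝ} {A : ℝ} (hρ : SG ρ A) (T : Finset α) (V : α → ι → ℝ)
    {W u : ℝ} (hW : 0 < W) (hVW : ∑ i ∈ T, ∑ j, V i j ^ 2 ≤ W) (hu : 0 ≤ u) :
    pr (fun w : α → Ω => u ≤ |∑ i ∈ T, ∑ j, V i j * ρ (w i) j|) ≤
      2 * (A ^ T.card * Real.exp (-(u ^ 2 / (4 * W)))) := by
  have hA := hρ.one_le
  refine pr_abs_ge_le_of_mgf _ hW hu fun t => ?_
  simp only [mul_sum]
  refine (expect_exp_sum_le (Ω := fun _ : α => Ω) T (fun i u => ∑ j, t * (V i j * ρ u j))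
    (fun i => A * Real.exp (t ^ 2 * ∑ j, V i j ^ 2)) fun i _ => ?_).trans ?_
  · have := hρ fun j => t * V i j
    simpa only [mul_assoc, mul_pow, ← mul_sum] using this
  · rw [prod_mul_distrib, prod_const, ← Real.exp_sum, ← mul_sum]
    gcongr

omit [Nonempty Ω] in
/-- Freezing the coordinates outside `S`. -/
lemma pr_le_of_freeze (S : Finset α) (E : (α → Ω) → Prop) {δ : ℝ} (hδ : 0 ≤ δ)
    (h : ∀ w0, pr (fun w : α → Ω => E (S.piecewise w w0)) ≤ δ) : pr E ≤ δ := by
  rcases isEmpty_or_nonempty (α → Ω) with h0 | h0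
  · unfold pr; simpa using hδ
  let e : (α → Ω) × (α → Ω) ≃ (α → Ω) × (α → Ω) :=
    { toFun := fun p => (S.piecewise p.1 p.2, S.piecewise p.2 p.1)
      invFun := fun p => (S.piecewise p.1 p.2, S.piecewise p.2 p.1)
      left_inv := fun p => by
        ext i <;> by_cases hi : i ∈ S <;> simp [piecewise, hi]
      right_inv := fun p => by
        ext i <;> by_cases hi : i ∈ S <;> simp [piecewise, hi] }
  have h1 := pr_equiv e (fun p => E p.2)
  have h2 : pr (fun p : (α → Ω) × (α → Ω) => E p.2) = pr E := by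
    rw [pr_prod]; exact Fintype.expect_const (ι := α → Ω) (pr E)
  rw [← h2, ← h1]
  exact pr_prod_le _ hδ h

lemma card_filter_card_le (s : ℕ) :
    ((univ : Finset (Finset α)).filter fun T => T.card ≤ s).card ≤ (Fintype.card α + 1) ^ s := by
  have h1 : ((univ : Finset (Finset α)).filter fun T => T.card ≤ s) ⊆
      (range (s + 1)).biUnion fun k => powersetCard k univ := by
    intro T hT
    rw [mem_biUnion]
    exact ⟨T.card, mem_range.2 (Nat.lt_succ_of_le (mem_filter.1 hT).2),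
      mem_powersetCard.2 ⟨subset_univ _, rfl⟩⟩
  refine (card_le_card h1).trans (card_biUnion_le.trans ?_)
  rw [add_pow]
  refine sum_le_sum fun k hk => ?_
  rw [card_powersetCard, card_univ, one_pow, mul_one]
  have h2 : 0 < s.choose k := Nat.choose_pos (Nat.le_of_lt_succ (mem_range.1 hk))
  exact (Nat.choose_le_pow _ _).trans (Nat.le_mul_of_pos_right _ h2)

variable [DecidableEq ι]

omit [Fintype α] [DecidableEq α] [Nonempty Ω] [Fintype Ω] [DecidableEq ι] in
lemma sum_sq_cast_le {σ : Type*} [Fintype σ] [DecidableEq σ] {R : ℕ} {k : σ → ℤ}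
    (hk : k ∈ ballZ σ R) : ∑ i, (k i : ℝ) ^ 2 ≤ R := by
  exact_mod_cast mem_ballZ.1 hk

/-- Operator norm of the rows in a fixed set. -/
theorem pr_not_opLe {ρ : Ω → ι → ℝ} {A : ℝ} (hρ : SG ρ A) (T : Finset α) {K : ℝ} (hK : 0 ≤ K) :
    pr (fun w : α → Ω => ¬ OpLe (fun i => ρ (w i)) T K) ≤
      2 * A ^ T.card * Real.exp (8 * T.card + 8 * Fintype.card ι - K ^ 2 / 196) := by
  have hA := hρ.one_le
  rcases T.eq_empty_or_nonempty with rfl | hT
  · refine le_trans (pr_mono (F := fun _ => False) fun w hw => hw fun x y => by simp) ?_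
    unfold pr
    simp only [if_false, expect_const_zero]
    positivity
  rcases isEmpty_or_nonempty ι with hι | hι
  · refine le_trans (pr_mono (F := fun _ => False) fun w hw => hw fun x y => by simp [nr]) ?_
    unfold pr
    simp only [if_false, expect_const_zero]
    positivity
  have hTc : (0 : ℝ) < T.card := Nat.cast_pos.2 hT.card_pos
  have hM : (0 : ℝ) < Fintype.card ι := Nat.cast_pos.2 Fintype.card_pos
  let N := ballZ T (7 * Fintype.card T) ×ˢ ballZ ι (7 * Fintype.card ι)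
  let V : (T → ℤ) × (ι → ℤ) → α → ι → ℝ := fun kl i j =>
    (if h : i ∈ T then (kl.1 ⟨i, h⟩ : ℝ) else 0) * kl.2 j
  have h1 : pr (fun w : α → Ω => ¬ OpLe (fun i => ρ (w i)) T K) ≤
      pr (fun w : α → Ω => ∃ kl ∈ N, K * √(T.card : ℝ) * √(Fintype.card ι : ℝ) ≤
        |∑ i ∈ T, ∑ j, V kl i j * ρ (w i) j|) := by
    refine pr_mono fun w hw => ?_
    by_contra hc
    push Not at hc
    refine hw fun x y => ?_
    have := bil_le_of_net (fun (i : T) j => ρ (w i) j) hK (fun k hk l hl => by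
      have h2 := (hc (k, l) (mem_product.2 ⟨hk, hl⟩)).le
      rw [Fintype.card_coe]
      refine le_trans (le_of_eq ?_) h2
      congr 1
      rw [← sum_coe_sort T]
      refine sum_congr rfl fun i _ => sum_congr rfl fun j _ => ?_
      simp only [V, i.2, dif_pos]
      ring) (fun i => x i) y
    rw [← sum_coe_sort T, ← sum_coe_sort T]
    refine le_trans (le_of_eq ?_) this
    congr 1
    refine sum_congr rfl fun i _ => ?_
    rw [mul_sum]
    exact sum_congr rfl fun _ _ => by ring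
  refine h1.trans ((pr_exists_mem_le_card_mul N _
    (δ := 2 * (A ^ T.card * Real.exp (-(K ^ 2 / 196)))) fun kl hkl => ?_).trans ?_)
  · obtain ⟨hk, hl⟩ := mem_product.1 hkl
    have hk' := sum_sq_cast_le hk
    have hl' := sum_sq_cast_le hl
    rw [Fintype.card_coe] at hk'
    push_cast at hk' hl'
    refine (pr_lin_ge hρ T (V kl) (W := (7 * T.card) * (7 * Fintype.card ι)) (by positivity) ?_
      (by positivity)).trans (le_of_eq ?_)
    · have e : ∑ i ∈ T, ∑ j, V kl i j ^ 2 = (∑ i, (kl.1 i : ℝ) ^ 2) * ∑ j, (kl.2 j : ℝ) ^ 2 := by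
        rw [← sum_coe_sort T, sum_mul_sum]
        refine sum_congr rfl fun i _ => sum_congr rfl fun j _ => ?_
        simp only [V, i.2, dif_pos, mul_pow]
      rw [e]
      exact mul_le_mul hk' hl' (sum_nonneg fun _ _ => sq_nonneg _) (by positivity)
    · congr 4
      rw [mul_pow, mul_pow, Real.sq_sqrt hTc.le, Real.sq_sqrt hM.le]
      field_simp
      ring
  · have c1 := card_ballZ_le_exp T (7 * Fintype.card T)
    have c2 := card_ballZ_le_exp ι (7 * Fintype.card ι)
    have c3 : (N.card : ℝ) ≤ Real.exp (8 * T.card + 8 * Fintype.card ι) := by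
      rw [card_product, Nat.cast_mul, Real.exp_add]
      refine mul_le_mul (c1.trans (le_of_eq ?_)) (c2.trans (le_of_eq ?_)) (by positivity)
        (by positivity)
      · rw [Fintype.card_coe]; push_cast; ring_nf
      · push_cast; ring_nf
    refine (mul_le_mul_of_nonneg_right c3 (by positivity)).trans (le_of_eq ?_)
    rw [sub_eq_add_neg, Real.exp_add _ (-_)]
    ring

/-- Operator norms of all small sets of rows. -/
theorem pr_not_opLe_sparse {ρ : Ω → ι → ℝ} {A : ℝ} (hρ : SG ρ A) (s : ℕ) {K : ℝ} (hK : 0 ≤ K) :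
    pr (fun w : α → Ω => ∃ T : Finset α, T.card ≤ s ∧ ¬ OpLe (fun i => ρ (w i)) T K) ≤
      ((Fintype.card α : ℝ) + 1) ^ s *
        (2 * A ^ s * Real.exp (8 * s + 8 * Fintype.card ι - K ^ 2 / 196)) := by
  have hA := hρ.one_le
  have h1 := pr_exists_mem_le_card_mul (Ω := α → Ω)
    ((univ : Finset (Finset α)).filter fun T => T.card ≤ s)
    (fun T w => ¬ OpLe (fun i => ρ (w i)) T K)
    (δ := 2 * A ^ s * Real.exp (8 * s + 8 * Fintype.card ι - K ^ 2 / 196)) fun T hT => by
      have hT' := (mem_filter.1 hT).2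
      have hT'' : (T.card : ℝ) ≤ s := by exact_mod_cast hT'
      refine (pr_not_opLe hρ T hK).trans ?_
      gcongr
  refine le_trans (pr_mono fun w ⟨T, h2, h3⟩ => ⟨T, mem_filter.2 ⟨mem_univ _, h2⟩, h3⟩)
    (h1.trans (mul_le_mul_of_nonneg_right ?_ (by positivity)))
  exact_mod_cast card_filter_card_le (α := α) s

omit [DecidableEq ι] in
/-- Gram matrix between two disjoint sets of rows. -/
theorem pr_not_offLe_disj {ρ : Ω → ι → ℝ} {A : ℝ} (hρ : SG ρ A) {S T : Finset α}
    (hST : Disjoint S T) {K K0 : ℝ} (hK : 0 ≤ K) (hK0 : 0 < K0) :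
    pr (fun w : α → Ω => OpLe (fun i => ρ (w i)) T K0 ∧ ¬ OffLe (fun i => ρ (w i)) S T K) ≤
      2 * A ^ S.card * Real.exp (8 * S.card + 8 * T.card - K ^ 2 / (196 * K0 ^ 2)) := by
  have hA := hρ.one_le
  rcases T.eq_empty_or_nonempty with rfl | hT
  · refine le_trans (pr_mono (F := fun _ => False) fun w hw => hw.2 fun x y => by simp) ?_
    unfold pr
    simp only [if_false, expect_const_zero]
    positivity
  rcases S.eq_empty_or_nonempty with rfl | hS
  · refine le_trans (pr_mono (F := fun _ => False) fun w hw => hw.2 fun x y => by simp) ?_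
    unfold pr
    simp only [if_false, expect_const_zero]
    positivity
  have hTc : (0 : ℝ) < T.card := Nat.cast_pos.2 hT.card_pos
  have hSc : (0 : ℝ) < S.card := Nat.cast_pos.2 hS.card_pos
  refine pr_le_of_freeze S _ (by positivity) fun w0 => ?_
  have hnS : ∀ l ∈ T, l ∉ S := fun l hl h => disjoint_left.1 hST h hl
  by_cases hop : OpLe (fun i => ρ (w0 i)) T K0
  swap
  · refine le_trans (pr_mono (F := fun _ => False) fun w hw => hop fun x y => ?_) ?_
    · have := hw.1 x y
      refine le_trans (le_of_eq ?_) this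
      congr 1
      refine sum_congr rfl fun l hl => ?_
      simp only [piecewise_eq_of_notMem _ _ _ (hnS l hl)]
    · unfold pr
      simp only [if_false, expect_const_zero]
      positivity
  let N := ballZ S (7 * Fintype.card S) ×ˢ ballZ T (7 * Fintype.card T)
  let q : (T → ℤ) → α → ℝ := fun l i => if h : i ∈ T then (l ⟨i, h⟩ : ℝ) else 0
  let V : (S → ℤ) × (T → ℤ) → α → ι → ℝ := fun kl i j =>
    (if h : i ∈ S then (kl.1 ⟨i, h⟩ : ℝ) else 0) * ∑ l ∈ T, q kl.2 l * ρ (w0 l) j
  have h1 : pr (fun w : α → Ω => OpLe (fun i => ρ (S.piecewise w w0 i)) T K0 ∧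
      ¬ OffLe (fun i => ρ (S.piecewise w w0 i)) S T K) ≤
      pr (fun w : α → Ω => ∃ kl ∈ N, K * √(S.card : ℝ) * √(T.card : ℝ) ≤
        |∑ i ∈ S, ∑ j, V kl i j * ρ (w i) j|) := by
    refine pr_mono fun w hw => ?_
    by_contra hc
    push Not at hc
    refine hw.2 fun x y => ?_
    have := bil_le_of_net (fun (i : S) (l : T) => ∑ j, ρ (w i) j * ρ (w0 l) j) hK
      (fun k hk l hl => by
        have h2 := (hc (k, l) (mem_product.2 ⟨hk, hl⟩)).le
        rw [Fintype.card_coe, Fintype.card_coe]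
        refine le_trans (le_of_eq ?_) h2
        congr 1
        rw [← sum_coe_sort S]
        refine sum_congr rfl fun i _ => ?_
        simp only [V, i.2, dif_pos, ← sum_coe_sort T, q, mul_sum, sum_mul]
        rw [sum_comm]
        refine sum_congr rfl fun j _ => sum_congr rfl fun l' _ => ?_
        simp only [l'.2, dif_pos]
        ring) (fun i => x i) (fun l => y l)
    rw [← sum_coe_sort S, ← sum_coe_sort S, ← sum_coe_sort T fun l => y l ^ 2]
    refine le_trans (le_of_eq ?_) this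
    congr 1
    refine sum_congr rfl fun i _ => ?_
    rw [erase_eq_of_notMem fun h => hnS _ h i.2, ← sum_coe_sort T]
    refine sum_congr rfl fun l _ => ?_
    simp only [piecewise_eq_of_notMem _ _ _ (hnS l l.2), piecewise_eq_of_mem _ _ _ i.2]
    ring
  refine h1.trans ((pr_exists_mem_le_card_mul N _
    (δ := 2 * (A ^ S.card * Real.exp (-(K ^ 2 / (196 * K0 ^ 2))))) fun kl hkl => ?_).trans ?_)
  · obtain ⟨hk, hl⟩ := mem_product.1 hkl
    have hk' := sum_sq_cast_le hk
    have hl' := sum_sq_cast_le hl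
    rw [Fintype.card_coe] at hk' hl'
    push_cast at hk' hl'
    refine (pr_lin_ge hρ S (V kl) (W := (7 * S.card) * (K0 ^ 2 * (7 * T.card))) (by positivity) ?_
      (by positivity)).trans (le_of_eq ?_)
    · have e : ∑ i ∈ S, ∑ j, V kl i j ^ 2 =
          (∑ i, (kl.1 i : ℝ) ^ 2) * ∑ j, (∑ l ∈ T, q kl.2 l * ρ (w0 l) j) ^ 2 := by
        rw [← sum_coe_sort S, sum_mul_sum]
        refine sum_congr rfl fun i _ => sum_congr rfl fun j _ => ?_
        simp only [V, i.2, dif_pos, mul_pow]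
      rw [e]
      refine mul_le_mul hk' ((hop.sum_sq_comb hK0.le _).trans ?_)
        (sum_nonneg fun _ _ => sq_nonneg _) (by positivity)
      refine mul_le_mul_of_nonneg_left (le_trans (le_of_eq ?_) hl') (by positivity)
      rw [← sum_coe_sort T]
      refine sum_congr rfl fun l _ => ?_
      simp only [q, l.2, dif_pos]
    · congr 4
      rw [mul_pow, mul_pow, Real.sq_sqrt hTc.le, Real.sq_sqrt hSc.le]
      field_simp
      ring
  · have c1 := card_ballZ_le_exp S (7 * Fintype.card S)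
    have c2 := card_ballZ_le_exp T (7 * Fintype.card T)
    have c3 : (N.card : ℝ) ≤ Real.exp (8 * S.card + 8 * T.card) := by
      rw [card_product, Nat.cast_mul, Real.exp_add]
      refine mul_le_mul (c1.trans (le_of_eq ?_)) (c2.trans (le_of_eq ?_)) (by positivity)
        (by positivity)
      · rw [Fintype.card_coe]; push_cast; ring_nf
      · rw [Fintype.card_coe]; push_cast; ring_nf
    refine (mul_le_mul_of_nonneg_right c3 (by positivity)).trans (le_of_eq ?_)
    rw [sub_eq_add_neg, Real.exp_add _ (-_)]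
    ring

omit [Nonempty Ω] [Fintype Ω] [DecidableEq ι] in
/-- Decoupling: from disjoint sets to arbitrary sets. -/
theorem offLe_of_disj {b : α → ι → ℝ} {S T : Finset α} {K : ℝ} (hK : 0 ≤ K)
    (h : ∀ S' ⊆ S, ∀ T' ⊆ T, Disjoint S' T' → OffLe b S' T' K) : OffLe b S T (4 * K) := by
  intro z q
  let g : α → α → ℝ := fun i l => z i * q l * ∑ j, b i j * b l j
  have h1 : ∀ i l, i ≠ l → 𝔼 d : α → Bool,
      ((if d i = true then (1 : ℝ) else 0) * if d l = false then (1 : ℝ) else 0) = 1 / 4 := by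
    intro i l hil
    have := expect_prod_pi_mem (Ω := fun _ : α => Bool) {i, l}
      (fun a u => if a = i then (if u = true then (1 : ℝ) else 0) else
        (if u = false then (1 : ℝ) else 0))
    simp only [prod_pair hil, if_true, if_neg hil.symm] at this
    rw [this]
    simp only [Fintype.expect_eq_sum_div_card]
    norm_num
  have h2 : ∑ i ∈ S, ∑ l ∈ T.erase i, g i l = 4 * 𝔼 d : α → Bool,
      ∑ i ∈ S.filter (fun i => d i = true), ∑ l ∈ (T.filter fun l => d l = false).erase i,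
        g i l := by
    have e : ∀ d : α → Bool, ∑ i ∈ S.filter (fun i => d i = true),
        ∑ l ∈ (T.filter fun l => d l = false).erase i, g i l =
        ∑ i ∈ S, ∑ l ∈ T.erase i,
          ((if d i = true then (1 : ℝ) else 0) * if d l = false then (1 : ℝ) else 0) * g i l := by
      intro d
      rw [sum_filter]
      refine sum_congr rfl fun i _ => ?_
      rw [← filter_erase, sum_filter]
      split_ifs <;> simp
    simp only [e, expect_sum_comm, ← expect_mul, mul_sum]
    refine sum_congr rfl fun i _ => sum_congr rfl fun l hl => ?_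
    rw [h1 i l (mem_erase.1 hl).1.symm]
    ring
  change |∑ i ∈ S, ∑ l ∈ T.erase i, g i l| ≤ _
  rw [h2, abs_mul, abs_of_pos (by norm_num : (0 : ℝ) < 4), mul_assoc, mul_assoc]
  refine mul_le_mul_of_nonneg_left ((abs_expect_le _ _).trans
    (expect_le univ_nonempty fun d _ => ?_)) (by norm_num)
  refine (h _ (filter_subset _ _) _ (filter_subset _ _) ?_ z q).trans ?_
  · rw [disjoint_left]
    intro a ha hb
    have h3 := (mem_filter.1 ha).2
    have h4 := (mem_filter.1 hb).2
    simp [h3] at h4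
  · rw [mul_assoc]
    gcongr
    · exact filter_subset _ _
    · exact filter_subset _ _

omit [DecidableEq ι] in
/-- Off-diagonal restricted isometry for all small sets of rows. -/
theorem pr_not_offLe_sparse {ρ : Ω → ι → ℝ} {A : ℝ} (hρ : SG ρ A) (s : ℕ) {K K0 : ℝ}
    (hK : 0 ≤ K) (hK0 : 0 < K0) :
    pr (fun w : α → Ω => (∀ T : Finset α, T.card ≤ s → OpLe (fun i => ρ (w i)) T K0) ∧
      ∃ S T : Finset α, S.card ≤ s ∧ T.card ≤ s ∧ ¬ OffLe (fun i => ρ (w i)) S T (4 * K)) ≤
      ((Fintype.card α : ℝ) + 1) ^ (2 * s) *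
        (2 * A ^ s * Real.exp (16 * s - K ^ 2 / (196 * K0 ^ 2))) := by
  have hA := hρ.one_le
  let P := ((univ : Finset (Finset α)).filter fun T => T.card ≤ s)
  have h1 := pr_exists_mem_le_card_mul (Ω := α → Ω) ((P ×ˢ P).filter fun t => Disjoint t.1 t.2)
    (fun t w => OpLe (fun i => ρ (w i)) t.2 K0 ∧ ¬ OffLe (fun i => ρ (w i)) t.1 t.2 K)
    (δ := 2 * A ^ s * Real.exp (16 * s - K ^ 2 / (196 * K0 ^ 2))) fun t ht => by
      obtain ⟨ht1, ht2⟩ := mem_filter.1 ht
      obtain ⟨h3, h4⟩ := mem_product.1 ht1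
      have h5 := (mem_filter.1 h3).2
      have h6 := (mem_filter.1 h4).2
      have h7 : (t.1.card : ℝ) ≤ s := by exact_mod_cast h5
      have h8 : (t.2.card : ℝ) ≤ s := by exact_mod_cast h6
      refine (pr_not_offLe_disj hρ ht2 hK hK0).trans ?_
      gcongr
      linarith
  refine le_trans (pr_mono fun w hw => ?_)
    (h1.trans (mul_le_mul_of_nonneg_right ?_ (by positivity)))
  · obtain ⟨hop, S, T, hS, hT, hn⟩ := hw
    by_contra hc
    push Not at hc
    refine hn (offLe_of_disj hK fun S' hS' T' hT' hd => ?_)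
    have c1 := (card_le_card hS').trans hS
    have c2 := (card_le_card hT').trans hT
    exact hc (S', T') (mem_filter.2 ⟨mem_product.2
      ⟨mem_filter.2 ⟨mem_univ _, c1⟩, mem_filter.2 ⟨mem_univ _, c2⟩⟩, hd⟩) (hop T' c2)
  · have c1 := card_filter_card_le (α := α) s
    have c2 : ((P ×ˢ P).filter fun t => Disjoint t.1 t.2).card ≤ (Fintype.card α + 1) ^ (2 * s) := by
      refine (card_filter_le _ _).trans ?_
      rw [card_product, two_mul, pow_add]
      exact Nat.mul_le_mul c1 c1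
    exact_mod_cast c2

end Vale.Agent.P318.R
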