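import Vale.Agent.P318.RFar

/-!
Affine fibres: rows `ε - ε'` conditioned on `H b = u`.  Density, subgaussian moment bound,
characteristic function, local uniformity.  Parity checks with a prescribed part of the columns.
-/

namespace Vale.Agent.P318.R

open Finset
open scoped BigOperators

variable {p : ℕ} {ι κ : Type*} [Fintype ι] [Fintype κ]

/-- The nonzero dual code words are far from zero. -/
def DualFar (H : κ → ι → ZMod p) : Prop :=
  ∀ y : κ → ZMod p, y ≠ 0 → ∑ j, Real.cos (ang (dualv H y j)) ≤ (Fintype.card ι : ℝ) / 2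

/-- Pairs of bit vectors whose difference has syndrome `u`. -/
def FibA (H : κ → ι → ZMod p) (u : κ → ZMod p) : Type _ :=
  {e : ι → Bool × Bool // syn H (fun j => sg (e j)) = u}

noncomputable instance fibAFintype [DecidableEq ι] (H : κ → ι → ZMod p) (u : κ → ZMod p) :
    Fintype (FibA H u) :=
  open Classical in Subtype.fintype _

/-- The integer vector of a point of the fibre. -/
def rowA {H : κ → ι → ZMod p} {u : κ → ZMod p} (e : FibA H u) : ι → ℤ := fun j => sg (e.1 j)

omit [Fintype κ] in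
lemma syn_rowA {H : κ → ι → ZMod p} {u : κ → ZMod p} (e : FibA H u) : syn H (rowA e) = u := e.2

omit [Fintype κ] in
lemma rowA_cases {H : κ → ι → ZMod p} {u : κ → ZMod p} (e : FibA H u) (j : ι) :
    rowA e j = 0 ∨ rowA e j = 1 ∨ rowA e j = -1 := sg_cases _

omit [Fintype κ] in
lemma abs_rowA_le {H : κ → ι → ZMod p} {u : κ → ZMod p} (e : FibA H u) (j : ι) :
    |(rowA e j : ℝ)| ≤ 1 := abs_sg_le _

variable [DecidableEq ι] [DecidableEq κ]

/-- The normalised size of the fibre. -/
noncomputable def mass (H : κ → ι → ZMod p) (u : κ → ZMod p) : ℝ :=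
  (p : ℝ) ^ Fintype.card κ * ((Fintype.card (FibA H u) : ℝ) / Fintype.card (ι → Bool × Bool))

omit [DecidableEq κ] in
lemma expect_ite_synA {K : Type*} [Field K] [CharZero K] (H : κ → ι → ZMod p) (u : κ → ZMod p)
    (g : (ι → ℤ) → K) :
    𝔼 e : ι → Bool × Bool, (if syn H (fun j => sg (e j)) = u then g (fun j => sg (e j)) else 0) =
      (Fintype.card (FibA H u) : K) / Fintype.card (ι → Bool × Bool) *
        𝔼 e : FibA H u, g (rowA e) := by
  rw [Fintype.expect_eq_sum_div_card, ← sum_filter,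
    sum_subtype (p := fun e : ι → Bool × Bool => syn H (fun j => sg (e j)) = u) _ (by simp)
      (F := fibAFintype H u), div_mul_eq_mul_div]
  congr 1
  have := card_mul_expect (univ : Finset (FibA H u)) fun e => g (rowA e)
  rw [card_univ] at this
  exact this.symm

/-- Fourier formula for product functions on the affine fibre. -/
lemma fibA_fourier [Fact p.Prime] (H : κ → ι → ZMod p) (u : κ → ZMod p) (φ : ι → ℤ → ℂ) :
    (mass H u : ℂ) * 𝔼 e : FibA H u, ∏ j, φ j (rowA e j) =
      ∑ y : κ → ZMod p, ZMod.stdAddChar (-∑ a, y a * u a) * ∏ j, 𝔼 s : Bool × Bool,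
        φ j (sg s) * ZMod.stdAddChar (dualv H y j * (sg s : ZMod p)) := by
  classical
  unfold mass
  push_cast
  rw [mul_assoc, ← expect_ite_synA H u (fun k => ∏ j, φ j (k j)), mul_expect]
  have e : ∀ y : κ → ZMod p, ZMod.stdAddChar (-∑ a, y a * u a) * ∏ j, 𝔼 s : Bool × Bool,
      φ j (sg s) * ZMod.stdAddChar (dualv H y j * (sg s : ZMod p)) =
      𝔼 e : ι → Bool × Bool, (∏ j, φ j (sg (e j))) *
        ZMod.stdAddChar (∑ a, y a * (syn H (fun j => sg (e j)) - u) a) := by
    intro y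
    rw [← expect_prod_pi (Ω := fun _ : ι => Bool × Bool)
      (fun j s => φ j (sg s) * ZMod.stdAddChar (dualv H y j * (sg s : ZMod p))), mul_expect]
    refine expect_congr rfl fun e _ => ?_
    simp only [Pi.sub_apply, mul_sub, sum_sub_distrib]
    rw [prod_mul_distrib, dot_syn, sub_eq_neg_add, AddChar.map_add_eq_mul, mul_left_comm]
    congr 2
    induction (univ : Finset ι) using Finset.induction_on with
    | empty => simp
    | insert a s ha ih => rw [sum_insert ha, prod_insert ha, AddChar.map_add_eq_mul, ih]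
  simp only [e]
  rw [← expect_sum_comm]
  refine expect_congr rfl fun e _ => ?_
  rw [← mul_sum, sum_char_dot]
  simp only [sub_eq_zero]
  split_ifs <;> simp [mul_comm]

omit [Fintype κ] [Fintype ι] [DecidableEq ι] [DecidableEq κ] in
lemma norm_stdAddChar [Fact p.Prime] (x : ZMod p) : ‖(ZMod.stdAddChar x : ℂ)‖ = 1 := by
  rw [stdAddChar_eq, Complex.norm_exp_ofReal_mul_I]

omit [Fintype κ] [Fintype ι] [DecidableEq ι] [DecidableEq κ] in
lemma norm_expect_char [Fact p.Prime] (x : ZMod p) :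
    ‖𝔼 s : Bool × Bool, (ZMod.stdAddChar (x * (sg s : ZMod p)) : ℂ)‖ ≤
      Real.exp (-((1 - Real.cos (ang x)) / 2)) := by
  have h := expect_exp_char 0 x
  simp only [zero_mul, Complex.exp_zero, one_mul] at h
  rw [h, norm_two_add_exp]
  have := Real.add_one_le_exp (-((1 - Real.cos (ang x)) / 2))
  simp only [zero_add, Complex.mul_re, Complex.ofReal_re, Complex.I_re, mul_zero,
    Complex.ofReal_im, Complex.I_im, mul_one, sub_self, Real.cosh_zero, Complex.mul_im, add_zero]
  linarith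

/-- Local uniformity: product functions of few coordinates have almost the product mean. -/
theorem fibA_local [Fact p.Prime] {H : κ → ι → ZMod p} (hH : DualFar H) (u : κ → ZMod p)
    (S : Finset ι) (φ : ι → ℤ → ℝ) (hφ : ∀ j ∈ S, ∀ s, |φ j (sg s)| ≤ 1) :
    |mass H u * 𝔼 e : FibA H u, ∏ j ∈ S, φ j (rowA e j) -
      ∏ j ∈ S, 𝔼 s : Bool × Bool, φ j (sg s)| ≤
      (p : ℝ) ^ Fintype.card κ * Real.exp (S.card - Fintype.card ι / 4) := by
  have h := fibA_fourier H u fun j n => if j ∈ S then (φ j n : ℂ) else 1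
  rw [← add_sum_erase _ _ (mem_univ 0)] at h
  simp only [Pi.zero_apply, zero_mul, sum_const_zero, neg_zero, AddChar.map_zero_eq_one, dualv_zero,
    mul_one, one_mul, prod_ite_mem, univ_inter] at h
  have e1 : ∏ j, 𝔼 s : Bool × Bool, (if j ∈ S then (φ j (sg s) : ℂ) else 1) =
      ((∏ j ∈ S, 𝔼 s : Bool × Bool, φ j (sg s) : ℝ) : ℂ) := by
    rw [← univ_inter S, ← prod_ite_mem, univ_inter]
    push_cast
    refine prod_congr rfl fun j _ => ?_
    split_ifs
    · simp only [Fintype.expect_eq_sum_div_card]; push_cast; rfl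
    · simp
  have e2 : (𝔼 e : FibA H u, ∏ j ∈ S, (φ j (rowA e j) : ℂ)) =
      ((𝔼 e : FibA H u, ∏ j ∈ S, φ j (rowA e j) : ℝ) : ℂ) := by
    simp only [Fintype.expect_eq_sum_div_card]; push_cast; rfl
  rw [e1, e2, ← sub_eq_iff_eq_add'] at h
  rw [← Real.norm_eq_abs, ← Complex.norm_real]
  push_cast at h ⊢
  rw [h]
  refine (norm_sum_le _ _).trans ((sum_le_card_nsmul _ _
    (Real.exp (S.card - Fintype.card ι / 4)) fun y hy => ?_).trans ?_)
  · rw [norm_mul, norm_stdAddChar, one_mul, norm_prod]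
    have h1 : ∏ j, ‖𝔼 s : Bool × Bool, (if j ∈ S then (φ j (sg s) : ℂ) else 1) *
        ZMod.stdAddChar (dualv H y j * (sg s : ZMod p))‖ ≤
        ∏ j, Real.exp ((if j ∈ S then 1 else 0) - (1 - Real.cos (ang (dualv H y j))) / 2) := by
      refine prod_le_prod (fun _ _ => norm_nonneg _) fun j _ => ?_
      split_ifs with hj
      · refine le_trans (b := 1) ((RCLike.norm_expect_le (K := ℝ)).trans
          (expect_le univ_nonempty fun s _ => ?_)) (Real.one_le_exp ?_)
        · rw [norm_mul, norm_stdAddChar, mul_one, Complex.norm_real]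
          exact hφ j hj s
        · linarith [Real.neg_one_le_cos (ang (dualv H y j))]
      · simp only [one_mul, zero_sub]
        exact norm_expect_char _
    refine h1.trans ?_
    rw [← Real.exp_sum, sum_sub_distrib, ← sum_div, sum_sub_distrib]
    have h2 := hH y (mem_erase.1 hy).1
    simp only [sum_ite_mem, univ_inter, sum_const, card_univ, nsmul_eq_mul, mul_one]
    exact Real.exp_le_exp.2 (by linarith)
  · rw [nsmul_eq_mul]
    refine mul_le_mul_of_nonneg_right ?_ (Real.exp_pos _).le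
    have : ((univ : Finset (κ → ZMod p)).erase 0).card ≤ p ^ Fintype.card κ := by
      refine card_erase_le.trans (le_of_eq ?_)
      simp [ZMod.card]
    exact_mod_cast this

lemma abs_mass_sub_one [Fact p.Prime] {H : κ → ι → ZMod p} (hH : DualFar H) (u : κ → ZMod p) :
    |mass H u - 1| ≤ (p : ℝ) ^ Fintype.card κ * Real.exp (-(Fintype.card ι / 4)) := by
  have h := fibA_local hH u ∅ (fun _ _ => 0) (by simp)
  simp only [prod_empty, card_empty, Nat.cast_zero, zero_sub] at h
  rcases isEmpty_or_nonempty (FibA H u) with h0 | h0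
  · simpa [mass] using h
  · simpa using h

lemma half_le_mass [Fact p.Prime] {H : κ → ι → ZMod p} (hH : DualFar H) (u : κ → ZMod p)
    (hτ : (p : ℝ) ^ Fintype.card κ * Real.exp (-(Fintype.card ι / 4)) ≤ 1 / 2) :
    1 / 2 ≤ mass H u := by
  linarith [(abs_le.1 (abs_mass_sub_one hH u)).1]

lemma fibA_nonempty [Fact p.Prime] {H : κ → ι → ZMod p} (hH : DualFar H) (u : κ → ZMod p)
    (hτ : (p : ℝ) ^ Fintype.card κ * Real.exp (-(Fintype.card ι / 4)) ≤ 1 / 2) :
    Nonempty (FibA H u) := by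
  by_contra h
  rw [not_nonempty_iff] at h
  have := half_le_mass hH u hτ
  simp only [mass, Fintype.card_eq_zero, Nat.cast_zero, zero_div, mul_zero] at this
  linarith

omit [DecidableEq κ] in
lemma mass_mul_expect_le (H : κ → ι → ZMod p) (u : κ → ZMod p) (g : (ι → ℤ) → ℝ)
    (hg : ∀ k, 0 ≤ g k) :
    mass H u * 𝔼 e : FibA H u, g (rowA e) ≤
      (p : ℝ) ^ Fintype.card κ * 𝔼 e : ι → Bool × Bool, g fun j => sg (e j) := by
  classical
  unfold mass
  rw [mul_assoc, ← expect_ite_synA H u g]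
  exact mul_le_mul_of_nonneg_left
    (expect_le_expect fun e _ => by split_ifs; exacts [le_rfl, hg _]) (by positivity)

/-- Comparison with the product law. -/
theorem pr_fibA_le [Fact p.Prime] {H : κ → ι → ZMod p} (hH : DualFar H) (u : κ → ZMod p)
    (hτ : (p : ℝ) ^ Fintype.card κ * Real.exp (-(Fintype.card ι / 4)) ≤ 1 / 2)
    (E : (ι → ℤ) → Prop) :
    pr (fun e : FibA H u => E (rowA e)) ≤
      2 * (p : ℝ) ^ Fintype.card κ * pr fun e : ι → Bool × Bool => E fun j => sg (e j) := by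
  classical
  have h1 := mass_mul_expect_le H u (fun k => if E k then 1 else 0) fun k => by
    split_ifs <;> norm_num
  rw [← pr_eq_expect, ← pr_eq_expect] at h1
  have h2 := half_le_mass hH u hτ
  have h3 := pr_nonneg fun e : FibA H u => E (rowA e)
  nlinarith

lemma norm_fibA_exp_le [Fact p.Prime] (H : κ → ι → ZMod p) (u : κ → ZMod p) (z : ι → ℂ) :
    mass H u * ‖𝔼 e : FibA H u, Complex.exp (∑ j, z j * (rowA e j : ℤ))‖ ≤
      ∑ y : κ → ZMod p, ∏ j,
        (Real.cosh (z j).re + Real.cos ((z j).im + ang (dualv H y j))) / 2 := by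
  have h := fibA_fourier H u (fun j n => Complex.exp (z j * (n : ℤ)))
  simp only [expect_exp_char, ← Complex.exp_sum] at h
  have h2 := congrArg norm h
  rw [norm_mul, Complex.norm_real, Real.norm_eq_abs,
    abs_of_nonneg (by unfold mass; positivity)] at h2
  refine h2.le.trans ((norm_sum_le _ _).trans (le_of_eq (sum_congr rfl fun y _ => ?_)))
  rw [norm_mul, norm_stdAddChar, one_mul, norm_prod]
  refine prod_congr rfl fun j _ => ?_
  rw [norm_two_add_exp]
  simp

omit [DecidableEq ι] in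
lemma sum_prod_cosh_le [Fact p.Prime] {H : κ → ι → ZMod p} (hH : DualFar H) (v : ι → ℝ) :
    ∑ y : κ → ZMod p, ∏ j, (Real.cosh (v j) + Real.cos (ang (dualv H y j))) / 2 ≤
      (1 + (p : ℝ) ^ Fintype.card κ * Real.exp (-(Fintype.card ι / 4))) *
        Real.exp (∑ j, v j ^ 2) := by
  have hb : ∀ y : κ → ZMod p, ∏ j, (Real.cosh (v j) + Real.cos (ang (dualv H y j))) / 2 ≤
      ((if y = 0 then 1 else 0) + Real.exp (-(Fintype.card ι / 4))) *
        Real.exp (∑ j, v j ^ 2) := by
    intro y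
    have h1 : ∏ j, (Real.cosh (v j) + Real.cos (ang (dualv H y j))) / 2 ≤
        Real.exp (∑ j, (v j ^ 2 - (1 - Real.cos (ang (dualv H y j))) / 2)) := by
      rw [Real.exp_sum]
      exact prod_le_prod (fun j _ => by
        linarith [Real.one_le_cosh (v j), Real.neg_one_le_cos (ang (dualv H y j))])
        fun j _ => cosh_add_le _ _ (Real.neg_one_le_cos _)
    refine h1.trans ?_
    rw [sum_sub_distrib, sub_eq_neg_add, Real.exp_add]
    refine mul_le_mul_of_nonneg_right ?_ (Real.exp_pos _).le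
    split_ifs with hy
    · refine le_trans (Real.exp_le_one_iff.2 ?_) (le_add_of_nonneg_right (Real.exp_pos _).le)
      rw [neg_nonpos]
      exact sum_nonneg fun j _ => by linarith [Real.cos_le_one (ang (dualv H y j))]
    · rw [zero_add]
      refine Real.exp_le_exp.2 ?_
      have := hH y hy
      rw [← sum_div, sum_sub_distrib]
      simp only [sum_const, card_univ, nsmul_eq_mul, mul_one]
      linarith
  refine (sum_le_sum fun y _ => hb y).trans (le_of_eq ?_)
  rw [← sum_mul, sum_add_distrib]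
  simp [ZMod.card]

/-- Subgaussian moment bound on the affine fibre. -/
theorem fibA_mgf [Fact p.Prime] {H : κ → ι → ZMod p} (hH : DualFar H) (u : κ → ZMod p) {τ : ℝ}
    (hτ : (p : ℝ) ^ Fintype.card κ * Real.exp (-(Fintype.card ι / 4)) ≤ τ) (hτ2 : τ ≤ 1 / 2)
    (v : ι → ℝ) :
    𝔼 e : FibA H u, Real.exp (∑ j, v j * rowA e j) ≤ (1 + 4 * τ) * Real.exp (∑ j, v j ^ 2) := by
  have h := norm_fibA_exp_le H u (fun j => (v j : ℂ))
  have e : (𝔼 e : FibA H u, Complex.exp (∑ j, (v j : ℂ) * (rowA e j : ℤ))) =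
      ((𝔼 e : FibA H u, Real.exp (∑ j, v j * rowA e j) : ℝ) : ℂ) := by
    simp only [Fintype.expect_eq_sum_div_card]
    push_cast
    rfl
  have h0 : 0 ≤ 𝔼 e : FibA H u, Real.exp (∑ j, v j * rowA e j) :=
    expect_nonneg fun _ _ => (Real.exp_pos _).le
  rw [e, Complex.norm_real, Real.norm_eq_abs, abs_of_nonneg h0] at h
  simp only [Complex.ofReal_re, Complex.ofReal_im, zero_add] at h
  have h1 := h.trans (sum_prod_cosh_le hH v)
  have h2 := (abs_le.1 (abs_mass_sub_one hH u)).1
  have h3 := Real.exp_pos (∑ j, v j ^ 2)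
  have h4 : 0 ≤ τ := le_trans (by positivity) hτ
  set X := 𝔼 e : FibA H u, Real.exp (∑ j, v j * rowA e j)
  set Y := Real.exp (∑ j, v j ^ 2)
  have h5 : (1 - τ) * X ≤ (1 + τ) * Y := by nlinarith
  have h6 : (1 + τ) * Y ≤ (1 - τ) * ((1 + 4 * τ) * Y) := by
    rw [← mul_assoc]
    exact mul_le_mul_of_nonneg_right (by nlinarith) h3.le
  exact le_of_mul_le_mul_left (h5.trans h6) (by linarith)

lemma fibA_SG [Fact p.Prime] {H : κ → ι → ZMod p} (hH : DualFar H) (u : κ → ZMod p) {τ : ℝ}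
    (hτ : (p : ℝ) ^ Fintype.card κ * Real.exp (-(Fintype.card ι / 4)) ≤ τ) (hτ2 : τ ≤ 1 / 2) :
    SG (fun (e : FibA H u) j => (rowA e j : ℝ)) (1 + 4 * τ) := fibA_mgf hH u hτ hτ2

omit [DecidableEq ι] [DecidableEq κ] in
lemma sig_add_sig' [Fact p.Prime] {H : κ → ι → ZMod p} (hH : DualFar H) (x : ι → ℝ)
    {y y' : κ → ZMod p} (h : y ≠ y') : (Fintype.card ι : ℝ) / 8 ≤ sig H x y + sig H x y' := by
  have h1 := hH (y - y') (sub_ne_zero.2 h)
  have h2 : ∑ j, (1 - Real.cos (ang (dualv H (y - y') j))) ≤ 4 * (sig H x y + sig H x y') := by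
    unfold sig
    rw [← sum_add_distrib, mul_sum]
    refine sum_le_sum fun j _ => ?_
    rw [dualv_sub, Pi.sub_apply, cos_ang_sub]
    have := one_sub_cos_sub_le (x j + ang (dualv H y j)) (x j + ang (dualv H y' j))
    rw [add_sub_add_left_eq_sub] at this
    linarith
  rw [sum_sub_distrib] at h2
  simp only [sum_const, card_univ, nsmul_eq_mul, mul_one] at h2
  linarith

/-- Characteristic function bound on the affine fibre. -/
theorem fibA_cf [Fact p.Prime] {H : κ → ι → ZMod p} (hH : DualFar H) (u : κ → ZMod p)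
    (x : ι → ℝ) {s : ℝ} (hs : ∀ y, s ≤ sig H x y) :
    mass H u * ‖𝔼 e : FibA H u, Complex.exp (((∑ j, x j * rowA e j : ℝ) : ℂ) * Complex.I)‖ ≤
      Real.exp (-s) + (p : ℝ) ^ Fintype.card κ * Real.exp (-(Fintype.card ι / 16)) := by
  have h := norm_fibA_exp_le H u (fun j => (x j : ℂ) * Complex.I)
  have e : ∀ e : FibA H u, ∑ j, (x j : ℂ) * Complex.I * (rowA e j : ℤ) =
      ((∑ j, x j * rowA e j : ℝ) : ℂ) * Complex.I := by
    intro e
    push_cast
    rw [sum_mul]
    exact sum_congr rfl fun _ _ => by ring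
  simp only [e] at h
  refine h.trans ?_
  simp only [Complex.mul_re, Complex.ofReal_re, Complex.I_re, mul_zero, Complex.ofReal_im,
    Complex.I_im, mul_one, sub_self, Real.cosh_zero, Complex.mul_im, add_zero]
  have h1 : ∀ y : κ → ZMod p, ∏ j, (1 + Real.cos (x j + ang (dualv H y j))) / 2 ≤
      Real.exp (-sig H x y) := by
    intro y
    unfold sig
    rw [← sum_neg_distrib, Real.exp_sum]
    refine prod_le_prod (fun j _ => by
      linarith [Real.neg_one_le_cos (x j + ang (dualv H y j))]) fun j _ => ?_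
    linarith [Real.add_one_le_exp (-((1 - Real.cos (x j + ang (dualv H y j))) / 2))]
  obtain ⟨y0, -, hy0⟩ := exists_min_image univ (sig H x) ⟨0, mem_univ _⟩
  have h2 : ∀ y : κ → ZMod p, Real.exp (-sig H x y) ≤
      (if y = y0 then Real.exp (-s) else 0) + Real.exp (-(Fintype.card ι / 16)) := by
    intro y
    split_ifs with hy
    · exact le_trans (Real.exp_le_exp.2 (neg_le_neg (hs y)))
        (le_add_of_nonneg_right (Real.exp_pos _).le)
    · rw [zero_add]
      have := sig_add_sig' hH x hy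
      have := hy0 y (mem_univ _)
      exact Real.exp_le_exp.2 (by linarith)
  refine (sum_le_sum fun y _ => (h1 y).trans (h2 y)).trans (le_of_eq ?_)
  rw [sum_add_distrib]
  simp [ZMod.card]

/-- Second moments on the affine fibre. -/
theorem fibA_second [Fact p.Prime] {H : κ → ι → ZMod p} (hH : DualFar H) (u : κ → ZMod p) {τ : ℝ}
    (hτ : (p : ℝ) ^ Fintype.card κ * Real.exp (2 - Fintype.card ι / 4) ≤ τ) (hτ2 : τ ≤ 1 / 2)
    (j k : ι) :
    |𝔼 e : FibA H u, (rowA e j : ℝ)| ≤ 2 * τ ∧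
      |𝔼 e : FibA H u, (rowA e j : ℝ) * rowA e k - if j = k then 1 / 2 else 0| ≤ 3 * τ := by
  have hq : (0 : ℝ) ≤ (p : ℝ) ^ Fintype.card κ := by positivity
  have hτ' : ∀ n : ℝ, n ≤ 2 →
      (p : ℝ) ^ Fintype.card κ * Real.exp (n - Fintype.card ι / 4) ≤ τ := fun n hn =>
    le_trans (mul_le_mul_of_nonneg_left (Real.exp_le_exp.2 (by linarith)) hq) hτ
  have hm := abs_le.1 ((abs_mass_sub_one hH u).trans (by simpa using hτ' 0 (by norm_num)))
  have h0 : 0 ≤ τ := le_trans (by positivity) hτ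
  have key : ∀ X c : ℝ, |mass H u * X - c| ≤ τ → 0 ≤ c → c ≤ 1 / 2 → |X - c| ≤ (2 + 2 * c) * τ := by
    intro X c h hc0 hc1
    have h1 : |mass H u * (X - c)| ≤ (1 + c) * τ := by
      have e : mass H u * (X - c) = (mass H u * X - c) - (mass H u - 1) * c := by ring
      rw [e]
      refine (abs_sub _ _).trans ?_
      rw [abs_mul, abs_of_nonneg hc0]
      nlinarith [abs_le.2 hm]
    rw [abs_mul, abs_of_nonneg (by linarith)] at h1
    nlinarith [abs_nonneg (X - c)]
  have e0 : 𝔼 s : Bool × Bool, (sg s : ℝ) = 0 := by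
    rw [expect_sg (fun n => (n : ℝ))]; norm_num
  constructor
  · have h := (fibA_local hH u {j} (fun _ n => (n : ℝ)) fun _ _ s => abs_sg_le s).trans
      (hτ' _ (by simp))
    simp only [prod_singleton, e0] at h
    simpa using key _ 0 h le_rfl (by norm_num)
  · split_ifs with hjk
    · subst hjk
      have h := (fibA_local hH u {j} (fun _ n => (n : ℝ) * n) fun _ _ s => by
        rw [abs_mul]; nlinarith [abs_sg_le s, abs_nonneg (sg s : ℝ)]).trans (hτ' _ (by simp))
      simp only [prod_singleton] at h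
      have e2 : 𝔼 s : Bool × Bool, (sg s : ℝ) * sg s = 1 / 2 := by
        rw [expect_sg (fun n => (n : ℝ) * n)]; norm_num
      rw [e2] at h
      have := key _ (1 / 2) h (by norm_num) le_rfl
      linarith
    · have h := (fibA_local hH u {j, k} (fun _ n => (n : ℝ)) fun _ _ s => abs_sg_le s).trans
        (hτ' _ (by rw [card_pair hjk]; norm_num))
      simp only [prod_pair hjk, e0, mul_zero] at h
      have := key _ 0 h le_rfl (by norm_num)
      linarith

/-! ### Existence of the parity checks -/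

lemma card_ballZ_two (ι : Type*) [Fintype ι] [DecidableEq ι] {R : ℕ} {m : ℝ}
    (hR : (R : ℝ) ≤ m / 10000) (hm : (Fintype.card ι : ℝ) ≤ 2 * m) :
    ((ballZ ι R).card : ℝ) ≤ Real.exp (m / 400) := by
  refine (card_ballZ_le ι R (t := 9) (by norm_num)).trans ?_
  have h1 : Real.exp (-9) ≤ 1 / 8000 := by
    have h2 := Real.exp_one_gt_d9
    have h3 : Real.exp 9 = Real.exp 1 ^ 9 := by rw [← Real.exp_nat_mul]; norm_num
    have h4 : (8000 : ℝ) ≤ Real.exp 9 := by
      rw [h3]
      calc (8000 : ℝ) ≤ 2.7182818283 ^ 9 := by norm_num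
        _ ≤ _ := pow_le_pow_left₀ (by norm_num) h2.le _
    rw [Real.exp_neg, one_div]
    exact inv_anti₀ (by norm_num) h4
  have h2 := Real.exp_pos (-9)
  have h3 : 1 + 2 * Real.exp (-9) / (1 - Real.exp (-9)) ≤ Real.exp (1 / 2000) := by
    have : 2 * Real.exp (-9) / (1 - Real.exp (-9)) ≤ 1 / 2000 := by
      rw [div_le_iff₀ (by linarith)]; linarith
    linarith [Real.add_one_le_exp (1 / 2000 : ℝ)]
  have h4 : 0 ≤ 1 + 2 * Real.exp (-9) / (1 - Real.exp (-9)) := by
    have : 0 < 1 - Real.exp (-9) := by linarith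
    positivity
  refine (mul_le_mul_of_nonneg_left (pow_le_pow_left₀ h4 h3 _) (Real.exp_pos _).le).trans ?_
  rw [← Real.exp_nat_mul, ← Real.exp_add]
  refine Real.exp_le_exp.2 ?_
  have : (0 : ℝ) ≤ Fintype.card ι := Nat.cast_nonneg _
  have : (0 : ℝ) ≤ R := Nat.cast_nonneg _
  linarith

lemma pr_not_dualFar [Fact p.Prime] [Nonempty ι] :
    pr (fun H : κ → ι → ZMod p => ¬ DualFar H) ≤
      (p : ℝ) ^ Fintype.card κ * Real.exp (-(Fintype.card ι / 8)) := by
  have h := pr_exists_mem_le_card_mul (Ω := κ → ι → ZMod p) ((univ : Finset (κ → ZMod p)).erase 0)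
    (fun y H => (Fintype.card ι : ℝ) / 2 ≤ ∑ j, Real.cos (ang (dualv H y j)))
    fun y hy => pr_dual_bad (mem_erase.1 hy).1
  refine le_trans (pr_mono fun H hH => ?_) (h.trans (mul_le_mul_of_nonneg_right ?_ (by positivity)))
  · unfold DualFar at hH
    push Not at hH
    obtain ⟨y, hy, h⟩ := hH
    exact ⟨y, mem_erase.2 ⟨hy, mem_univ _⟩, h.le⟩
  · have : ((univ : Finset (κ → ZMod p)).erase 0).card ≤ p ^ Fintype.card κ := by
      refine card_erase_le.trans (le_of_eq ?_)
      simp [ZMod.card]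
    exact_mod_cast this

/-- Parity checks `[H | G]`: the columns of `H` have a large dual distance and the lattice of
`[H | G]` has no short vector. -/
theorem exists_coupling [Fact p.Prime] {ι' : Type*} [Fintype ι'] [DecidableEq ι']
    (hM : 400 ≤ Fintype.card ι) (hM' : Fintype.card ι' ≤ Fintype.card ι)
    (hp : (Fintype.card ι : ℝ) ≤ (p : ℝ) ^ 2)
    (hlo : Real.exp (Fintype.card ι / 200) ≤ (p : ℝ) ^ Fintype.card κ)
    (hhi : (p : ℝ) ^ Fintype.card κ ≤ Real.exp (Fintype.card ι / 100)) :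
    ∃ (H : κ → ι → ZMod p) (G : κ → ι' → ZMod p), DualFar H ∧
      ∀ (k : ι → ℤ) (k' : ι' → ℤ), (k ≠ 0 ∨ k' ≠ 0) → syn H k + syn G k' = 0 →
        (Fintype.card ι : ℝ) / 10000 < ∑ j, (k j : ℝ) ^ 2 + ∑ j, (k' j : ℝ) ^ 2 := by
  have : Nonempty ι := Fintype.card_pos_iff.1 (by omega)
  set M : ℝ := (Fintype.card ι : ℝ) with hMdef
  have hM1 : (400 : ℝ) ≤ M := by rw [hMdef]; exact_mod_cast hM
  have hq : (0 : ℝ) < (p : ℝ) ^ Fintype.card κ := (Real.exp_pos _).trans_le hlo
  set R : ℕ := ⌊M / 10000⌋₊ with hR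
  have hRle : (R : ℝ) ≤ M / 10000 := Nat.floor_le (by positivity)
  have h1 : pr (fun H : κ → ι ⊕ ι' → ZMod p => ∃ k ∈ (ballZ (ι ⊕ ι') R).erase 0, syn H k = 0) ≤
      Real.exp (M / 400) * ((p : ℝ) ^ Fintype.card κ)⁻¹ := by
    refine (pr_exists_mem_le_card_mul _ _ (δ := ((p : ℝ) ^ Fintype.card κ)⁻¹)
      fun k hk => le_of_eq (pr_syn_eq_zero ?_)).trans ?_
    · obtain ⟨hk0, hk⟩ := mem_erase.1 hk
      rw [mem_ballZ] at hk
      intro h0
      apply hk0
      funext j
      have hj : ((k j : ℤ) : ZMod p) = 0 := congrFun h0 j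
      rw [ZMod.intCast_zmod_eq_zero_iff_dvd] at hj
      have h2 : k j ^ 2 ≤ R :=
        (single_le_sum (f := fun j => k j ^ 2) (fun _ _ => sq_nonneg _) (mem_univ j)).trans hk
      have h3 : ((k j : ℝ)) ^ 2 ≤ R := by exact_mod_cast h2
      have h4 : ((k j : ℝ)) ^ 2 < (p : ℝ) ^ 2 := by linarith
      have h5 : |k j| < (p : ℤ) := by
        have := abs_lt_of_sq_lt_sq h4 (Nat.cast_nonneg p)
        exact_mod_cast this
      exact Int.eq_zero_of_abs_lt_dvd hj h5
    · refine mul_le_mul_of_nonneg_right ?_ (by positivity)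
      refine le_trans ?_ (card_ballZ_two (ι ⊕ ι') hRle ?_)
      · exact_mod_cast card_erase_le
      · rw [Fintype.card_sum, hMdef]
        have : (Fintype.card ι' : ℝ) ≤ Fintype.card ι := by exact_mod_cast hM'
        push_cast
        linarith
  let e : (κ → ι → ZMod p) × (κ → ι' → ZMod p) ≃ (κ → ι ⊕ ι' → ZMod p) :=
    { toFun := fun q a => Sum.elim (q.1 a) (q.2 a)
      invFun := fun H => (fun a j => H a (Sum.inl j), fun a j => H a (Sum.inr j))
      left_inv := fun q => rfl
      right_inv := fun H => by funext a j; cases j <;> rfl }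
  rw [← pr_equiv e] at h1
  have h2 : pr (fun q : (κ → ι → ZMod p) × (κ → ι' → ZMod p) => ¬ DualFar q.1) ≤
      (p : ℝ) ^ Fintype.card κ * Real.exp (-(M / 8)) := by
    rw [← pr_equiv (Equiv.prodComm _ _)]
    exact pr_prod_le _ (by positivity) fun _ => pr_not_dualFar
  have h3 : Real.exp (M / 400) * ((p : ℝ) ^ Fintype.card κ)⁻¹ ≤ Real.exp (-1) := by
    rw [← div_eq_mul_inv, div_le_iff₀ hq]
    refine le_trans ?_ (mul_le_mul_of_nonneg_left hlo (Real.exp_pos _).le)
    rw [← Real.exp_add]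
    exact Real.exp_le_exp.2 (by linarith)
  have h4 : (p : ℝ) ^ Fintype.card κ * Real.exp (-(M / 8)) ≤ Real.exp (-1) := by
    refine (mul_le_mul_of_nonneg_right hhi (Real.exp_pos _).le).trans ?_
    rw [← Real.exp_add]
    exact Real.exp_le_exp.2 (by linarith)
  have h5 := Real.exp_neg_one_lt_d9
  obtain ⟨q, hH⟩ := exists_not_of_pr_lt_one
    (lt_of_le_of_lt ((pr_or_le _ _).trans (add_le_add (h1.trans h3) (h2.trans h4))) (by linarith))
  rw [not_or, not_not] at hH
  refine ⟨q.1, q.2, hH.2, fun k k' hk0 hk => ?_⟩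
  by_contra hc
  push Not at hc
  refine hH.1 ⟨Sum.elim k k', mem_erase.2 ⟨fun h0 => ?_, mem_ballZ.2 ?_⟩, ?_⟩
  · rcases hk0 with h | h
    · exact h (funext fun j => congrFun h0 (Sum.inl j))
    · exact h (funext fun j => congrFun h0 (Sum.inr j))
  · have h6 : ((∑ j, Sum.elim k k' j ^ 2 : ℤ) : ℝ) ≤ M / 10000 := by
      rw [Fintype.sum_sum_type]
      push_cast
      exact hc
    have h7 : (0 : ℤ) ≤ ∑ j, Sum.elim k k' j ^ 2 := sum_nonneg fun _ _ => sq_nonneg _
    obtain ⟨n, hn⟩ := Int.eq_ofNat_of_zero_le h7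
    rw [hn] at h6 ⊢
    exact_mod_cast Nat.le_floor (by exact_mod_cast h6)
  · rw [← hk]
    funext a
    simp only [syn, Fintype.sum_sum_type, Pi.add_apply]
    rfl

/-- Parity checks for one block. -/
theorem exists_code [Fact p.Prime] (hM : 400 ≤ Fintype.card ι)
    (hp : (Fintype.card ι : ℝ) ≤ (p : ℝ) ^ 2)
    (hlo : Real.exp (Fintype.card ι / 200) ≤ (p : ℝ) ^ Fintype.card κ)
    (hhi : (p : ℝ) ^ Fintype.card κ ≤ Real.exp (Fintype.card ι / 100)) :
    ∃ H : κ → ι → ZMod p, DualFar H ∧ ∀ k : ι → ℤ, k ≠ 0 → syn H k = 0 →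
      (Fintype.card ι : ℝ) / 10000 < ∑ j, (k j : ℝ) ^ 2 := by
  obtain ⟨H, G, h1, h2⟩ := exists_coupling (ι' := Empty) hM (by simp) hp hlo hhi
  refine ⟨H, h1, fun k hk h => ?_⟩
  simpa using h2 k 0 (Or.inl hk) (by rw [h, syn_zero, add_zero])

/-- The number of parity checks. -/
lemma exists_rank {M : ℝ} (hp : 2 ≤ p) (hM : 200 * Real.log p ≤ M) :
    ∃ r : ℕ, Real.exp (M / 200) ≤ (p : ℝ) ^ r ∧ (p : ℝ) ^ r ≤ Real.exp (M / 100) := by
  have hp1 : (1 : ℝ) < p := by exact_mod_cast hp
  have hl : 0 < Real.log p := Real.log_pos hp1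
  have e : ∀ r : ℕ, (p : ℝ) ^ r = Real.exp (r * Real.log p) := fun r => by
    rw [Real.exp_nat_mul, Real.exp_log (by linarith)]
  refine ⟨⌈M / 200 / Real.log p⌉₊, ?_, ?_⟩ <;> rw [e, Real.exp_le_exp]
  · rw [← div_le_iff₀ hl]
    exact Nat.le_ceil _
  · have h1 := Nat.ceil_lt_add_one (a := M / 200 / Real.log p) (by
      have : 0 ≤ M := by linarith
      positivity)
    have h2 := mul_lt_mul_of_pos_right h1 hl
    rw [add_mul, div_mul_cancel₀ _ hl.ne'] at h2
    linarith

end Vale.Agent.P318.R
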