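import Vale.Agent.P318.RFar

/-!
Independent subgaussian rows with different laws: cross terms with frozen vectors, sharp sparse
upper and lower restricted isometry inside a block.
-/

namespace Vale.Agent.P318.R

open Finset
open scoped BigOperators

variable {α β Ω ι : Type*} [Fintype Ω] [Fintype ι]

/-- The matrix `(b_i · Y_l)`, `i ∈ S`, `l ∈ T`, has operator norm at most `K`. -/
def CrossLe (b : α → ι → ℝ) (Y : β → ι → ℝ) (S : Finset α) (T : Finset β) (K : ℝ) : Prop :=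
  ∀ (z : α → ℝ) (q : β → ℝ), |∑ i ∈ S, ∑ l ∈ T, z i * q l * ∑ j, b i j * Y l j| ≤
    K * √(∑ i ∈ S, z i ^ 2) * √(∑ l ∈ T, q l ^ 2)

lemma pr_false_le {δ : ℝ} (hδ : 0 ≤ δ) {E : Ω → Prop} (h : ∀ ω, ¬ E ω) : pr E ≤ δ := by
  refine le_trans (le_of_eq ?_) hδ
  unfold pr
  exact expect_eq_zero fun x _ => if_neg (h x)

/-- Number of small subsets. -/
lemma card_small_subsets [DecidableEq α] (J : Finset α) (s : ℕ) {x : ℝ} (hx0 : 0 < x)
    (hx1 : x ≤ 1) : ((J.powerset.filter fun T => T.card ≤ s).card : ℝ) ≤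
      Real.exp (x * J.card - s * Real.log x) := by
  have h1 : ((J.powerset.filter fun T => T.card ≤ s).card : ℝ) * x ^ s ≤
      ∑ T ∈ J.powerset, x ^ T.card := by
    rw [← nsmul_eq_mul]
    refine (card_nsmul_le_sum _ (fun T : Finset α => x ^ T.card) _ fun T hT =>
      pow_le_pow_of_le_one hx0.le hx1 (mem_filter.1 hT).2).trans ?_
    exact sum_le_sum_of_subset_of_nonneg (filter_subset _ _) fun _ _ _ => by positivity
  have h2 : ∑ T ∈ J.powerset, x ^ T.card = (x + 1) ^ J.card := by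
    have := prod_add (fun _ : α => x) (fun _ => 1) J
    simp only [prod_const, one_pow, mul_one] at this
    exact this.symm
  have h3 : (x + 1) ^ J.card ≤ Real.exp (x * J.card) := by
    rw [mul_comm, Real.exp_nat_mul]
    exact pow_le_pow_left₀ (by positivity) (Real.add_one_le_exp x) _
  rw [Real.exp_sub, Real.exp_nat_mul, Real.exp_log hx0, le_div_iff₀ (by positivity)]
  linarith

variable [Fintype α] [DecidableEq α] [Nonempty Ω]

lemma pr_lin_ge' {ρ : α → Ω → ι → ℝ} {A : ℝ} (hA : 1 ≤ A) (T : Finset α)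
    (hρ : ∀ i ∈ T, SG (ρ i) A) (V : α → ι → ℝ)
    {W u : ℝ} (hW : 0 < W) (hVW : ∑ i ∈ T, ∑ j, V i j ^ 2 ≤ W) (hu : 0 ≤ u) :
    pr (fun w : α → Ω => u ≤ |∑ i ∈ T, ∑ j, V i j * ρ i (w i) j|) ≤
      2 * (A ^ T.card * Real.exp (-(u ^ 2 / (4 * W)))) := by
  refine pr_abs_ge_le_of_mgf _ hW hu fun t => ?_
  simp only [mul_sum]
  refine (expect_exp_sum_le (Ω := fun _ : α => Ω) T (fun i u => ∑ j, t * (V i j * ρ i u j))
    (fun i => A * Real.exp (t ^ 2 * ∑ j, V i j ^ 2)) fun i hi => ?_).trans ?_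
  · have := hρ i hi fun j => t * V i j
    simpa only [mul_assoc, mul_pow, ← mul_sum] using this
  · rw [prod_mul_distrib, prod_const, ← Real.exp_sum, ← mul_sum]
    gcongr

/-- Cross terms of random rows with fixed vectors. -/
theorem pr_not_cross [DecidableEq β] {ρ : α → Ω → ι → ℝ} {A : ℝ} (hA : 1 ≤ A) {S : Finset α}
    (hρ : ∀ i ∈ S, SG (ρ i) A) {Y : β → ι → ℝ} {T : Finset β} {K K0 : ℝ} (hK : 0 ≤ K)
    (hK0 : 0 < K0) (hop : OpLe Y T K0) :
    pr (fun w : α → Ω => ¬ CrossLe (fun i => ρ i (w i)) Y S T K) ≤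
      2 * A ^ S.card * Real.exp (8 * S.card + 8 * T.card - K ^ 2 / (196 * K0 ^ 2)) := by
  rcases T.eq_empty_or_nonempty with rfl | hT
  · exact pr_false_le (by positivity) fun w hw => hw fun x y => by simp
  rcases S.eq_empty_or_nonempty with rfl | hS
  · exact pr_false_le (by positivity) fun w hw => hw fun x y => by simp
  have hTc : (0 : ℝ) < T.card := Nat.cast_pos.2 hT.card_pos
  have hSc : (0 : ℝ) < S.card := Nat.cast_pos.2 hS.card_pos
  let N := ballZ S (7 * Fintype.card S) ×ˢ ballZ T (7 * Fintype.card T)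
  let q : (T → ℤ) → β → ℝ := fun l i => if h : i ∈ T then (l ⟨i, h⟩ : ℝ) else 0
  let V : (S → ℤ) × (T → ℤ) → α → ι → ℝ := fun kl i j =>
    (if h : i ∈ S then (kl.1 ⟨i, h⟩ : ℝ) else 0) * ∑ l ∈ T, q kl.2 l * Y l j
  have h1 : pr (fun w : α → Ω => ¬ CrossLe (fun i => ρ i (w i)) Y S T K) ≤
      pr (fun w : α → Ω => ∃ kl ∈ N, K * √(S.card : ℝ) * √(T.card : ℝ) ≤
        |∑ i ∈ S, ∑ j, V kl i j * ρ i (w i) j|) := by
    refine pr_mono fun w hw => ?_
    by_contra hc
    push Not at hc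
    refine hw fun x y => ?_
    have := bil_le_of_net (fun (i : S) (l : T) => ∑ j, ρ i (w i) j * Y l j) hK
      (fun k hk l hl => by
        have h2 := (hc (k, l) (mem_product.2 ⟨hk, hl⟩)).le
        rw [Fintype.card_coe, Fintype.card_coe]
        refine le_trans (le_of_eq ?_) h2
        congr 1
        rw [← sum_coe_sort S]
        refine sum_congr rfl fun i _ => ?_
        simp only [V, i.2, dif_pos, ← sum_coe_sort T, q, mul_sum, sum_mul]
        rw [sum_comm]
        refine sum_congr rfl fun j _ => sum_congr rfl fun l' _ => ?_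
        simp only [l'.2, dif_pos]
        ring) (fun i => x i) (fun l => y l)
    rw [← sum_coe_sort S, ← sum_coe_sort S, ← sum_coe_sort T fun l => y l ^ 2]
    refine le_trans (le_of_eq ?_) this
    congr 1
    refine sum_congr rfl fun i _ => ?_
    rw [← sum_coe_sort T]
    refine sum_congr rfl fun l _ => ?_
    ring
  refine h1.trans ((pr_exists_mem_le_card_mul N _
    (δ := 2 * (A ^ S.card * Real.exp (-(K ^ 2 / (196 * K0 ^ 2))))) fun kl hkl => ?_).trans ?_)
  · obtain ⟨hk, hl⟩ := mem_product.1 hkl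
    have hk' := sum_sq_cast_le hk
    have hl' := sum_sq_cast_le hl
    rw [Fintype.card_coe] at hk' hl'
    push_cast at hk' hl'
    refine (pr_lin_ge' hA S hρ (V kl) (W := (7 * S.card) * (K0 ^ 2 * (7 * T.card)))
      (by positivity) ?_ (by positivity)).trans (le_of_eq ?_)
    · have e : ∑ i ∈ S, ∑ j, V kl i j ^ 2 =
          (∑ i, (kl.1 i : ℝ) ^ 2) * ∑ j, (∑ l ∈ T, q kl.2 l * Y l j) ^ 2 := by
        rw [← sum_coe_sort S, sum_mul_sum]
        refine sum_congr rfl fun i _ => sum_congr rfl fun j _ => ?_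
        simp only [V, i.2, dif_pos, mul_pow]
      rw [e]
      refine mul_le_mul hk' ((hop.sum_sq_comb hK0.le _).trans ?_)
        (sum_nonneg fun _ _ => sq_nonneg _) (by positivity)
      refine mul_le_mul_of_nonneg_left (le_trans (le_of_eq ?_) hl') (by positivity)
      rw [← sum_coe_sort T]
      refine sum_congr rfl fun l _ => ?_
      simp only [q, l.2, dif_pos]
    · congr 4
      rw [mul_pow, mul_pow, Real.sq_sqrt hTc.le, Real.sq_sqrt hSc.le]
      field_simp
      ring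
  · have c1 := card_ballZ_le_exp S (7 * Fintype.card S)
    have c2 := card_ballZ_le_exp T (7 * Fintype.card T)
    have c3 : (N.card : ℝ) ≤ Real.exp (8 * S.card + 8 * T.card) := by
      rw [card_product, Nat.cast_mul, Real.exp_add]
      refine mul_le_mul (c1.trans (le_of_eq ?_)) (c2.trans (le_of_eq ?_)) (by positivity)
        (by positivity)
      · rw [Fintype.card_coe]; push_cast; ring_nf
      · rw [Fintype.card_coe]; push_cast; ring_nf
    refine (mul_le_mul_of_nonneg_right c3 (by positivity)).trans (le_of_eq ?_)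
    rw [sub_eq_add_neg, Real.exp_add _ (-_)]
    ring

/-- Cross terms with vectors which do not depend on the rows in `S`. -/
theorem pr_cross_freeze [DecidableEq β] {ρ : α → Ω → ι → ℝ} {A : ℝ} (hA : 1 ≤ A) {S : Finset α}
    (hρ : ∀ i ∈ S, SG (ρ i) A) (Y : (α → Ω) → β → ι → ℝ) {T : Finset β}
    (hY : ∀ w w0, ∀ l ∈ T, Y (S.piecewise w w0) l = Y w0 l) {K K0 : ℝ} (hK : 0 ≤ K)
    (hK0 : 0 < K0) :
    pr (fun w : α → Ω => OpLe (Y w) T K0 ∧ ¬ CrossLe (fun i => ρ i (w i)) (Y w) S T K) ≤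
      2 * A ^ S.card * Real.exp (8 * S.card + 8 * T.card - K ^ 2 / (196 * K0 ^ 2)) := by
  refine pr_le_of_freeze S _ (by positivity) fun w0 => ?_
  by_cases hop : OpLe (Y w0) T K0
  swap
  · refine pr_false_le (by positivity) fun w hw => hop fun x y => ?_
    refine le_trans (le_of_eq ?_) (hw.1 x y)
    congr 1
    exact sum_congr rfl fun l hl => by rw [hY w w0 l hl]
  refine le_trans (pr_mono fun w hw => ?_) (pr_not_cross hA hρ hK hK0 hop)
  refine fun h => hw.2 fun z q => ?_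
  refine le_trans (le_of_eq ?_) (h z q)
  congr 1
  refine sum_congr rfl fun i hi => sum_congr rfl fun l hl => ?_
  simp only [hY w w0 l hl, piecewise_eq_of_mem _ _ _ hi]

theorem pr_not_opLe' {ρ : α → Ω → ι → ℝ} {A : ℝ} (hA : 1 ≤ A) {T : Finset α}
    (hρ : ∀ i ∈ T, SG (ρ i) A) {K : ℝ} (hK : 0 ≤ K) :
    pr (fun w : α → Ω => ¬ OpLe (fun i => ρ i (w i)) T K) ≤
      2 * A ^ T.card * Real.exp (8 * T.card + 8 * Fintype.card ι - K ^ 2 / 196) := by
  classical
  have h := pr_not_cross hA hρ (Y := fun (l : ι) j => if j = l then (1 : ℝ) else 0) (T := univ)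
    hK one_pos (fun x y => by
      simp only [ite_mul, one_mul, zero_mul, sum_ite_eq', mem_univ, if_true]
      exact abs_dot_le x y)
  rw [card_univ, one_pow, mul_one] at h
  refine le_trans (pr_mono fun w hw => ?_) h
  refine fun h => hw fun x y => ?_
  refine le_trans (le_of_eq ?_) (h x y)
  congr 1
  refine sum_congr rfl fun i _ => ?_
  rw [mul_sum]
  refine sum_congr rfl fun l _ => ?_
  simp only [mul_ite, mul_one, mul_zero, sum_ite_eq', mem_univ, if_true]
  ring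

/-- Upper restricted isometry inside `J`. -/
theorem pr_not_opLe_sub {ρ : α → Ω → ι → ℝ} {A : ℝ} (hA : 1 ≤ A) {J : Finset α}
    (hρ : ∀ i ∈ J, SG (ρ i) A) (s : ℕ) {x : ℝ} (hx0 : 0 < x) (hx1 : x ≤ 1) {K : ℝ} (hK : 0 ≤ K) :
    pr (fun w : α → Ω => ∃ T ⊆ J, T.card ≤ s ∧ ¬ OpLe (fun i => ρ i (w i)) T K) ≤
      2 * A ^ s * Real.exp (x * J.card - s * Real.log x + 8 * s + 8 * Fintype.card ι -
        K ^ 2 / 196) := by
  have h1 := pr_exists_mem_le_card_mul (Ω := α → Ω) (J.powerset.filter fun T => T.card ≤ s)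
    (fun T w => ¬ OpLe (fun i => ρ i (w i)) T K)
    (δ := 2 * A ^ s * Real.exp (8 * s + 8 * Fintype.card ι - K ^ 2 / 196)) fun T hT => by
      obtain ⟨h2, hT'⟩ := mem_filter.1 hT
      have hT'' : (T.card : ℝ) ≤ s := by exact_mod_cast hT'
      refine (pr_not_opLe' hA (fun i hi => hρ i (mem_powerset.1 h2 hi)) hK).trans ?_
      gcongr
  refine le_trans (pr_mono fun w ⟨T, h1, h2, h3⟩ =>
    ⟨T, mem_filter.2 ⟨mem_powerset.2 h1, h2⟩, h3⟩) (h1.trans ((mul_le_mul_of_nonneg_right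
      (card_small_subsets J s hx0 hx1) (by positivity)).trans (le_of_eq ?_)))
  rw [mul_left_comm, ← Real.exp_add]
  congr 2
  ring

/-- Off-diagonal restricted isometry inside `J`. -/
theorem pr_not_offLe_sub {ρ : α → Ω → ι → ℝ} {A : ℝ} (hA : 1 ≤ A) {J : Finset α}
    (hρ : ∀ i ∈ J, SG (ρ i) A) (s : ℕ) {x : ℝ} (hx0 : 0 < x) (hx1 : x ≤ 1) {K K0 : ℝ}
    (hK : 0 ≤ K) (hK0 : 0 < K0) :
    pr (fun w : α → Ω => (∀ T ⊆ J, T.card ≤ s → OpLe (fun i => ρ i (w i)) T K0) ∧
      ∃ S ⊆ J, ∃ T ⊆ J, S.card ≤ s ∧ T.card ≤ s ∧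
        ¬ OffLe (fun i => ρ i (w i)) S T (4 * K)) ≤
      2 * A ^ s * Real.exp (2 * (x * J.card - s * Real.log x) + 16 * s -
        K ^ 2 / (196 * K0 ^ 2)) := by
  let P := J.powerset.filter fun T => T.card ≤ s
  have h1 := pr_exists_mem_le_card_mul (Ω := α → Ω) ((P ×ˢ P).filter fun t => Disjoint t.1 t.2)
    (fun t w => OpLe (fun i => ρ i (w i)) t.2 K0 ∧
      ¬ CrossLe (fun i => ρ i (w i)) (fun i => ρ i (w i)) t.1 t.2 K)
    (δ := 2 * A ^ s * Real.exp (16 * s - K ^ 2 / (196 * K0 ^ 2))) fun t ht => by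
      obtain ⟨ht1, ht2⟩ := mem_filter.1 ht
      obtain ⟨h3, h4⟩ := mem_product.1 ht1
      have h5 := (mem_filter.1 h3).2
      have h6 := (mem_filter.1 h4).2
      have h7 : (t.1.card : ℝ) ≤ s := by exact_mod_cast h5
      have h8 : (t.2.card : ℝ) ≤ s := by exact_mod_cast h6
      refine (pr_cross_freeze hA (fun i hi => hρ i (mem_powerset.1 (mem_filter.1 h3).1 hi))
        (fun w i => ρ i (w i)) (fun w w0 l hl => by
          simp only [piecewise_eq_of_notMem _ _ _ (disjoint_right.1 ht2 hl)]) hK hK0).trans ?_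
      gcongr
      linarith
  refine le_trans (pr_mono fun w hw => ?_)
    (h1.trans ((mul_le_mul_of_nonneg_right
      (?_ : _ ≤ Real.exp (2 * (x * J.card - s * Real.log x))) (by positivity)).trans (le_of_eq ?_)))
  · obtain ⟨hop, S, hSJ, T, hTJ, hS, hT, hn⟩ := hw
    by_contra hc
    push Not at hc
    refine hn (offLe_of_disj hK fun S' hS' T' hT' hd => ?_)
    have c1 := (card_le_card hS').trans hS
    have c2 := (card_le_card hT').trans hT
    have h2 := hc (S', T') (mem_filter.2 ⟨mem_product.2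
      ⟨mem_filter.2 ⟨mem_powerset.2 (hS'.trans hSJ), c1⟩,
        mem_filter.2 ⟨mem_powerset.2 (hT'.trans hTJ), c2⟩⟩, hd⟩) (hop T' (hT'.trans hTJ) c2)
    intro z q
    refine le_trans (le_of_eq ?_) (h2 z q)
    congr 1
    exact sum_congr rfl fun i hi => by rw [erase_eq_of_notMem (disjoint_left.1 hd hi)]
  · have c1 := card_small_subsets J s hx0 hx1
    have c2 : (((P ×ˢ P).filter fun t => Disjoint t.1 t.2).card : ℝ) ≤ (P.card : ℝ) * P.card := by
      rw [← Nat.cast_mul, ← card_product]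
      exact_mod_cast card_filter_le _ _
    rw [two_mul, Real.exp_add]
    exact c2.trans (mul_le_mul c1 c1 (by positivity) (by positivity))
  · rw [mul_left_comm, ← Real.exp_add]
    congr 2
    ring

omit [Fintype α] in
/-- Lower restricted isometry from the norms and the off-diagonal part. -/
lemma lower_of_offLe {b : α → ι → ℝ} {T : Finset α} {K m : ℝ} (h : OffLe b T T K)
    (hm : ∀ i ∈ T, m ≤ ∑ j, b i j ^ 2) (v : α → ℝ) :
    (m - K) * ∑ i ∈ T, v i ^ 2 ≤ ∑ j, (∑ i ∈ T, v i * b i j) ^ 2 := by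
  have h1 := (abs_le.1 (h v v)).1
  rw [mul_assoc, Real.mul_self_sqrt (sum_nonneg fun _ _ => sq_nonneg _)] at h1
  have e : ∑ j, (∑ i ∈ T, v i * b i j) ^ 2 = ∑ i ∈ T, v i ^ 2 * ∑ j, b i j ^ 2 +
      ∑ i ∈ T, ∑ l ∈ T.erase i, v i * v l * ∑ j, b i j * b l j := by
    simp only [sq, sum_mul_sum]
    rw [sum_comm, ← sum_add_distrib]
    refine sum_congr rfl fun i hi => ?_
    rw [sum_comm, ← add_sum_erase _ _ hi]
    simp only [mul_sum]
    congr 1
    · exact sum_congr rfl fun _ _ => by ring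
    · exact sum_congr rfl fun _ _ => sum_congr rfl fun _ _ => by ring
  have h2 : m * ∑ i ∈ T, v i ^ 2 ≤ ∑ i ∈ T, v i ^ 2 * ∑ j, b i j ^ 2 := by
    rw [mul_sum]
    exact sum_le_sum fun i hi => by nlinarith [hm i hi, sq_nonneg (v i)]
  rw [e]
  linarith

/-- Upper and lower restricted isometry inside a block `J` for sets of size `s` with
`s (9 + log (|J| / s)) ≤ c M`. -/
theorem pr_not_rip {ρ : α → Ω → ι → ℝ} {J : Finset α} (hρ : ∀ i ∈ J, SG (ρ i) 2) (s : ℕ) {x : ℝ}
    (hx0 : 0 < x) (hx1 : x ≤ 1)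
    (hs : x * J.card - s * Real.log x + 9 * s ≤ Fintype.card ι / 10 ^ 10) :
    pr (fun w : α → Ω => ∃ T ⊆ J, T.card ≤ s ∧ ∃ v : α → ℝ,
      2000 * Fintype.card ι * ∑ i ∈ T, v i ^ 2 < ∑ j, (∑ i ∈ T, v i * ρ i (w i) j) ^ 2 ∨
      (∀ i ∈ T, (Fintype.card ι : ℝ) / 4 ≤ ∑ j, ρ i (w i) j ^ 2) ∧
        ∑ j, (∑ i ∈ T, v i * ρ i (w i) j) ^ 2 < Fintype.card ι / 8 * ∑ i ∈ T, v i ^ 2) ≤
      4 * Real.exp (-(Fintype.card ι / 10 ^ 9)) := by
  rcases isEmpty_or_nonempty ι with h0 | h0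
  · refine (pr_le_one _).trans ?_
    simp
  set M : ℝ := (Fintype.card ι : ℝ) with hM
  have hM0 : 0 < M := Nat.cast_pos.2 Fintype.card_pos
  have hK0 : 0 < √(2000 * M) := Real.sqrt_pos.2 (by positivity)
  have hK2 : √(2000 * M) ^ 2 = 2000 * M := Real.sq_sqrt (by positivity)
  have h1 := pr_not_opLe_sub (by norm_num) hρ s hx0 hx1 hK0.le
  have h2 := pr_not_offLe_sub (by norm_num) hρ s hx0 hx1 (K := M / 32) (by positivity) hK0
  have h3 : (2 : ℝ) ^ s ≤ Real.exp s := by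
    rw [← mul_one (s : ℝ), Real.exp_nat_mul]
    exact pow_le_pow_left₀ (by norm_num) (by linarith [Real.add_one_le_exp (1 : ℝ)]) _
  have hs0 : (0 : ℝ) ≤ s := Nat.cast_nonneg _
  have h4 : ∀ y : ℝ, s + y ≤ -(M / 10 ^ 9) →
      2 * 2 ^ s * Real.exp y ≤ 2 * Real.exp (-(M / 10 ^ 9)) := fun y hy => by
    rw [mul_assoc]
    refine mul_le_mul_of_nonneg_left ((mul_le_mul_of_nonneg_right h3 (by positivity)).trans ?_)
      (by norm_num)
    rw [← Real.exp_add]
    exact Real.exp_le_exp.2 hy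
  rw [hK2] at h1 h2
  have e : (M / 32) ^ 2 / (196 * (2000 * M)) = M / 401408000 := by field_simp; norm_num
  rw [e] at h2
  have h5 := h1.trans (h4 _ (by rw [← hM]; linarith))
  have h6 := h2.trans (h4 _ (by linarith))
  refine le_trans (pr_mono fun w hw => ?_) ((pr_or_le _ _).trans ((add_le_add h5 h6).trans
    (le_of_eq (by ring))))
  obtain ⟨T, hTJ, hT, v, hv⟩ := hw
  by_contra hc
  rw [not_or] at hc
  obtain ⟨c1, c2⟩ := hc
  push Not at c1 c2
  rcases hv with hv | ⟨hn, hv⟩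
  · have := (c1 T hTJ hT).sum_sq_comb hK0.le v
    rw [hK2] at this
    linarith
  · have := lower_of_offLe (c2 c1 T hTJ T hTJ hT hT) hn v
    have e2 : M / 4 - 4 * (M / 32) = M / 8 := by ring
    rw [e2] at this
    linarith

end Vale.Agent.P318.R
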