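import Vale.Agent.P318.RNet
import Mathlib.Analysis.Matrix.Spectrum

/-!
Matrix Rademacher series: trace moments and tail bounds (elementary proof).
-/

namespace Vale.Agent.P318.R

open Finset Matrix
open scoped BigOperators

namespace Khin

variable {n : Type*} [Fintype n] [DecidableEq n]

/-- Orthogonal diagonalization of a real symmetric matrix. -/
theorem diag (W : Matrix n n ℝ) (hW : Wᵀ = W) : ∃ (U : Matrix n n ℝ) (l : n → ℝ),
    U * Uᵀ = 1 ∧ Uᵀ * U = 1 ∧ ∀ k : ℕ, W ^ k = U * diagonal (fun i => l i ^ k) * Uᵀ := by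
  have hA : W.IsHermitian := by
    unfold Matrix.IsHermitian
    rw [conjTranspose_eq_transpose_of_trivial, hW]
  have h1 : (hA.eigenvectorUnitary : Matrix n n ℝ) * (hA.eigenvectorUnitary : Matrix n n ℝ)ᵀ = 1 := by
    have := (Matrix.mem_unitaryGroup_iff).1 hA.eigenvectorUnitary.2
    rwa [star_eq_conjTranspose, conjTranspose_eq_transpose_of_trivial] at this
  have h2 : (hA.eigenvectorUnitary : Matrix n n ℝ)ᵀ * (hA.eigenvectorUnitary : Matrix n n ℝ) = 1 := by
    have := (Matrix.mem_unitaryGroup_iff').1 hA.eigenvectorUnitary.2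
    rwa [star_eq_conjTranspose, conjTranspose_eq_transpose_of_trivial] at this
  have h3 : W = (hA.eigenvectorUnitary : Matrix n n ℝ) * diagonal hA.eigenvalues *
      (hA.eigenvectorUnitary : Matrix n n ℝ)ᵀ := by
    have := hA.spectral_theorem
    rw [Unitary.conjStarAlgAut_apply, star_eq_conjTranspose,
      conjTranspose_eq_transpose_of_trivial] at this
    simpa using this
  refine ⟨hA.eigenvectorUnitary, hA.eigenvalues, h1, h2, fun k => ?_⟩
  generalize (hA.eigenvectorUnitary : Matrix n n ℝ) = U at h1 h2 h3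
  generalize hA.eigenvalues = l at h3
  induction k with
  | zero => simp [h1]
  | succ k ih =>
    rw [pow_succ, ih, h3]
    calc U * diagonal (fun i => l i ^ k) * Uᵀ * (U * diagonal l * Uᵀ)
        = U * (diagonal (fun i => l i ^ k) * (Uᵀ * U) * diagonal l) * Uᵀ := by
          simp only [Matrix.mul_assoc]
      _ = _ := by
          rw [h2, Matrix.mul_one, diagonal_mul_diagonal]
          simp only [pow_succ]

theorem trace_formula (H U V : Matrix n n ℝ) (hH : Hᵀ = H) (d e : n → ℝ) :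
    trace (H * (U * diagonal d * Uᵀ) * H * (V * diagonal e * Vᵀ)) =
      ∑ i, ∑ j, d i * e j * (Uᵀ * H * V) i j ^ 2 := by
  have h1 : H * (U * diagonal d * Uᵀ) * H * (V * diagonal e * Vᵀ) =
      (H * U * diagonal d * (Uᵀ * H * V) * diagonal e) * Vᵀ := by
    simp only [Matrix.mul_assoc]
  have h2 : Vᵀ * (H * U * diagonal d * (Uᵀ * H * V) * diagonal e) =
      (Uᵀ * H * V)ᵀ * diagonal d * (Uᵀ * H * V) * diagonal e := by
    simp only [transpose_mul, transpose_transpose, hH, Matrix.mul_assoc]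
  rw [h1, trace_mul_comm, h2]
  generalize Uᵀ * H * V = M
  simp only [trace, diag_apply, mul_diagonal]
  rw [Finset.sum_comm]
  refine Finset.sum_congr rfl fun j _ => ?_
  rw [Matrix.mul_apply, Finset.sum_mul]
  refine Finset.sum_congr rfl fun i _ => ?_
  rw [mul_diagonal, transpose_apply]
  ring

theorem scalar_ineq (x y : ℝ) (a b : ℕ) (h : Even (a + b)) :
    x ^ a * y ^ b + x ^ b * y ^ a ≤ x ^ (a + b) + y ^ (a + b) := by
  have key : ∀ u v : ℝ, 0 ≤ u → 0 ≤ v → u ^ a * v ^ b + u ^ b * v ^ a ≤ u ^ (a + b) + v ^ (a + b) := by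
    intro u v hu hv
    have : 0 ≤ (u ^ a - v ^ a) * (u ^ b - v ^ b) := by
      rcases le_total u v with huv | huv
      · exact mul_nonneg_of_nonpos_of_nonpos (sub_nonpos.2 (pow_le_pow_left₀ hu huv a))
          (sub_nonpos.2 (pow_le_pow_left₀ hu huv b))
      · exact mul_nonneg (sub_nonneg.2 (pow_le_pow_left₀ hv huv a))
          (sub_nonneg.2 (pow_le_pow_left₀ hv huv b))
    rw [pow_add, pow_add]
    nlinarith
  have h1 := key |x| |y| (abs_nonneg x) (abs_nonneg y)
  rw [h.pow_abs, h.pow_abs] at h1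
  have h2 : x ^ a * y ^ b ≤ |x| ^ a * |y| ^ b := by
    rw [← abs_pow, ← abs_pow, ← abs_mul]
    exact le_abs_self _
  have h3 : x ^ b * y ^ a ≤ |x| ^ b * |y| ^ a := by
    rw [← abs_pow, ← abs_pow, ← abs_mul]
    exact le_abs_self _
  linarith

theorem trace_ineq (H W Y : Matrix n n ℝ) (hH : Hᵀ = H) (hW : Wᵀ = W) (hY : Yᵀ = Y) (a b : ℕ)
    (h : Even (a + b)) :
    trace (H * W ^ a * H * Y ^ b) + trace (H * W ^ b * H * Y ^ a) ≤
      trace (H * W ^ (a + b) * H) + trace (H * Y ^ (a + b) * H) := by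
  obtain ⟨U, l, -, -, hU⟩ := diag W hW
  obtain ⟨V, m, -, -, hV⟩ := diag Y hY
  have T : ∀ a b : ℕ, trace (H * W ^ a * H * Y ^ b) =
      ∑ i, ∑ j, l i ^ a * m j ^ b * (Uᵀ * H * V) i j ^ 2 := by
    intro a b
    rw [hU a, hV b, trace_formula H U V hH]
  have e1 : trace (H * W ^ (a + b) * H) = trace (H * W ^ (a + b) * H * Y ^ 0) := by simp
  have e2 : trace (H * Y ^ (a + b) * H) = trace (H * W ^ 0 * H * Y ^ (a + b)) := by
    rw [trace_mul_comm, pow_zero, Matrix.mul_one, Matrix.mul_assoc]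
  rw [e1, e2, T, T, T, T, ← Finset.sum_add_distrib, ← Finset.sum_add_distrib]
  refine Finset.sum_le_sum fun i _ => ?_
  rw [← Finset.sum_add_distrib, ← Finset.sum_add_distrib]
  refine Finset.sum_le_sum fun j _ => ?_
  have := mul_le_mul_of_nonneg_right (scalar_ineq (l i) (m j) a b h)
    (sq_nonneg ((Uᵀ * H * V) i j))
  simp only [pow_zero]
  linarith

omit [DecidableEq n] in
theorem trace_mul_transpose (A : Matrix n n ℝ) :
    trace (A * Aᵀ) = ∑ k, ∑ i, A i k ^ 2 := by
  rw [Finset.sum_comm]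
  simp [trace, Matrix.mul_apply, sq]

theorem sum_trace_le {α : Type*} [Fintype α] (H : α → Matrix n n ℝ) (hH : ∀ i, (H i)ᵀ = H i)
    {s : ℝ} (hs : ∀ v : n → ℝ, ∑ i, ∑ k, (H i *ᵥ v) k ^ 2 ≤ s * ∑ k, v k ^ 2)
    (W : Matrix n n ℝ) (hW : Wᵀ = W) (p : ℕ) :
    ∑ i, trace (H i * W ^ (2 * p) * H i) ≤ s * trace (W ^ (2 * p)) := by
  have hp : (W ^ p)ᵀ = W ^ p := by rw [transpose_pow, hW]
  have e1 : ∀ i, H i * W ^ (2 * p) * H i = (H i * W ^ p) * (H i * W ^ p)ᵀ := by
    intro i
    rw [transpose_mul, hp, hH, two_mul, pow_add]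
    simp only [Matrix.mul_assoc]
  have e2 : W ^ (2 * p) = W ^ p * (W ^ p)ᵀ := by rw [hp, two_mul, pow_add]
  simp only [e1, trace_mul_transpose]
  rw [e2, trace_mul_transpose, Finset.sum_comm, Finset.mul_sum]
  refine Finset.sum_le_sum fun k _ => ?_
  have := hs fun j => (W ^ p) j k
  simpa [Matrix.mul_apply, Matrix.mulVec, dotProduct] using this

theorem pow_sub_pow (A B : Matrix n n ℝ) (m : ℕ) :
    A ^ (m + 1) - B ^ (m + 1) = ∑ q ∈ range (m + 1), A ^ q * (A - B) * B ^ (m - q) := by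
  induction m with
  | zero => simp
  | succ m ih =>
    rw [Finset.sum_range_succ, Nat.sub_self, pow_zero, Matrix.mul_one]
    have : ∑ q ∈ range (m + 1), A ^ q * (A - B) * B ^ (m + 1 - q) =
        (∑ q ∈ range (m + 1), A ^ q * (A - B) * B ^ (m - q)) * B := by
      rw [Finset.sum_mul]
      refine Finset.sum_congr rfl fun q hq => ?_
      have : m + 1 - q = m - q + 1 := by
        have := Finset.mem_range.1 hq
        omega
      rw [this, pow_succ, Matrix.mul_assoc, Matrix.mul_assoc, Matrix.mul_assoc]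
    rw [this, ← ih, Matrix.sub_mul, Matrix.mul_sub, ← pow_succ, ← pow_succ]
    abel

end Khin

/-- The sign attached to a bit. -/
def sgn (b : Bool) : ℝ := if b then 1 else -1

namespace Khin

variable {n : Type*} [Fintype n] [DecidableEq n] {α : Type*} [Fintype α] [DecidableEq α]

/-- The Rademacher series. -/
def ser (H : α → Matrix n n ℝ) (e : α → Bool) : Matrix n n ℝ := ∑ i, sgn (e i) • H i

omit [Fintype n] [DecidableEq n] [DecidableEq α] in
theorem ser_symm {H : α → Matrix n n ℝ} (hH : ∀ i, (H i)ᵀ = H i) (e : α → Bool) :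
    (ser H e)ᵀ = ser H e := by
  simp [ser, transpose_sum, hH]

omit [Fintype n] [DecidableEq n] in
theorem ser_diff (H : α → Matrix n n ℝ) (e : α → Bool) (i : α) :
    ser H (Function.update e i true) - ser H (Function.update e i false) = (2 : ℝ) • H i := by
  unfold ser
  rw [← Finset.sum_sub_distrib, Finset.sum_eq_single i]
  · simp [sgn, two_smul]
  · intro j _ hj
    simp [Function.update_of_ne hj]
  · simp

theorem two_sum (f : (α → Bool) → ℝ) (i : α) :
    2 * ∑ e, f e = ∑ e, (f (Function.update e i true) + f (Function.update e i false)) := by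
  have hinv : Function.Involutive fun e : α → Bool => Function.update e i (!e i) := by
    intro e
    simp
  have h1 : ∑ e, f e = ∑ e, f (Function.update e i (!e i)) :=
    (Equiv.sum_comp hinv.toPerm f).symm
  rw [two_mul]
  nth_rewrite 2 [h1]
  rw [← Finset.sum_add_distrib]
  refine Finset.sum_congr rfl fun e _ => ?_
  cases he : e i
  · have : Function.update e i false = e := by rw [← he]; simp
    simp [this, add_comm]
  · have : Function.update e i true = e := by rw [← he]; simp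
    simp [this]

theorem step (H : α → Matrix n n ℝ) (hH : ∀ i, (H i)ᵀ = H i) {s : ℝ}
    (hs : ∀ v : n → ℝ, ∑ i, ∑ k, (H i *ᵥ v) k ^ 2 ≤ s * ∑ k, v k ^ 2) (p : ℕ) :
    ∑ e, trace (ser H e ^ (2 * (p + 1))) ≤ (2 * p + 1) * s * ∑ e, trace (ser H e ^ (2 * p)) := by
  have e1 : ∀ e, trace (ser H e ^ (2 * (p + 1))) =
      ∑ i, sgn (e i) * trace (H i * ser H e ^ (2 * p + 1)) := by
    intro e
    have : ser H e ^ (2 * (p + 1)) = ser H e * ser H e ^ (2 * p + 1) := by
      rw [← pow_succ']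
      rfl
    rw [this]
    nth_rewrite 1 [ser]
    rw [Finset.sum_mul, trace_sum]
    simp
  have e2 : ∀ i, ∑ e, sgn (e i) * trace (H i * ser H e ^ (2 * p + 1)) ≤
      (2 * p + 1) * ∑ e, trace (H i * ser H e ^ (2 * p) * H i) := by
    intro i
    have h1 := two_sum (fun e => sgn (e i) * trace (H i * ser H e ^ (2 * p + 1))) i
    have h2 := two_sum (fun e => trace (H i * ser H e ^ (2 * p) * H i)) i
    have h3 : ∀ e : α → Bool,
        sgn (Function.update e i true i) *
            trace (H i * ser H (Function.update e i true) ^ (2 * p + 1)) +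
          sgn (Function.update e i false i) *
            trace (H i * ser H (Function.update e i false) ^ (2 * p + 1)) ≤
        (2 * p + 1) * (trace (H i * ser H (Function.update e i true) ^ (2 * p) * H i) +
          trace (H i * ser H (Function.update e i false) ^ (2 * p) * H i)) := by
      intro e
      have hA := ser_symm hH (Function.update e i true)
      have hB := ser_symm hH (Function.update e i false)
      have hd := ser_diff H e i
      generalize ser H (Function.update e i true) = A at hA hd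
      generalize ser H (Function.update e i false) = B at hB hd
      have h4 : trace (H i * A ^ (2 * p + 1)) - trace (H i * B ^ (2 * p + 1)) =
          2 * ∑ q ∈ range (2 * p + 1), trace (H i * A ^ q * H i * B ^ (2 * p - q)) := by
        rw [← trace_sub, ← Matrix.mul_sub, pow_sub_pow, hd, Finset.mul_sum, trace_sum,
          Finset.mul_sum]
        refine Finset.sum_congr rfl fun q _ => ?_
        simp [Matrix.mul_assoc]
      have h5 : ∑ q ∈ range (2 * p + 1), trace (H i * A ^ q * H i * B ^ (2 * p - q)) =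
          ∑ q ∈ range (2 * p + 1), trace (H i * A ^ (2 * p - q) * H i * B ^ q) := by
        rw [← Finset.sum_range_reflect]
        refine Finset.sum_congr rfl fun q hq => ?_
        have := Finset.mem_range.1 hq
        have e1 : 2 * p + 1 - 1 - q = 2 * p - q := by omega
        have e2 : 2 * p - (2 * p - q) = q := by omega
        rw [e1, e2]
      have h6 : ∑ q ∈ range (2 * p + 1), (trace (H i * A ^ q * H i * B ^ (2 * p - q)) +
          trace (H i * A ^ (2 * p - q) * H i * B ^ q)) ≤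
          ∑ _q ∈ range (2 * p + 1), (trace (H i * A ^ (2 * p) * H i) +
            trace (H i * B ^ (2 * p) * H i)) := by
        refine Finset.sum_le_sum fun q hq => ?_
        have hq' : q + (2 * p - q) = 2 * p := by
          have := Finset.mem_range.1 hq
          omega
        have := trace_ineq (H i) A B (hH i) hA hB q (2 * p - q) (by rw [hq']; exact even_two_mul p)
        rwa [hq'] at this
      rw [Finset.sum_add_distrib, ← h5, Finset.sum_const, Finset.card_range, nsmul_eq_mul] at h6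
      push_cast at h6
      simp only [Function.update_self, sgn, if_true, Bool.false_eq_true, if_false]
      linarith
    have h7 := Finset.sum_le_sum fun e (_ : e ∈ (univ : Finset (α → Bool))) => h3 e
    rw [← h1, ← Finset.mul_sum, ← h2] at h7
    linarith
  simp only [e1]
  rw [Finset.sum_comm]
  calc ∑ i, ∑ e : α → Bool, sgn (e i) * trace (H i * ser H e ^ (2 * p + 1))
      ≤ ∑ i, (2 * p + 1) * ∑ e, trace (H i * ser H e ^ (2 * p) * H i) :=
        Finset.sum_le_sum fun i _ => e2 i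
    _ = (2 * p + 1) * ∑ e, ∑ i, trace (H i * ser H e ^ (2 * p) * H i) := by
        rw [← Finset.mul_sum, Finset.sum_comm]
    _ ≤ (2 * p + 1) * ∑ e, s * trace (ser H e ^ (2 * p)) := by
        gcongr with e
        exact sum_trace_le H hH hs _ (ser_symm hH e) p
    _ = _ := by rw [← Finset.mul_sum, mul_assoc]

theorem moment (H : α → Matrix n n ℝ) (hH : ∀ i, (H i)ᵀ = H i) {s : ℝ} (hs0 : 0 ≤ s)
    (hs : ∀ v : n → ℝ, ∑ i, ∑ k, (H i *ᵥ v) k ^ 2 ≤ s * ∑ k, v k ^ 2) (P p : ℕ) (hp : p ≤ P) :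
    ∑ e, trace (ser H e ^ (2 * p)) ≤
      Fintype.card (α → Bool) * (Fintype.card n * (2 * P * s) ^ p) := by
  induction p with
  | zero => simp
  | succ p ih =>
    refine (step H hH hs p).trans ?_
    have h1 : (2 * p + 1 : ℝ) ≤ 2 * P := by
      have : (p + 1 : ℝ) ≤ P := by exact_mod_cast hp
      linarith
    calc (2 * p + 1) * s * ∑ e, trace (ser H e ^ (2 * p))
        ≤ (2 * p + 1) * s * (Fintype.card (α → Bool) * (Fintype.card n * (2 * P * s) ^ p)) :=
          mul_le_mul_of_nonneg_left (ih (by omega)) (by positivity)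
      _ ≤ (2 * P) * s * (Fintype.card (α → Bool) * (Fintype.card n * (2 * P * s) ^ p)) := by
          gcongr
      _ = _ := by ring

theorem trace_even (W : Matrix n n ℝ) (hW : Wᵀ = W) (p : ℕ) {t : ℝ} (ht : 0 ≤ t) :
    0 ≤ trace (W ^ (2 * p)) ∧
      ((∃ v : n → ℝ, t * ∑ k, v k ^ 2 < |v ⬝ᵥ W *ᵥ v|) → t ^ (2 * p) ≤ trace (W ^ (2 * p))) := by
  obtain ⟨U, l, h1, h2, hU⟩ := diag W hW
  have e : trace (W ^ (2 * p)) = ∑ i, l i ^ (2 * p) := by
    rw [hU, trace_mul_comm, ← Matrix.mul_assoc, h2, Matrix.one_mul, trace_diagonal]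
  have ev : Even (2 * p) := even_two_mul p
  rw [e]
  refine ⟨Finset.sum_nonneg fun i _ => ev.pow_nonneg _, fun ⟨v, hv⟩ => ?_⟩
  by_contra hc
  have hl : ∀ i, |l i| ≤ t := by
    intro i
    by_contra h
    push Not at h hc
    have h3 := pow_le_pow_left₀ ht h.le (2 * p)
    rw [ev.pow_abs] at h3
    have h4 := Finset.single_le_sum (f := fun i => l i ^ (2 * p))
      (fun i _ => ev.pow_nonneg _) (Finset.mem_univ i)
    linarith
  have hW1 := hU 1
  simp only [pow_one] at hW1
  set w := Uᵀ *ᵥ v with hw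
  have q1 : v ⬝ᵥ W *ᵥ v = ∑ i, l i * w i ^ 2 := by
    rw [hW1, ← Matrix.mulVec_mulVec, ← Matrix.mulVec_mulVec, Matrix.dotProduct_mulVec,
      ← Matrix.mulVec_transpose, ← hw]
    simp only [dotProduct, mulVec_diagonal]
    exact Finset.sum_congr rfl fun i _ => by ring
  have q2 : ∑ i, w i ^ 2 = ∑ k, v k ^ 2 := by
    have : w ⬝ᵥ w = v ⬝ᵥ v := by
      rw [hw, Matrix.dotProduct_mulVec, ← Matrix.mulVec_transpose, transpose_transpose,
        Matrix.mulVec_mulVec, h1, Matrix.one_mulVec]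
    simpa [dotProduct, sq] using this
  have q3 : |∑ i, l i * w i ^ 2| ≤ t * ∑ i, w i ^ 2 := by
    rw [Finset.mul_sum]
    refine (Finset.abs_sum_le_sum_abs _ _).trans (Finset.sum_le_sum fun i _ => ?_)
    rw [abs_mul, abs_of_nonneg (sq_nonneg (w i))]
    exact mul_le_mul_of_nonneg_right (hl i) (sq_nonneg _)
  rw [q1, ← q2] at hv
  linarith

end Khin

/-- Tail bound for the norm of a matrix Rademacher series. -/
theorem pr_ser_ge {n : Type*} [Fintype n] [DecidableEq n] {α : Type*} [Fintype α] [DecidableEq α]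
    (H : α → Matrix n n ℝ) (hH : ∀ i, (H i)ᵀ = H i) {s t : ℝ} (hs0 : 0 ≤ s) (ht : 0 < t)
    (hs : ∀ v : n → ℝ, ∑ i, ∑ k, (H i *ᵥ v) k ^ 2 ≤ s * ∑ k, v k ^ 2) (p : ℕ) :
    pr (fun e : α → Bool => ∃ v : n → ℝ, t * ∑ k, v k ^ 2 < |v ⬝ᵥ Khin.ser H e *ᵥ v|) ≤
      Fintype.card n * (2 * p * s / t ^ 2) ^ p := by
  have htp : 0 < t ^ (2 * p) := by positivity
  have h1 := pr_le_expect
    (E := fun e : α → Bool => ∃ v : n → ℝ, t * ∑ k, v k ^ 2 < |v ⬝ᵥ Khin.ser H e *ᵥ v|)
    (f := fun e => trace (Khin.ser H e ^ (2 * p)) / t ^ (2 * p))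
    (fun e => div_nonneg (Khin.trace_even _ (Khin.ser_symm hH e) p ht.le).1 htp.le)
    (fun e he => (one_le_div htp).2 ((Khin.trace_even _ (Khin.ser_symm hH e) p ht.le).2 he))
  refine h1.trans ?_
  have h2 := Khin.moment H hH hs0 hs p p le_rfl
  have hc : (0 : ℝ) < Fintype.card (α → Bool) := by exact_mod_cast Fintype.card_pos
  rw [Fintype.expect_eq_sum_div_card, ← Finset.sum_div, div_pow, ← pow_mul, div_le_iff₀ hc,
    div_le_iff₀ htp]
  refine h2.trans (le_of_eq ?_)
  field_simp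

/-- Bilinear form version: `∑ i, ± ⟨a i, x⟩ ⟨b i, y⟩`. -/
theorem pr_bil_ge {σ τ : Type*} [Fintype σ] [DecidableEq σ] [Fintype τ] [DecidableEq τ]
    {α : Type*} [Fintype α] [DecidableEq α] (a : α → σ → ℝ) (b : α → τ → ℝ) {s t : ℝ}
    (hs0 : 0 ≤ s) (ht : 0 < t)
    (ha : ∀ x : σ → ℝ, ∑ i, (∑ k, b i k ^ 2) * (∑ k, a i k * x k) ^ 2 ≤ s * ∑ k, x k ^ 2)
    (hb : ∀ y : τ → ℝ, ∑ i, (∑ k, a i k ^ 2) * (∑ k, b i k * y k) ^ 2 ≤ s * ∑ k, y k ^ 2)
    (p : ℕ) :
    pr (fun e : α → Bool => ∃ (x : σ → ℝ) (y : τ → ℝ), t * nr x * nr y <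
        |∑ i, sgn (e i) * ((∑ k, a i k * x k) * ∑ k, b i k * y k)|) ≤
      (Fintype.card σ + Fintype.card τ) * (2 * p * s / t ^ 2) ^ p := by
  let H : α → Matrix (σ ⊕ τ) (σ ⊕ τ) ℝ := fun i =>
    fromBlocks 0 (vecMulVec (a i) (b i)) (vecMulVec (b i) (a i)) 0
  have hH : ∀ i, (H i)ᵀ = H i := by
    intro i
    simp only [H, fromBlocks_transpose, transpose_zero, transpose_vecMulVec]
  have hl : ∀ i (v : σ ⊕ τ → ℝ) k, (H i *ᵥ v) (Sum.inl k) = a i k * ∑ l, b i l * v (Sum.inr l) := by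
    intro i v k
    simp [H, Matrix.mulVec, dotProduct, Fintype.sum_sum_type, vecMulVec_apply, Finset.mul_sum,
      mul_assoc]
  have hr : ∀ i (v : σ ⊕ τ → ℝ) k, (H i *ᵥ v) (Sum.inr k) = b i k * ∑ l, a i l * v (Sum.inl l) := by
    intro i v k
    simp [H, Matrix.mulVec, dotProduct, Fintype.sum_sum_type, vecMulVec_apply, Finset.mul_sum,
      mul_assoc]
  have hs : ∀ v : σ ⊕ τ → ℝ, ∑ i, ∑ k, (H i *ᵥ v) k ^ 2 ≤ s * ∑ k, v k ^ 2 := by
    intro v
    have h1 := ha fun l => v (Sum.inl l)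
    have h2 := hb fun l => v (Sum.inr l)
    simp only [Fintype.sum_sum_type, hl, hr, mul_pow, ← Finset.sum_mul, Finset.sum_add_distrib]
    linarith
  have hq : ∀ (e : α → Bool) (v : σ ⊕ τ → ℝ), v ⬝ᵥ Khin.ser H e *ᵥ v =
      2 * ∑ i, sgn (e i) * ((∑ k, a i k * v (Sum.inl k)) * ∑ k, b i k * v (Sum.inr k)) := by
    intro e v
    rw [Khin.ser, Matrix.sum_mulVec, dotProduct_sum, Finset.mul_sum]
    refine Finset.sum_congr rfl fun i _ => ?_
    rw [Matrix.smul_mulVec, dotProduct_smul, smul_eq_mul]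
    simp only [dotProduct, Fintype.sum_sum_type, hl, hr, ← mul_assoc, ← Finset.sum_mul]
    have e1 : ∑ k, v (Sum.inl k) * a i k = ∑ k, a i k * v (Sum.inl k) :=
      Finset.sum_congr rfl fun k _ => mul_comm _ _
    have e2 : ∑ k, v (Sum.inr k) * b i k = ∑ k, b i k * v (Sum.inr k) :=
      Finset.sum_congr rfl fun k _ => mul_comm _ _
    rw [e1, e2]
    ring
  have key := pr_ser_ge H hH hs0 ht hs p
  rw [Fintype.card_sum] at key
  push_cast at key
  refine le_trans (pr_mono fun e ⟨x, y, hxy⟩ => ?_) key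
  have hx : 0 < nr x := by
    rcases (nr_nonneg x).eq_or_lt with h | h
    · have := nr_eq_zero h.symm
      subst this
      simp [nr] at hxy
    · exact h
  have hy : 0 < nr y := by
    rcases (nr_nonneg y).eq_or_lt with h | h
    · have := nr_eq_zero h.symm
      subst this
      simp [nr] at hxy
    · exact h
  refine ⟨Sum.elim (fun k => nr y * x k) (fun k => nr x * y k), ?_⟩
  rw [hq, Fintype.sum_sum_type]
  simp only [Sum.elim_inl, Sum.elim_inr, mul_pow, ← Finset.mul_sum]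
  rw [← nr_sq x, ← nr_sq y]
  have e3 : ∑ i, sgn (e i) * ((∑ k, a i k * (nr y * x k)) * ∑ k, b i k * (nr x * y k)) =
      nr x * nr y * ∑ i, sgn (e i) * ((∑ k, a i k * x k) * ∑ k, b i k * y k) := by
    rw [Finset.mul_sum]
    refine Finset.sum_congr rfl fun i _ => ?_
    have f1 : ∑ k, a i k * (nr y * x k) = nr y * ∑ k, a i k * x k := by
      rw [Finset.mul_sum]
      exact Finset.sum_congr rfl fun k _ => by ring
    have f2 : ∑ k, b i k * (nr x * y k) = nr x * ∑ k, b i k * y k := by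
      rw [Finset.mul_sum]
      exact Finset.sum_congr rfl fun k _ => by ring
    rw [f1, f2]
    ring
  rw [e3, abs_mul, abs_mul, abs_of_pos (mul_pos hx hy), abs_two]
  have := mul_lt_mul_of_pos_left hxy (mul_pos hx hy)
  nlinarith

/-- Symmetrization: flip the coordinates by an involution of the sample space. -/
theorem pr_le_of_flip {α Ω : Type*} [Fintype α] [DecidableEq α] [Fintype Ω] (ng : Ω ≃ Ω)
    (E : (α → Ω) → Prop) {δ : ℝ} (hδ : 0 ≤ δ)
    (h : ∀ w : α → Ω, pr (fun e : α → Bool => E fun i => if e i then w i else ng (w i)) ≤ δ) :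
    pr E ≤ δ := by
  have h1 : ∀ e : α → Bool, pr (fun w : α → Ω => E fun i => if e i then w i else ng (w i)) =
      pr E := by
    intro e
    have := pr_equiv (Equiv.piCongrRight fun i => if e i then Equiv.refl Ω else ng) E
    rw [← this]
    congr 1
    funext w
    congr 1
    funext i
    by_cases he : e i <;> simp [he]
  have h2 := pr_prod_le (fun q : (α → Ω) × (α → Bool) =>
    E fun i => if q.2 i then q.1 i else ng (q.1 i)) hδ h
  have h3 := pr_equiv (Equiv.prodComm (α → Bool) (α → Ω)) (fun q : (α → Ω) × (α → Bool) =>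
    E fun i => if q.2 i then q.1 i else ng (q.1 i))
  rw [← h3, pr_prod] at h2
  have h4 : (𝔼 _e : α → Bool, pr E) ≤ δ :=
    le_of_eq_of_le (expect_congr rfl fun e _ => (h1 e).symm) h2
  rwa [Fintype.expect_const] at h4

/-- Cross term between independent symmetric rows `A i (w i)` and fixed rows `b i`. -/
theorem pr_cross {σ τ : Type*} [Fintype σ] [DecidableEq σ] [Fintype τ] [DecidableEq τ]
    {α Ω : Type*} [Fintype α] [DecidableEq α] [Fintype Ω] (ng : Ω ≃ Ω) (A : α → Ω → σ → ℝ)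
    (hA : ∀ i ω k, A i (ng ω) k = -A i ω k) (b : α → τ → ℝ) {ηa ηb Ca Cb s t : ℝ}
    (hηa : 0 ≤ ηa) (hηb : 0 ≤ ηb) (hs0 : 0 ≤ s) (ht : 0 < t)
    (ha : ∀ i ω, ∑ k, A i ω k ^ 2 ≤ ηa) (hb : ∀ i, ∑ k, b i k ^ 2 ≤ ηb)
    (hCb : ∀ y : τ → ℝ, ∑ i, (∑ k, b i k * y k) ^ 2 ≤ Cb * ∑ k, y k ^ 2)
    (h1 : ηb * Ca ≤ s) (h2 : ηa * Cb ≤ s) (p : ℕ) :
    pr (fun w : α → Ω =>
      (∀ x : σ → ℝ, ∑ i, (∑ k, A i (w i) k * x k) ^ 2 ≤ Ca * ∑ k, x k ^ 2) ∧
        ∃ (x : σ → ℝ) (y : τ → ℝ), t * nr x * nr y <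
          |∑ i, (∑ k, A i (w i) k * x k) * ∑ k, b i k * y k|) ≤
      (Fintype.card σ + Fintype.card τ) * (2 * p * s / t ^ 2) ^ p := by
  refine pr_le_of_flip ng _ (by positivity) fun w => ?_
  have hf : ∀ (e : α → Bool) i (x : σ → ℝ),
      ∑ k, A i (if e i then w i else ng (w i)) k * x k = sgn (e i) * ∑ k, A i (w i) k * x k := by
    intro e i x
    by_cases he : e i <;> simp [he, sgn, hA]
  have hq : ∀ c : Bool, sgn c ^ 2 = 1 := fun c => by cases c <;> simp [sgn]
  simp only [hf, mul_pow, hq, one_mul]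
  by_cases hw : ∀ x : σ → ℝ, ∑ i, (∑ k, A i (w i) k * x k) ^ 2 ≤ Ca * ∑ k, x k ^ 2
  · refine le_trans (pr_mono fun e he => ?_)
      (pr_bil_ge (fun i => A i (w i)) b hs0 ht (fun x => ?_) (fun y => ?_) p)
    · obtain ⟨x, y, hxy⟩ := he.2
      refine ⟨x, y, ?_⟩
      simpa only [mul_assoc] using hxy
    · calc ∑ i, (∑ k, b i k ^ 2) * (∑ k, A i (w i) k * x k) ^ 2
          ≤ ∑ i, ηb * (∑ k, A i (w i) k * x k) ^ 2 :=
            Finset.sum_le_sum fun i _ => mul_le_mul_of_nonneg_right (hb i) (sq_nonneg _)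
        _ ≤ ηb * (Ca * ∑ k, x k ^ 2) := by
            rw [← Finset.mul_sum]
            exact mul_le_mul_of_nonneg_left (hw x) hηb
        _ ≤ _ := by
            rw [← mul_assoc]
            exact mul_le_mul_of_nonneg_right h1 (Finset.sum_nonneg fun k _ => sq_nonneg _)
    · calc ∑ i, (∑ k, A i (w i) k ^ 2) * (∑ k, b i k * y k) ^ 2
          ≤ ∑ i, ηa * (∑ k, b i k * y k) ^ 2 :=
            Finset.sum_le_sum fun i _ => mul_le_mul_of_nonneg_right (ha i _) (sq_nonneg _)
        _ ≤ ηa * (Cb * ∑ k, y k ^ 2) := by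
            rw [← Finset.mul_sum]
            exact mul_le_mul_of_nonneg_left (hCb y) hηa
        _ ≤ _ := by
            rw [← mul_assoc]
            exact mul_le_mul_of_nonneg_right h2 (Finset.sum_nonneg fun k _ => sq_nonneg _)
  · refine le_trans (pr_mono (F := fun _ => False) fun e he => hw he.1) ?_
    have : pr (fun _ : α → Bool => False) = 0 := by simp [pr]
    rw [this]
    positivity

/-- Almost orthogonal families. -/
theorem cross_sum_le {Φ α : Type*} [Fintype Φ] [DecidableEq Φ] [Fintype α] (θ : Φ → α → ℝ)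
    (t : Φ → ℝ) (ε : Φ → Φ → ℝ) {δ : ℝ} (hδ : 0 ≤ δ)
    (h : ∀ f g, f ≠ g → |∑ i, θ f i * θ g i| ≤ ε f g * t f * t g)
    (hε : ∑ f, ∑ g, ε f g ^ 2 ≤ δ ^ 2) :
    |∑ i, (∑ f, θ f i) ^ 2 - ∑ f, ∑ i, θ f i ^ 2| ≤ δ * ∑ f, t f ^ 2 := by
  have e1 : ∑ i, (∑ f, θ f i) ^ 2 - ∑ f, ∑ i, θ f i ^ 2 =
      ∑ f, ∑ g, if f = g then 0 else ∑ i, θ f i * θ g i := by
    have : ∑ i, (∑ f, θ f i) ^ 2 = ∑ f, ∑ g, ∑ i, θ f i * θ g i := by
      simp only [sq, Finset.sum_mul_sum]
      rw [Finset.sum_comm]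
      exact Finset.sum_congr rfl fun f _ => Finset.sum_comm
    rw [this, ← Finset.sum_sub_distrib]
    refine Finset.sum_congr rfl fun f _ => ?_
    rw [← Finset.add_sum_erase _ _ (Finset.mem_univ f),
      ← Finset.add_sum_erase _ (fun g => if f = g then 0 else ∑ i, θ f i * θ g i)
        (Finset.mem_univ f), if_pos rfl]
    simp only [sq]
    rw [add_sub_cancel_left, zero_add]
    refine Finset.sum_congr rfl fun g hg => ?_
    rw [if_neg (Finset.ne_of_mem_erase hg).symm]
  have e2 : ∀ f g, |if f = g then 0 else ∑ i, θ f i * θ g i| ≤ |ε f g| * |t f * t g| := by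
    intro f g
    split_ifs with hfg
    · rw [abs_zero]
      positivity
    · refine (h f g hfg).trans ?_
      rw [← abs_mul, mul_assoc]
      exact le_abs_self _
  rw [e1, ← Fintype.sum_prod_type']
  refine (Finset.abs_sum_le_sum_abs _ _).trans ?_
  refine (Finset.sum_le_sum fun q _ => e2 q.1 q.2).trans ?_
  have h3 := Finset.sum_mul_sq_le_sq_mul_sq univ (fun q : Φ × Φ => |ε q.1 q.2|)
    (fun q => |t q.1 * t q.2|)
  simp only [sq_abs] at h3
  have h4 : ∑ q : Φ × Φ, (t q.1 * t q.2) ^ 2 = (∑ f, t f ^ 2) ^ 2 := by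
    rw [Fintype.sum_prod_type, sq (∑ f, t f ^ 2), Finset.sum_mul_sum]
    simp only [mul_pow]
  rw [h4, Fintype.sum_prod_type (f := fun q : Φ × Φ => ε q.1 q.2 ^ 2)] at h3
  have h5 : 0 ≤ ∑ f, t f ^ 2 := Finset.sum_nonneg fun f _ => sq_nonneg _
  refine abs_le_of_sq_le_sq' ?_ (by positivity) |>.2
  rw [mul_pow]
  exact h3.trans (mul_le_mul_of_nonneg_right hε (sq_nonneg _))

end Vale.Agent.P318.R
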