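import Vale.Agent.P318.RSparse

/-!
Random partitions: few collisions on small sets, balanced blocks, small intersections.
-/

namespace Vale.Agent.P318.R

open Finset
open scoped BigOperators

variable {ι : Type*} [Fintype ι] [DecidableEq ι]

section One
variable {V : Type*} [DecidableEq V]

/-- Number of elements of `S` which share their block with another element of `S`. -/
def collR (π : ι → V) (S : Finset ι) : ℕ := (S.filter fun i => ∃ j ∈ S, j ≠ i ∧ π j = π i).card

omit [Fintype ι] in
lemma collR_le (π : ι → V) (S : Finset ι) :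
    (collR π S : ℝ) ≤ 2 * ((S.card : ℝ) - (S.image π).card) := by
  set C := S.filter fun i => ∃ j ∈ S, j ≠ i ∧ π j = π i with hC
  have h1 : 2 * (C.image π).card ≤ C.card := by
    refine mul_card_image_le_card C 2 fun v hv => ?_
    obtain ⟨i, hi, rfl⟩ := mem_image.1 hv
    obtain ⟨hiS, j, hj, hji, hπ⟩ := mem_filter.1 hi
    rw [← card_pair hji]
    refine card_le_card fun x hx => ?_
    rcases mem_insert.1 hx with rfl | hx
    · exact mem_filter.2 ⟨mem_filter.2 ⟨hj, i, hiS, hji.symm, hπ.symm⟩, hπ⟩
    · rw [mem_singleton.1 hx]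
      exact mem_filter.2 ⟨hi, rfl⟩
  have h2 : (S.image π).card ≤ (C.image π).card + (S \ C).card := by
    refine le_trans (card_le_card (t := C.image π ∪ (S \ C).image π) ?_)
      ((card_union_le _ _).trans (Nat.add_le_add_left card_image_le _))
    rw [← image_union, union_sdiff_of_subset (filter_subset _ _)]
  have h3 : (S \ C).card + C.card = S.card := card_sdiff_add_card_eq_card (filter_subset _ _)
  have h4 : collR π S + 2 * (S.image π).card ≤ 2 * S.card := by
    unfold collR
    rw [← hC]
    omega
  have h5 : (collR π S : ℝ) + 2 * (S.image π).card ≤ 2 * S.card := by exact_mod_cast h4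
  linarith

variable [Fintype V] [Nonempty V]

omit [DecidableEq V] in
lemma expect_upd (j : ι) (F : (ι → V) → ℝ) :
    𝔼 w : ι → V, F w = 𝔼 w : ι → V, 𝔼 u : V, F (Function.update w j u) := by
  let e : (ι → V) × V ≃ (ι → V) × V :=
    { toFun := fun p => (Function.update p.1 j p.2, p.1 j)
      invFun := fun p => (Function.update p.1 j p.2, p.1 j)
      left_inv := fun p => by simp
      right_inv := fun p => by simp }
  have h1 : 𝔼 p : (ι → V) × V, F (Function.update p.1 j p.2) = 𝔼 p : (ι → V) × V, F p.1 :=
    Fintype.expect_equiv e _ _ fun p => rfl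
  rw [← univ_product_univ, expect_product, expect_product] at h1
  simp only [Fintype.expect_const] at h1
  exact h1.symm

lemma expect_exp_rep (S : Finset ι) {t : ℝ} (ht : (S.card : ℝ) ≤ t) :
    𝔼 π : ι → V, Real.exp ((S.card : ℝ) - (S.image π).card) ≤
      Real.exp (S.card * (2 * t / Fintype.card V)) := by
  have hV : (0 : ℝ) < Fintype.card V := Nat.cast_pos.2 Fintype.card_pos
  induction S using Finset.induction_on with
  | empty => simp
  | insert i S hi ih =>
    rw [card_insert_of_notMem hi] at ht ⊢
    push_cast at ht ⊢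
    have ih' := ih (by linarith)
    rw [expect_upd i, add_mul, Real.exp_add, one_mul]
    refine le_trans ?_ (mul_le_mul_of_nonneg_right ih' (Real.exp_pos _).le)
    rw [expect_mul]
    refine expect_le_expect fun π _ => ?_
    have e : ∀ u : V, Real.exp ((S.card : ℝ) + 1 - ((insert i S).image
        (Function.update π i u)).card) = Real.exp ((S.card : ℝ) - (S.image π).card) *
          (1 + (Real.exp 1 - 1) * if u ∈ S.image π then 1 else 0) := by
      intro u
      have h1 : S.image (Function.update π i u) = S.image π :=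
        image_congr fun j hj => Function.update_of_ne (ne_of_mem_of_not_mem hj hi) _ _
      rw [image_insert, Function.update_self, h1]
      split_ifs with h
      · rw [insert_eq_of_mem h, mul_one, add_sub_cancel, ← Real.exp_add]
        congr 1
        ring
      · rw [card_insert_of_notMem h]
        push_cast
        simp
    simp only [e]
    rw [← mul_expect]
    refine mul_le_mul_of_nonneg_left ?_ (Real.exp_pos _).le
    rw [expect_add_distrib, ← mul_expect, Fintype.expect_const, Fintype.expect_eq_sum_div_card]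
    simp only [sum_ite_mem, univ_inter, sum_const, nsmul_eq_mul, mul_one]
    have h2 : ((S.image π).card : ℝ) ≤ t := le_trans (by exact_mod_cast card_image_le)
      (by linarith : (S.card : ℝ) ≤ t)
    have h3 := Real.exp_one_lt_d9
    have h4 := Real.add_one_le_exp (2 * t / Fintype.card V)
    have h5 : (Real.exp 1 - 1) * (((S.image π).card : ℝ) / Fintype.card V) ≤
        2 * t / Fintype.card V := by
      rw [← mul_div_assoc]
      refine div_le_div_of_nonneg_right ?_ hV.le
      have : (0 : ℝ) ≤ (S.image π).card := Nat.cast_nonneg _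
      nlinarith
    linarith

end One

variable {A : Type*} [Fintype A] [DecidableEq A] {V : A → Type*} [∀ a, Fintype (V a)]
  [∀ a, DecidableEq (V a)] [∀ a, Nonempty (V a)]

omit [Fintype A] [DecidableEq A] in
lemma sum_nonempty_pow_le {x : ℝ} (hx : 0 ≤ x) :
    ∑ T ∈ (univ : Finset (Finset ι)).erase ∅, x ^ T.card ≤ Real.exp (Fintype.card ι * x) - 1 := by
  have h2 : ∑ T : Finset ι, x ^ T.card = (x + 1) ^ Fintype.card ι := by
    have := prod_add (fun _ : ι => x) (fun _ => 1) univ
    simp only [prod_const, one_pow, mul_one, powerset_univ, card_univ] at this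
    exact this.symm
  have h3 : (x + 1) ^ Fintype.card ι ≤ Real.exp (Fintype.card ι * x) := by
    rw [Real.exp_nat_mul]
    exact pow_le_pow_left₀ (by positivity) (Real.add_one_le_exp x) _
  rw [← add_sum_erase _ _ (mem_univ ∅)] at h2
  simp only [card_empty, pow_zero] at h2
  linarith

/-- Few collisions on all small sets. -/
theorem pr_coll (F : Finset A) {θ t : ℝ} (hm : ∀ a ∈ F, 8 * t ≤ θ * Fintype.card (V a)) :
    pr (fun π : (a : A) → ι → V a => ∃ T : Finset ι, (T.card : ℝ) ≤ t ∧
      θ * T.card * F.card < ∑ a ∈ F, (collR (π a) T : ℝ)) ≤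
      Real.exp (Fintype.card ι * Real.exp (-(θ * F.card / 4))) - 1 := by
  refine le_trans ?_ (sum_nonempty_pow_le (Real.exp_pos _).le)
  refine le_trans (pr_mono fun π hπ => ?_) ((pr_exists_mem_le (univ.erase ∅)
    fun (T : Finset ι) (π : (a : A) → ι → V a) => (T.card : ℝ) ≤ t ∧
      θ * T.card * F.card / 2 ≤ ∑ a ∈ F, ((T.card : ℝ) - (T.image (π a)).card)).trans
        (sum_le_sum fun T _ => ?_))
  · obtain ⟨T, h1, h2⟩ := hπ
    refine ⟨T, mem_erase.2 ⟨?_, mem_univ _⟩, h1, ?_⟩
    · rintro rfl
      simp [collR] at h2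
    · have := sum_le_sum fun a (_ : a ∈ F) => collR_le (π a) T
      rw [← mul_sum] at this
      linarith
  by_cases hT : (T.card : ℝ) ≤ t
  swap
  · exact pr_false_le (by positivity) fun π h => hT h.1
  refine (pr_mono fun π h => h.2).trans ((pr_ge_le_exp _ _ 1 zero_le_one).trans ?_)
  simp only [one_mul]
  have h1 := expect_exp_sum_le (Ω := fun a => ι → V a) F
    (fun a π => (T.card : ℝ) - (T.image π).card) (fun _ => Real.exp (T.card * (θ / 4)))
    fun a ha => (expect_exp_rep T hT).trans (Real.exp_le_exp.2 (mul_le_mul_of_nonneg_left (by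
      rw [div_le_iff₀ (Nat.cast_pos.2 Fintype.card_pos)]
      linarith [hm a ha]) (Nat.cast_nonneg _)))
  refine (mul_le_mul_of_nonneg_left h1 (Real.exp_pos _).le).trans (le_of_eq ?_)
  rw [prod_const, ← Real.exp_nat_mul, ← Real.exp_nat_mul, ← Real.exp_add]
  congr 1
  ring

omit [Fintype ι] [DecidableEq ι] [∀ a, DecidableEq (V a)] in
lemma pr_eval_dep (a : A) (E : V a → Prop) : pr (fun u : (a : A) → V a => E (u a)) = pr E := by
  classical
  rw [pr_eq_expect, pr_eq_expect]
  have h := expect_prod_pi (Ω := V)
    (fun b u => if h : b = a then (if E (h ▸ u) then (1 : ℝ) else 0) else 1)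
  rw [prod_eq_single a (fun b _ hb => by simp [hb]) (by simp)] at h
  simp only [dite_true] at h
  rw [← h]
  refine expect_congr rfl fun u _ => ?_
  rw [prod_eq_single a (fun b _ hb => by simp [hb]) (by simp)]
  simp

omit [Fintype ι] [DecidableEq ι] [∀ a, DecidableEq (V a)] in
lemma pr_eval_two {a b : A} (hab : a ≠ b) (E : V a → Prop) (F : V b → Prop) :
    pr (fun u : (a : A) → V a => E (u a) ∧ F (u b)) = pr E * pr F := by
  classical
  simp only [pr_eq_expect]
  have h := expect_prod_pi_mem (Ω := V) {a, b}
    (fun c u => (if h : c = a then (if E (h ▸ u) then (1 : ℝ) else 0) else 1) *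
      if h : c = b then (if F (h ▸ u) then (1 : ℝ) else 0) else 1)
  simp only [prod_pair hab, dite_true, dif_neg hab, dif_neg hab.symm, mul_one, one_mul] at h
  rw [← h]
  refine expect_congr rfl fun u _ => ?_
  by_cases h1 : E (u a) <;> by_cases h2 : F (u b) <;> simp [h1, h2]

omit [Fintype ι] [DecidableEq ι] [Fintype A] [DecidableEq A] [∀ a, Nonempty (V a)] in
lemma pr_eq_point (a : A) (v : V a) : pr (fun u : V a => u = v) = (Fintype.card (V a) : ℝ)⁻¹ := by
  rw [pr_eq_expect, Fintype.expect_eq_sum_div_card]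
  simp

/-- Block sizes. -/
theorem pr_size (Z : Finset ι) (a : A) (v : V a) :
    pr (fun π : (a : A) → ι → V a =>
      ((Z.filter fun i => π a i = v).card : ℝ) ≤ Z.card / (2 * Fintype.card (V a)) ∨
      2 * Z.card / Fintype.card (V a) ≤ ((Z.filter fun i => π a i = v).card : ℝ)) ≤
      2 * Real.exp (-(Z.card / (8 * Fintype.card (V a)))) := by
  have hV : (0 : ℝ) < Fintype.card (V a) := Nat.cast_pos.2 Fintype.card_pos
  rw [pr_eval_dep (V := fun a => ι → V a) a fun π =>
    ((Z.filter fun i => π i = v).card : ℝ) ≤ Z.card / (2 * Fintype.card (V a)) ∨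
      2 * Z.card / Fintype.card (V a) ≤ ((Z.filter fun i => π i = v).card : ℝ)]
  have h1 := pr_card_le_le (Ω := fun _ : ι => V a) Z (fun _ u => u = v)
    fun _ _ => (pr_eq_point a v).ge
  have h2 := pr_card_ge_le (Ω := fun _ : ι => V a) Z (fun _ u => u = v)
    (fun _ _ => (pr_eq_point a v).le) (2 * Z.card / Fintype.card (V a)) zero_le_one
  have e1 : (Fintype.card (V a) : ℝ)⁻¹ * Z.card / 2 = Z.card / (2 * Fintype.card (V a)) := by
    field_simp
  have e2 : (Fintype.card (V a) : ℝ)⁻¹ * Z.card / 8 = Z.card / (8 * Fintype.card (V a)) := by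
    field_simp
  rw [e1, e2] at h1
  refine (pr_or_le _ _).trans ?_
  rw [two_mul (Real.exp _)]
  refine add_le_add h1 (h2.trans (Real.exp_le_exp.2 ?_))
  have h3 := Real.exp_one_lt_d9
  rw [← e2, mul_div_assoc, div_eq_inv_mul (Z.card : ℝ)]
  have : 0 ≤ (Fintype.card (V a) : ℝ)⁻¹ * Z.card := by positivity
  nlinarith

/-- Intersections of blocks of different partitions. -/
theorem pr_inter {a b : A} (hab : a ≠ b) (v : V a) (v' : V b) (L : ℝ) :
    pr (fun π : (a : A) → ι → V a =>
      2 * Fintype.card ι / (Fintype.card (V a) * Fintype.card (V b)) + L ≤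
        ((univ.filter fun i => π a i = v ∧ π b i = v').card : ℝ)) ≤ Real.exp (-L) := by
  have h := pr_card_ge_le (Ω := fun _ : ι => (a : A) → V a) univ
    (fun _ u => u a = v ∧ u b = v')
    (q := (Fintype.card (V a) : ℝ)⁻¹ * (Fintype.card (V b) : ℝ)⁻¹) (fun _ _ => by
      rw [pr_eval_two hab (fun u => u = v) (fun u => u = v'), pr_eq_point, pr_eq_point])
    (2 * Fintype.card ι / (Fintype.card (V a) * Fintype.card (V b)) + L) zero_le_one
  rw [← pr_equiv (Equiv.piComm fun (a : A) (_ : ι) => V a)] at h
  refine h.trans (Real.exp_le_exp.2 ?_)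
  have h3 := Real.exp_one_lt_d9
  rw [card_univ, mul_div_assoc, div_eq_inv_mul (Fintype.card ι : ℝ), mul_inv]
  have : 0 ≤ (Fintype.card (V a) : ℝ)⁻¹ * (Fintype.card (V b) : ℝ)⁻¹ * Fintype.card ι := by
    positivity
  nlinarith

end Vale.Agent.P318.R
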