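import Vale.Agent.P318.NegKer
import Mathlib.Analysis.SpecialFunctions.ContinuousFunctionalCalculus.Rpow.IntegralRepresentation
import Mathlib.Analysis.SpecialFunctions.ImproperIntegrals

/-!
Powers `d ^ p`, `0 < p ≤ 1`, of a negative kernel are negative kernels.
-/

namespace Vale.Agent.P318

open Finset MeasureTheory Set

variable {X : Type*} [Fintype X]

namespace NegKer

theorem inv_sub_inv {d : X → X → ℝ} (hd : NegKer d) {t : ℝ} (ht : 0 < t) :
    NegKer fun x y => t⁻¹ - (t + d x y)⁻¹ := by
  have key : ∀ u : ℝ, 0 ≤ u →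
      IntegrableOn (fun s => Real.exp (-t * s) * (1 - Real.exp (-(s * u)))) (Ioi 0) ∧
      ∫ s in Ioi (0 : ℝ), Real.exp (-t * s) * (1 - Real.exp (-(s * u))) = t⁻¹ - (t + u)⁻¹ := by
    intro u hu
    have e : (fun s => Real.exp (-t * s) * (1 - Real.exp (-(s * u))))
        = fun s => Real.exp (-t * s) - Real.exp (-(t + u) * s) := by
      funext s
      rw [mul_sub, ← Real.exp_add]; congr 1
      · ring
      · congr 1; ring
    have h1 : -t < 0 := by linarith
    have h2 : -(t + u) < 0 := by linarith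
    rw [e]
    refine ⟨(integrableOn_exp_mul_Ioi h1 0).sub (integrableOn_exp_mul_Ioi h2 0), ?_⟩
    rw [integral_sub (integrableOn_exp_mul_Ioi h1 0) (integrableOn_exp_mul_Ioi h2 0),
      integral_exp_mul_Ioi h1, integral_exp_mul_Ioi h2]
    have : t + u ≠ 0 := by linarith
    simp only [mul_zero, Real.exp_zero]
    field_simp
  have h := hd.bernstein (volume.restrict (Ioi (0 : ℝ))) (fun s => s) (fun s => Real.exp (-t * s))
    ((ae_restrict_mem measurableSet_Ioi).mono fun s hs => le_of_lt hs)
    (Filter.Eventually.of_forall fun s => (Real.exp_pos _).le)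
    (fun x y => (key _ (hd.nonneg x y)).1)
  exact h.congr fun x y => ((key _ (hd.nonneg x y)).2).symm

theorem rpow {d : X → X → ℝ} (hd : NegKer d) {p : ℝ} (hp0 : 0 < p) (hp1 : p ≤ 1) :
    NegKer fun x y => d x y ^ p := by
  rcases hp1.eq_or_lt with rfl | hp1
  · simpa using hd
  obtain ⟨μ, hμ⟩ := Real.exists_measure_rpow_eq_integral_rpowIntegrand₀₁ (p := p) ⟨hp0, hp1⟩
  have h := integral (μ.restrict (Ioi 0))
    (d := fun t x y => Real.rpowIntegrand₀₁ p t (d x y))
    ((ae_restrict_mem measurableSet_Ioi).mono fun t ht =>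
      (hd.inv_sub_inv ht).const_mul (Real.rpow_nonneg (le_of_lt ht) p))
    (fun x y => (hμ _ (hd.nonneg x y)).1)
  exact h.congr fun x y => (hμ _ (hd.nonneg x y)).2

theorem abs_sub (f : X → ℝ) : NegKer fun x y => |f x - f y| := by
  refine ((sq_sub f).rpow (p := 1 / 2) (by norm_num) (by norm_num)).congr fun x y => ?_
  rw [← Real.sqrt_eq_rpow, Real.sqrt_sq_eq_abs]

theorem div_add {d : X → X → ℝ} (hd : NegKer d) {t : ℝ} (ht : 0 < t) :
    NegKer fun x y => d x y / (t + d x y) := by
  refine ((hd.inv_sub_inv ht).const_mul ht.le).congr fun x y => ?_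
  have := hd.nonneg x y
  field_simp
  ring

end NegKer

end Vale.Agent.P318
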