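import Mathlib.Analysis.Matrix.Order
import Mathlib.Analysis.InnerProductSpace.PiL2
import Mathlib.Analysis.SpecialFunctions.Exponential
import Mathlib.Analysis.SpecialFunctions.Trigonometric.Basic
import Mathlib.MeasureTheory.Integral.Bochner.Basic

/-!
Kernels of positive and of negative type on a finite set, their closure properties and
Schoenberg's theorem.
-/

namespace Vale.Agent.P318

open Finset

variable {X Y : Type*} [Fintype X] [Fintype Y]

/-- Positive semidefinite symmetric kernels. -/
def PosKer (k : X → X → ℝ) : Prop :=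
  (∀ x y, k x y = k y x) ∧ ∀ a : X → ℝ, 0 ≤ ∑ x, ∑ y, a x * a y * k x y

/-- Symmetric kernels with zero diagonal that are conditionally negative semidefinite. -/
def NegKer (d : X → X → ℝ) : Prop :=
  (∀ x y, d x y = d y x) ∧ (∀ x, d x x = 0) ∧
    ∀ a : X → ℝ, ∑ x, a x = 0 → ∑ x, ∑ y, a x * a y * d x y ≤ 0

namespace PosKer

theorem posSemidef {k : X → X → ℝ} (h : PosKer k) : (Matrix.of k).PosSemidef := by
  refine Matrix.PosSemidef.of_dotProduct_mulVec_nonneg ?_ fun a => ?_
  · ext i j
    simp [Matrix.conjTranspose_apply, h.1 i j]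
  · have := h.2 a
    simpa [dotProduct, Matrix.mulVec, Finset.mul_sum, mul_assoc, mul_comm, mul_left_comm] using this

theorem of_posSemidef {k : X → X → ℝ} (h : (Matrix.of k).PosSemidef) : PosKer k := by
  refine ⟨fun x y => ?_, fun a => ?_⟩
  · have := congrFun (congrFun h.isHermitian x) y
    simpa [Matrix.conjTranspose_apply] using this.symm
  · have := h.dotProduct_mulVec_nonneg a
    simpa [dotProduct, Matrix.mulVec, Finset.mul_sum, mul_assoc, mul_comm, mul_left_comm] using this

theorem mul {k l : X → X → ℝ} (hk : PosKer k) (hl : PosKer l) :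
    PosKer fun x y => k x y * l x y :=
  of_posSemidef (hk.posSemidef.hadamard hl.posSemidef)

theorem rankOne (f : X → ℝ) : PosKer fun x y => f x * f y := by
  refine ⟨fun x y => mul_comm _ _, fun a => ?_⟩
  have : ∑ x, ∑ y, a x * a y * (f x * f y) = (∑ x, a x * f x) ^ 2 := by
    rw [sq, Finset.sum_mul_sum]
    exact Finset.sum_congr rfl fun x _ => Finset.sum_congr rfl fun y _ => by ring
  rw [this]; positivity

theorem one : PosKer fun _ _ : X => (1 : ℝ) := by
  simpa using rankOne (fun _ : X => (1 : ℝ))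

theorem pow {k : X → X → ℝ} (hk : PosKer k) (m : ℕ) : PosKer fun x y => k x y ^ m := by
  induction m with
  | zero => simpa using one
  | succ m ih => simpa [pow_succ] using ih.mul hk

theorem add {k l : X → X → ℝ} (hk : PosKer k) (hl : PosKer l) :
    PosKer fun x y => k x y + l x y := by
  refine ⟨fun x y => by beta_reduce; rw [hk.1 x y, hl.1 x y], fun a => ?_⟩
  have h := add_nonneg (hk.2 a) (hl.2 a)
  simpa [mul_add, Finset.sum_add_distrib] using h

theorem const_mul {k : X → X → ℝ} (hk : PosKer k) {t : ℝ} (ht : 0 ≤ t) :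
    PosKer fun x y => t * k x y := by
  refine ⟨fun x y => by beta_reduce; rw [hk.1 x y], fun a => ?_⟩
  have h := mul_nonneg ht (hk.2 a)
  simpa [Finset.mul_sum, mul_assoc, mul_comm, mul_left_comm] using h

theorem of_hasSum {ι : Type*} {k : ι → X → X → ℝ} {l : X → X → ℝ} (hk : ∀ i, PosKer (k i))
    (hl : ∀ x y, HasSum (fun i => k i x y) (l x y)) : PosKer l := by
  refine ⟨fun x y => ?_, fun a => ?_⟩
  · have h1 := hl x y
    have h2 := hl y x
    have : (fun i => k i x y) = fun i => k i y x := funext fun i => (hk i).1 x y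
    rw [this] at h1
    exact h1.unique h2
  · have h : HasSum (fun i => ∑ x, ∑ y, a x * a y * k i x y) (∑ x, ∑ y, a x * a y * l x y) :=
      hasSum_sum fun x _ => hasSum_sum fun y _ => (hl x y).mul_left _
    exact h.nonneg fun i => (hk i).2 a

theorem exp {k : X → X → ℝ} (hk : PosKer k) : PosKer fun x y => Real.exp (k x y) := by
  refine of_hasSum (ι := ℕ) (k := fun m x y => ((m.factorial : ℝ)⁻¹) * k x y ^ m)
    (fun m => (hk.pow m).const_mul (by positivity)) fun x y => ?_
  have := NormedSpace.expSeries_div_hasSum_exp (k x y)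
  rw [Real.exp_eq_exp_ℝ]
  simpa [div_eq_inv_mul] using this

theorem comp {k : X → X → ℝ} (hk : PosKer k) (f : Y → X) : PosKer fun x y => k (f x) (f y) :=
  of_posSemidef (hk.posSemidef.submatrix f)

theorem inner {E : Type*} [NormedAddCommGroup E] [InnerProductSpace ℝ E] (v : X → E) :
    PosKer fun x y => inner ℝ (v x) (v y) := by
  refine ⟨fun x y => real_inner_comm _ _, fun a => ?_⟩
  have : ∑ x, ∑ y, a x * a y * Inner.inner ℝ (v x) (v y)
      = Inner.inner ℝ (∑ x, a x • v x) (∑ y, a y • v y) := by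
    rw [sum_inner]
    refine Finset.sum_congr rfl fun x _ => ?_
    rw [inner_sum]
    refine Finset.sum_congr rfl fun y _ => ?_
    rw [real_inner_smul_left, real_inner_smul_right]; ring
  rw [this]; exact real_inner_self_nonneg

theorem negKer {k : X → X → ℝ} (hk : PosKer k) :
    NegKer fun x y => k x x + k y y - 2 * k x y := by
  refine ⟨fun x y => by beta_reduce; rw [hk.1 x y]; ring, fun x => by ring, fun a ha => ?_⟩
  have h1 : ∑ x, ∑ y, a x * a y * (k x x + k y y - 2 * k x y)
      = (∑ x, a x * k x x) * (∑ y, a y) + (∑ x, a x) * (∑ y, a y * k y y)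
        - 2 * ∑ x, ∑ y, a x * a y * k x y := by
    rw [Finset.sum_mul_sum, Finset.sum_mul_sum, Finset.mul_sum, ← Finset.sum_add_distrib,
      ← Finset.sum_sub_distrib]
    refine Finset.sum_congr rfl fun x _ => ?_
    rw [Finset.mul_sum, ← Finset.sum_add_distrib, ← Finset.sum_sub_distrib]
    exact Finset.sum_congr rfl fun y _ => by ring
  rw [h1, ha]
  have := hk.2 a
  linarith

/-- A positive kernel with diagonal `1` gives the negative kernel `1 - k`. -/
theorem negKer_one_sub {k : X → X → ℝ} (hk : PosKer k) (h1 : ∀ x, k x x = 1) :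
    NegKer fun x y => 1 - k x y := by
  refine ⟨fun x y => by beta_reduce; rw [hk.1 x y], fun x => by simp [h1], fun a ha => ?_⟩
  have h := hk.negKer.2.2 a ha
  have : ∑ x, ∑ y, a x * a y * (k x x + k y y - 2 * k x y)
      = 2 * ∑ x, ∑ y, a x * a y * (1 - k x y) := by
    rw [Finset.mul_sum]
    refine Finset.sum_congr rfl fun x _ => ?_
    rw [Finset.mul_sum]
    exact Finset.sum_congr rfl fun y _ => by rw [h1, h1]; ring
  linarith

theorem cos (θ : X → ℝ) : PosKer fun x y => Real.cos (θ x - θ y) := by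
  simpa [Real.cos_sub] using (rankOne fun x => Real.cos (θ x)).add (rankOne fun x => Real.sin (θ x))

theorem exists_vec [DecidableEq X] {k : X → X → ℝ} (hk : PosKer k) :
    ∃ v : X → EuclideanSpace ℝ X, ∀ x y, k x y = Inner.inner ℝ (v x) (v y) := by
  open scoped MatrixOrder in
  obtain ⟨B, hB⟩ := CStarAlgebra.nonneg_iff_eq_star_mul_self.mp hk.posSemidef.nonneg
  refine ⟨fun x => WithLp.toLp 2 fun i => B i x, fun x y => ?_⟩
  have := congrFun (congrFun hB x) y
  simp only [Matrix.of_apply, Matrix.mul_apply, Matrix.star_apply, star_trivial] at this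
  rw [this]
  simp [PiLp.inner_apply, mul_comm]

end PosKer

namespace NegKer

theorem symm {d : X → X → ℝ} (h : NegKer d) (x y : X) : d x y = d y x := h.1 x y

theorem self {d : X → X → ℝ} (h : NegKer d) (x : X) : d x x = 0 := h.2.1 x

theorem of_vec {E : Type*} [NormedAddCommGroup E] [InnerProductSpace ℝ E] (v : X → E) :
    NegKer fun x y => ‖v x - v y‖ ^ 2 := by
  have h := (PosKer.inner v).negKer
  have : (fun x y => ‖v x - v y‖ ^ 2) =
      fun x y => inner ℝ (v x) (v x) + inner ℝ (v y) (v y) - 2 * inner ℝ (v x) (v y) := by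
    funext x y
    rw [norm_sub_sq_real, real_inner_self_eq_norm_sq, real_inner_self_eq_norm_sq]; ring
  rw [this]; exact h

theorem sq_sub (f : X → ℝ) : NegKer fun x y => (f x - f y) ^ 2 := by
  simpa [Real.norm_eq_abs, sq_abs] using of_vec f

theorem add {d e : X → X → ℝ} (hd : NegKer d) (he : NegKer e) :
    NegKer fun x y => d x y + e x y := by
  refine ⟨fun x y => by beta_reduce; rw [hd.1 x y, he.1 x y], fun x => by simp [hd.self, he.self],
    fun a ha => ?_⟩
  have h := add_nonpos (hd.2.2 a ha) (he.2.2 a ha)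
  simpa [mul_add, Finset.sum_add_distrib] using h

theorem const_mul {d : X → X → ℝ} (hd : NegKer d) {t : ℝ} (ht : 0 ≤ t) :
    NegKer fun x y => t * d x y := by
  refine ⟨fun x y => by beta_reduce; rw [hd.1 x y], fun x => by simp [hd.self], fun a ha => ?_⟩
  have h := mul_nonpos_of_nonneg_of_nonpos ht (hd.2.2 a ha)
  simpa [Finset.mul_sum, mul_assoc, mul_comm, mul_left_comm] using h

theorem zero : NegKer fun _ _ : X => (0 : ℝ) := ⟨fun _ _ => rfl, fun _ => rfl, by simp⟩

theorem sum {ι : Type*} (s : Finset ι) {d : ι → X → X → ℝ} (hd : ∀ i ∈ s, NegKer (d i)) :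
    NegKer fun x y => ∑ i ∈ s, d i x y := by
  classical
  induction s using Finset.induction_on with
  | empty => simpa using zero
  | insert i s hi ih =>
    simp only [Finset.sum_insert hi]
    exact (hd i (mem_insert_self _ _)).add (ih fun j hj => hd j (mem_insert_of_mem hj))

theorem congr {d e : X → X → ℝ} (hd : NegKer d) (h : ∀ x y, e x y = d x y) : NegKer e := by
  have : e = d := funext fun x => funext fun y => h x y
  rw [this]; exact hd

/-- The Gram kernel with base point `o`. -/
theorem posKer_gram {d : X → X → ℝ} (hd : NegKer d) (o : X) :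
    PosKer fun x y => (d x o + d y o - d x y) / 2 := by
  classical
  refine ⟨fun x y => by beta_reduce; rw [hd.1 x y]; ring, fun a => ?_⟩
  set s := ∑ x, a x with hs
  let b : X → ℝ := fun x => a x - if x = o then s else 0
  have hb : ∑ x, b x = 0 := by simp [b, Finset.sum_sub_distrib, hs]
  have h := hd.2.2 b hb
  have e1 : ∑ x, ∑ y, b x * b y * d x y
      = ∑ x, ∑ y, a x * a y * d x y - s * ∑ x, a x * d x o - s * ∑ y, a y * d o y := by
    have e2 : ∀ x, ∑ y, b x * b y * d x y = b x * (∑ y, a y * d x y - s * d x o) := by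
      intro x
      have : ∑ y, b y * d x y = ∑ y, a y * d x y - s * d x o := by
        simp [b, sub_mul, Finset.sum_sub_distrib, ite_mul]
      rw [← this, Finset.mul_sum]
      exact Finset.sum_congr rfl fun y _ => by ring
    simp_rw [e2]
    simp only [b, sub_mul, Finset.sum_sub_distrib, ite_mul, zero_mul, Finset.sum_ite_eq',
      Finset.mem_univ, if_true, hd.self, mul_zero, sub_zero]
    rw [Finset.mul_sum (f := fun x => a x * d x o), ← Finset.sum_sub_distrib]
    congr 1
    refine Finset.sum_congr rfl fun x _ => ?_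
    rw [mul_sub, Finset.mul_sum]
    congr 1
    · exact Finset.sum_congr rfl fun y _ => by ring
    · ring
  have e3 : ∑ x, ∑ y, a x * a y * ((d x o + d y o - d x y) / 2)
      = ((∑ x, a x * d x o) * s + s * (∑ y, a y * d o y) - ∑ x, ∑ y, a x * a y * d x y) / 2 := by
    rw [hs, Finset.sum_mul_sum, Finset.sum_mul_sum, ← Finset.sum_add_distrib,
      ← Finset.sum_sub_distrib, Finset.sum_div]
    refine Finset.sum_congr rfl fun x _ => ?_
    rw [← Finset.sum_add_distrib, ← Finset.sum_sub_distrib, Finset.sum_div]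
    exact Finset.sum_congr rfl fun y _ => by rw [hd.1 o y]; ring
  rw [e3]
  rw [e1] at h
  linarith

theorem exists_vec [DecidableEq X] {d : X → X → ℝ} (hd : NegKer d) :
    ∃ v : X → EuclideanSpace ℝ X, ∀ x y, d x y = ‖v x - v y‖ ^ 2 := by
  rcases isEmpty_or_nonempty X with h | ⟨⟨o⟩⟩
  · exact ⟨fun _ => 0, fun x => (h.false x).elim⟩
  obtain ⟨v, hv⟩ := (hd.posKer_gram o).exists_vec
  refine ⟨v, fun x y => ?_⟩
  rw [norm_sub_sq_real, ← real_inner_self_eq_norm_sq, ← real_inner_self_eq_norm_sq, ← hv, ← hv,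
    ← hv, hd.self, hd.self]
  ring

theorem nonneg {d : X → X → ℝ} (hd : NegKer d) (x y : X) : 0 ≤ d x y := by
  classical
  obtain ⟨v, hv⟩ := hd.exists_vec
  rw [hv]; positivity

theorem comp {d : X → X → ℝ} (hd : NegKer d) (f : Y → X) : NegKer fun x y => d (f x) (f y) := by
  classical
  obtain ⟨v, hv⟩ := hd.exists_vec
  exact (of_vec fun y => v (f y)).congr fun x y => hv _ _

/-- Schoenberg: `exp (-t d)` is a positive kernel. -/
theorem posKer_exp {d : X → X → ℝ} (hd : NegKer d) {t : ℝ} (ht : 0 ≤ t) :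
    PosKer fun x y => Real.exp (-(t * d x y)) := by
  rcases isEmpty_or_nonempty X with h | ⟨⟨o⟩⟩
  · exact ⟨fun x => (h.false x).elim, fun a => by simp⟩
  have h1 := (((hd.posKer_gram o).const_mul (t := 2 * t) (by positivity)).exp).mul
    (PosKer.rankOne fun x => Real.exp (-(t * d x o)))
  have : (fun x y => Real.exp (-(t * d x y))) = fun x y =>
      Real.exp (2 * t * ((d x o + d y o - d x y) / 2)) *
        (Real.exp (-(t * d x o)) * Real.exp (-(t * d y o))) := by
    funext x y
    rw [← Real.exp_add, ← Real.exp_add]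
    congr 1; ring
  rw [this]; exact h1

theorem one_sub_exp {d : X → X → ℝ} (hd : NegKer d) {t : ℝ} (ht : 0 ≤ t) :
    NegKer fun x y => 1 - Real.exp (-(t * d x y)) :=
  (hd.posKer_exp ht).negKer_one_sub fun x => by simp [hd.self]

theorem one_sub_cos (θ : X → ℝ) : NegKer fun x y => 1 - Real.cos (θ x - θ y) :=
  (PosKer.cos θ).negKer_one_sub fun x => by simp

/-- The discrete semimetric of a map. -/
theorem discrete {Z : Type*} [DecidableEq Z] (f : X → Z) :
    NegKer fun x y => if f x = f y then (0 : ℝ) else 1 := by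
  classical
  have h : PosKer fun x y => if f x = f y then (1 : ℝ) else 0 := by
    have h2 := PosKer.inner (E := EuclideanSpace ℝ (univ.image f))
      fun x => EuclideanSpace.single ⟨f x, mem_image_of_mem f (mem_univ x)⟩ (1 : ℝ)
    have : (fun x y => if f x = f y then (1 : ℝ) else 0) = fun x y => inner ℝ
        (EuclideanSpace.single (⟨f x, mem_image_of_mem f (mem_univ x)⟩ : univ.image f) (1 : ℝ))
        (EuclideanSpace.single (⟨f y, mem_image_of_mem f (mem_univ y)⟩ : univ.image f) (1 : ℝ)) := by
      funext x y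
      rw [EuclideanSpace.inner_single_left]
      simp
    rw [this]; exact h2
  refine (h.negKer_one_sub fun x => by simp).congr fun x y => ?_
  split_ifs <;> simp

open MeasureTheory in
/-- Integrals of negative kernels. -/
theorem integral {Ω : Type*} [MeasurableSpace Ω] (ν : Measure Ω) {d : Ω → X → X → ℝ}
    (hd : ∀ᵐ t ∂ν, NegKer (d t)) (hi : ∀ x y, Integrable (fun t => d t x y) ν) :
    NegKer fun x y => ∫ t, d t x y ∂ν := by
  refine ⟨fun x y => integral_congr_ae (hd.mono fun t ht => ht.1 x y), fun x => ?_, fun a ha => ?_⟩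
  · show ∫ t, d t x x ∂ν = 0
    rw [integral_congr_ae (g := fun _ => 0) (hd.mono fun t ht => ht.self x)]
    simp
  · have : ∑ x, ∑ y, a x * a y * ∫ t, d t x y ∂ν = ∫ t, ∑ x, ∑ y, a x * a y * d t x y ∂ν := by
      rw [integral_finsetSum _ fun x _ => integrable_finsetSum _ fun y _ => (hi x y).const_mul _]
      refine Finset.sum_congr rfl fun x _ => ?_
      rw [integral_finsetSum _ fun y _ => (hi x y).const_mul _]
      exact Finset.sum_congr rfl fun y _ => (integral_const_mul _ _).symm
    rw [this]
    exact integral_nonpos_of_ae (hd.mono fun t ht => ht.2.2 a ha)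

open MeasureTheory in
/-- Bernstein functions operate on negative kernels. -/
theorem bernstein {d : X → X → ℝ} (hd : NegKer d) {Ω : Type*} [MeasurableSpace Ω] (ν : Measure Ω)
    (τ w : Ω → ℝ) (hτ : ∀ᵐ t ∂ν, 0 ≤ τ t) (hw : ∀ᵐ t ∂ν, 0 ≤ w t)
    (hi : ∀ x y, Integrable (fun t => w t * (1 - Real.exp (-(τ t * d x y)))) ν) :
    NegKer fun x y => ∫ t, w t * (1 - Real.exp (-(τ t * d x y))) ∂ν :=
  integral ν (d := fun t x y => w t * (1 - Real.exp (-(τ t * d x y))))
    ((hτ.and hw).mono fun _ ht => (hd.one_sub_exp ht.1).const_mul ht.2) hi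

end NegKer

end Vale.Agent.P318
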