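import Mathlib.Analysis.InnerProductSpace.PiL2
import Mathlib.Analysis.SpecialFunctions.Log.Basic

/-!
Definitions for P318, question Q2: the Goemans-Linial integrality gap for uniform demands.
They follow the problem file literally.
-/

namespace Vale.Agent.P318

open Finset

/-- Symmetric nonnegative capacities with zero diagonal on `[n]`. -/
def IsCap {n : ℕ} (c : Fin n → Fin n → ℝ) : Prop :=
  (∀ i j, c i j = c j i) ∧ (∀ i j, 0 ≤ c i j) ∧ ∀ i, c i i = 0

/-- The ratio `c(S, [n] \ S) / (|S| (n - |S|))` of the cut `S`. -/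
noncomputable def cutRatio {n : ℕ} (c : Fin n → Fin n → ℝ) (S : Finset (Fin n)) : ℝ :=
  (∑ i ∈ S, ∑ j ∈ Sᶜ, c i j) / ((S.card : ℝ) * ((n : ℝ) - (S.card : ℝ)))

/-- `Φ(c)`: the least ratio of a nonempty proper subset. -/
noncomputable def Phi {n : ℕ} (c : Fin n → Fin n → ℝ) : ℝ :=
  sInf {r | ∃ S : Finset (Fin n), S.Nonempty ∧ S ≠ univ ∧ r = cutRatio c S}

/-- A negative-type semimetric on `[n]`: squared Euclidean distances of vectors of `ℝ^n`
that satisfy all triangle inequalities. -/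
def IsNegType {n : ℕ} (d : Fin n → Fin n → ℝ) : Prop :=
  (∃ x : Fin n → EuclideanSpace ℝ (Fin n), ∀ i j, d i j = ‖x i - x j‖ ^ 2) ∧
    ∀ i j k, d i k ≤ d i j + d j k

/-- The sum of `f i j` over the pairs `i < j`. -/
def pairSum {n : ℕ} (f : Fin n → Fin n → ℝ) : ℝ :=
  ∑ i, ∑ j with i < j, f i j

/-- The value `GL(c)` of the Goemans-Linial relaxation. -/
noncomputable def glValue {n : ℕ} (c : Fin n → Fin n → ℝ) : ℝ :=
  sInf {v | ∃ d : Fin n → Fin n → ℝ, IsNegType d ∧ pairSum d = 1 ∧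
    v = pairSum fun i j => c i j * d i j}

/-- The integrality gap `g(n)` for uniform demands. -/
noncomputable def gap (n : ℕ) : ℝ :=
  sSup {r | ∃ c : Fin n → Fin n → ℝ, IsCap c ∧ 0 < glValue c ∧ r = Phi c / glValue c}

end Vale.Agent.P318
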