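import Vale.Agent.P318.Defs
import Vale.Agent.P318.NegKer

/-!
Lower bounds for the integrality gap from an instance on a finite type with `n` elements.
-/

namespace Vale.Agent.P318

open Finset

theorem pairSum_eq_half {n : ℕ} {f : Fin n → Fin n → ℝ} (hs : ∀ i j, f i j = f j i)
    (h0 : ∀ i, f i i = 0) : pairSum f = (∑ i, ∑ j, f i j) / 2 := by
  have h1 : ∀ i, ∑ j, f i j = ∑ j with i < j, f i j + ∑ j with j < i, f i j := by
    intro i
    rw [Finset.sum_filter, Finset.sum_filter, ← Finset.sum_add_distrib]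
    refine Finset.sum_congr rfl fun j _ => ?_
    rcases lt_trichotomy i j with h | h | h
    · simp [h, not_lt.mpr h.le]
    · subst h; simp [h0]
    · simp [h, not_lt.mpr h.le]
  have h2 : ∑ i, ∑ j with j < i, f i j = pairSum f := by
    unfold pairSum
    simp only [Finset.sum_filter]
    rw [Finset.sum_comm]
    exact Finset.sum_congr rfl fun i _ => Finset.sum_congr rfl fun j _ => by rw [hs]
  simp only [h1, Finset.sum_add_distrib, h2]
  unfold pairSum
  ring

theorem IsNegType.negKer {n : ℕ} {d : Fin n → Fin n → ℝ} (hd : IsNegType d) : NegKer d := by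
  obtain ⟨⟨x, hx⟩, _⟩ := hd
  exact (NegKer.of_vec x).congr hx

theorem one_le_card_mul {n : ℕ} {S : Finset (Fin n)} (h1 : S.Nonempty) (h2 : S ≠ univ) :
    (1 : ℝ) ≤ (S.card : ℝ) * ((n : ℝ) - (S.card : ℝ)) := by
  have a1 : 1 ≤ S.card := h1.card_pos
  have a2 : S.card < n := by
    have := Finset.card_lt_card (Finset.ssubset_univ_iff.mpr h2)
    simpa using this
  have b1 : (1 : ℝ) ≤ S.card := by exact_mod_cast a1
  have b2 : (1 : ℝ) ≤ (n : ℝ) - S.card := by
    have : (S.card : ℝ) + 1 ≤ n := by exact_mod_cast a2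
    linarith
  nlinarith

theorem cutRatio_nonneg {n : ℕ} {c : Fin n → Fin n → ℝ} (hc : IsCap c) {S : Finset (Fin n)}
    (h1 : S.Nonempty) (h2 : S ≠ univ) : 0 ≤ cutRatio c S :=
  div_nonneg (Finset.sum_nonneg fun _ _ => Finset.sum_nonneg fun _ _ => hc.2.1 _ _)
    (zero_le_one.trans (one_le_card_mul h1 h2))

theorem Phi_le {n : ℕ} {c : Fin n → Fin n → ℝ} (hc : IsCap c) {S : Finset (Fin n)}
    (h1 : S.Nonempty) (h2 : S ≠ univ) : Phi c ≤ cutRatio c S := by
  refine csInf_le ⟨0, ?_⟩ ⟨S, h1, h2, rfl⟩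
  rintro r ⟨T, t1, t2, rfl⟩
  exact cutRatio_nonneg hc t1 t2

theorem Phi_le_cost {n : ℕ} {c d : Fin n → Fin n → ℝ} (hc : IsCap c) (hd : IsNegType d)
    (h1 : pairSum d = 1) : Phi c ≤ 2 * (n : ℝ) ^ 3 * pairSum fun i j => c i j * d i j := by
  classical
  have hk := hd.negKer
  have hsum : ∑ i, ∑ j, d i j = 2 := by
    have := pairSum_eq_half hk.symm hk.self
    linarith
  have hne : (univ : Finset (Fin n × Fin n)).Nonempty := by
    by_contra h
    rw [Finset.not_nonempty_iff_eq_empty, Finset.univ_eq_empty_iff] at h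
    have : IsEmpty (Fin n) := ⟨fun i => h.false (i, i)⟩
    simp at hsum
  obtain ⟨⟨s, t⟩, -, hst⟩ := Finset.exists_max_image univ (fun p : Fin n × Fin n => d p.1 p.2) hne
  set δ := d s t with hδ
  have hn0 : 0 < n := Fin.pos s
  have hn : (0 : ℝ) < n := by exact_mod_cast hn0
  have hδ1 : 2 ≤ (n : ℝ) ^ 2 * δ := by
    rw [← hsum]
    calc ∑ i, ∑ j, d i j ≤ ∑ _i : Fin n, ∑ _j : Fin n, δ :=
          Finset.sum_le_sum fun i _ => Finset.sum_le_sum fun j _ => hst (i, j) (mem_univ _)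
      _ = (n : ℝ) ^ 2 * δ := by simp; ring
  have hδ0 : 0 < δ := by
    by_contra h
    have : (n : ℝ) ^ 2 * δ ≤ 0 := mul_nonpos_of_nonneg_of_nonpos (by positivity) (not_lt.mp h)
    linarith
  have hstep : 0 < δ / n := by positivity
  obtain ⟨k, hk0⟩ : ∃ k : Fin n, ∀ i, ¬ ((k : ℝ) * (δ / n) < d s i ∧
      d s i < ((k : ℝ) + 1) * (δ / n)) := by
    by_contra h
    push Not at h
    choose g hg using h
    have hinj : Function.Injective g := by
      intro a b hab
      have ha := hg a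
      have hb := hg b
      rw [hab] at ha
      have e1 : ((a : ℕ) : ℝ) < (b : ℕ) + 1 := lt_of_mul_lt_mul_right (ha.1.trans hb.2) hstep.le
      have e2 : ((b : ℕ) : ℝ) < (a : ℕ) + 1 := lt_of_mul_lt_mul_right (hb.1.trans ha.2) hstep.le
      have e3 : (a : ℕ) < b + 1 := by exact_mod_cast e1
      have e4 : (b : ℕ) < a + 1 := by exact_mod_cast e2
      exact Fin.ext (by omega)
    obtain ⟨a, ha⟩ := Finite.surjective_of_injective hinj s
    have := (hg a).1
    rw [ha, hk.self] at this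
    have : (0 : ℝ) ≤ (a : ℕ) * (δ / n) := by positivity
    linarith
  set S : Finset (Fin n) := univ.filter fun i => d s i ≤ (k : ℝ) * (δ / n) with hS
  have hS1 : S.Nonempty := ⟨s, by simp [hS, hk.self]; positivity⟩
  have hS2 : S ≠ univ := by
    intro h
    have ht : t ∈ S := h ▸ mem_univ t
    simp only [hS, mem_filter, mem_univ, true_and] at ht
    have hkn : ((k : ℕ) : ℝ) < n := by exact_mod_cast k.2
    have : ((k : ℕ) : ℝ) * (δ / n) < n * (δ / n) := mul_lt_mul_of_pos_right hkn hstep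
    rw [mul_div_cancel₀ _ hn.ne'] at this
    linarith
  have hcut : ∀ i ∈ S, ∀ j ∈ Sᶜ, δ / n ≤ d i j := by
    intro i hi j hj
    simp only [hS, mem_filter, mem_univ, true_and, mem_compl, not_le] at hi hj
    have h3 : ((k : ℝ) + 1) * (δ / n) ≤ d s j := not_lt.mp fun h => hk0 j ⟨hj, h⟩
    have := hd.2 s i j
    linarith
  have hcd : ∀ i j, 0 ≤ c i j * d i j := fun i j => mul_nonneg (hc.2.1 i j) (hk.nonneg i j)
  have hc2 : (∑ i ∈ S, ∑ j ∈ Sᶜ, c i j) * (δ / n) ≤ 2 * pairSum fun i j => c i j * d i j := by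
    rw [pairSum_eq_half (fun i j => by rw [hc.1 i j, hk.symm i j]) (fun i => by simp [hk.self])]
    calc (∑ i ∈ S, ∑ j ∈ Sᶜ, c i j) * (δ / n) = ∑ i ∈ S, ∑ j ∈ Sᶜ, c i j * (δ / n) := by
          rw [Finset.sum_mul]; exact Finset.sum_congr rfl fun i _ => Finset.sum_mul _ _ _
      _ ≤ ∑ i ∈ S, ∑ j ∈ Sᶜ, c i j * d i j :=
          Finset.sum_le_sum fun i hi => Finset.sum_le_sum fun j hj =>
            mul_le_mul_of_nonneg_left (hcut i hi j hj) (hc.2.1 i j)
      _ ≤ ∑ i ∈ S, ∑ j, c i j * d i j :=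
          Finset.sum_le_sum fun i _ => Finset.sum_le_sum_of_subset_of_nonneg (subset_univ _)
            fun j _ _ => hcd i j
      _ ≤ ∑ i, ∑ j, c i j * d i j :=
          Finset.sum_le_sum_of_subset_of_nonneg (subset_univ _)
            fun i _ _ => Finset.sum_nonneg fun j _ => hcd i j
      _ = _ := by ring
  have hC0 : 0 ≤ ∑ i ∈ S, ∑ j ∈ Sᶜ, c i j :=
    Finset.sum_nonneg fun _ _ => Finset.sum_nonneg fun _ _ => hc.2.1 _ _
  have h4 : Phi c ≤ ∑ i ∈ S, ∑ j ∈ Sᶜ, c i j :=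
    (Phi_le hc hS1 hS2).trans (div_le_self hC0 (one_le_card_mul hS1 hS2))
  have h5 : 1 ≤ (n : ℝ) ^ 3 * (δ / n) := by
    have : (n : ℝ) ^ 3 * (δ / n) = (n : ℝ) ^ 2 * δ := by field_simp
    linarith
  calc Phi c ≤ (∑ i ∈ S, ∑ j ∈ Sᶜ, c i j) * ((n : ℝ) ^ 3 * (δ / n)) :=
        h4.trans (le_mul_of_one_le_right hC0 h5)
    _ = (n : ℝ) ^ 3 * ((∑ i ∈ S, ∑ j ∈ Sᶜ, c i j) * (δ / n)) := by ring
    _ ≤ (n : ℝ) ^ 3 * (2 * pairSum fun i j => c i j * d i j) :=
        mul_le_mul_of_nonneg_left hc2 (by positivity)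
    _ = _ := by ring

theorem glValue_le {n : ℕ} {c d : Fin n → Fin n → ℝ} (hc : IsCap c) (hd : IsNegType d)
    (h1 : pairSum d = 1) : glValue c ≤ pairSum fun i j => c i j * d i j := by
  refine csInf_le ⟨0, ?_⟩ ⟨d, hd, h1, rfl⟩
  rintro r ⟨e, he, -, rfl⟩
  exact Finset.sum_nonneg fun i _ => Finset.sum_nonneg fun j _ =>
    mul_nonneg (hc.2.1 i j) (he.negKer.nonneg i j)

theorem Phi_le_glValue {n : ℕ} {c : Fin n → Fin n → ℝ} (hc : IsCap c)
    (h : ∃ d : Fin n → Fin n → ℝ, IsNegType d ∧ pairSum d = 1) :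
    Phi c ≤ 2 * (n : ℝ) ^ 3 * glValue c := by
  obtain ⟨d, hd, h1⟩ := h
  have hn : (0 : ℝ) < n := by
    rcases Nat.eq_zero_or_pos n with rfl | h
    · simp [pairSum] at h1
    · exact_mod_cast h
  have : Phi c / (2 * (n : ℝ) ^ 3) ≤ glValue c := by
    refine le_csInf ⟨_, d, hd, h1, rfl⟩ ?_
    rintro r ⟨e, he, he1, rfl⟩
    rw [div_le_iff₀ (by positivity), mul_comm]
    exact Phi_le_cost hc he he1
  rwa [div_le_iff₀ (by positivity), mul_comm] at this

theorem ratio_le_gap {n : ℕ} {c : Fin n → Fin n → ℝ} (hc : IsCap c) (h : 0 < glValue c) :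
    Phi c / glValue c ≤ gap n := by
  refine le_csSup ⟨2 * (n : ℝ) ^ 3, ?_⟩ ⟨c, hc, h, rfl⟩
  rintro r ⟨e, he, he0, rfl⟩
  rw [div_le_iff₀ he0]
  refine Phi_le_glValue he ?_
  by_contra hne
  have : {v | ∃ d : Fin n → Fin n → ℝ, IsNegType d ∧ pairSum d = 1 ∧
      v = pairSum fun i j => e i j * d i j} = ∅ := by
    ext v
    simp only [Set.mem_ofPred_eq, Set.mem_empty_iff_false, iff_false]
    rintro ⟨d, h1, h2, -⟩
    exact hne ⟨d, h1, h2⟩
  unfold glValue at he0
  rw [this, Real.sInf_empty] at he0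
  exact lt_irrefl _ he0

/-- The gap bound given by one instance on `Fin n`. -/
theorem gap_ge_fin {n : ℕ} {c d : Fin n → Fin n → ℝ} (hc : IsCap c) (hd : NegKer d)
    (htri : ∀ i j k, d i k ≤ d i j + d j k) {φ A D : ℝ} (hφ : 0 < φ) (hD : 0 < D)
    (hcut : ∀ S : Finset (Fin n), S.Nonempty → S ≠ univ →
      φ * ((S.card : ℝ) * ((n : ℝ) - (S.card : ℝ))) ≤ ∑ i ∈ S, ∑ j ∈ Sᶜ, c i j)
    (hA : ∑ i, ∑ j, c i j * d i j ≤ A) (hDd : D ≤ ∑ i, ∑ j, d i j) : φ * D / A ≤ gap n := by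
  classical
  set s := ∑ i, ∑ j, d i j with hs
  have hs0 : 0 < s := hD.trans_le hDd
  let e : Fin n → Fin n → ℝ := fun i j => 2 / s * d i j
  have he : NegKer e := hd.const_mul (by positivity)
  have he1 : IsNegType e := by
    refine ⟨he.exists_vec, fun i j k => ?_⟩
    have := mul_le_mul_of_nonneg_left (htri i j k) (show 0 ≤ 2 / s by positivity)
    simpa [e, mul_add] using this
  have he2 : pairSum e = 1 := by
    rw [pairSum_eq_half he.symm he.self]
    simp only [e, ← Finset.mul_sum, ← hs]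
    field_simp
  obtain ⟨i, j, hij⟩ : ∃ i j : Fin n, i ≠ j := by
    by_contra h
    push Not at h
    have : s = 0 := Finset.sum_eq_zero fun i _ => Finset.sum_eq_zero fun j _ => by
      rw [h i j, hd.self]
    linarith
  have hPhi : φ ≤ Phi c := by
    refine le_csInf ⟨_, {i}, singleton_nonempty i, fun h => hij ?_, rfl⟩ ?_
    · have : j ∈ ({i} : Finset (Fin n)) := h ▸ mem_univ j
      exact (mem_singleton.mp this).symm
    · rintro r ⟨S, h1, h2, rfl⟩
      unfold cutRatio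
      rw [le_div_iff₀ (zero_lt_one.trans_le (one_le_card_mul h1 h2))]
      exact hcut S h1 h2
  have hgl0 : 0 < glValue c := by
    have h := Phi_le_glValue hc ⟨e, he1, he2⟩
    by_contra h0
    have : 2 * (n : ℝ) ^ 3 * glValue c ≤ 0 :=
      mul_nonpos_of_nonneg_of_nonpos (by positivity) (not_lt.mp h0)
    linarith
  have hgl : glValue c ≤ A / s := by
    refine (glValue_le hc he1 he2).trans ?_
    rw [pairSum_eq_half (fun i j => by rw [hc.1 i j, he.symm i j]) (fun i => by simp [he.self])]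
    have : ∑ i, ∑ j, c i j * e i j = 2 / s * ∑ i, ∑ j, c i j * d i j := by
      rw [Finset.mul_sum]
      refine Finset.sum_congr rfl fun i _ => ?_
      rw [Finset.mul_sum]
      exact Finset.sum_congr rfl fun j _ => by simp only [e]; ring
    rw [this, le_div_iff₀ hs0]
    have : 2 / s * (∑ i, ∑ j, c i j * d i j) / 2 * s = ∑ i, ∑ j, c i j * d i j := by field_simp
    linarith
  have hA0 : 0 < A := by
    have := hgl0.trans_le hgl
    exact (div_pos_iff_of_pos_right hs0).mp this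
  refine le_trans ?_ (ratio_le_gap hc hgl0)
  rw [div_le_div_iff₀ hA0 hgl0]
  have h1 : glValue c * s ≤ A := (le_div_iff₀ hs0).mp hgl
  calc φ * D * glValue c ≤ φ * s * glValue c := by gcongr
    _ = φ * (glValue c * s) := by ring
    _ ≤ Phi c * A := mul_le_mul hPhi h1 (by positivity) (hφ.le.trans hPhi)

/-- The gap bound given by one instance on a finite type with `n` elements. -/
theorem gap_ge_fintype {V : Type*} [Fintype V] [DecidableEq V] {n : ℕ} (hn : Fintype.card V = n)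
    {c d : V → V → ℝ} (hcs : ∀ x y, c x y = c y x) (hc0 : ∀ x y, 0 ≤ c x y) (hcd : ∀ x, c x x = 0)
    (hd : NegKer d) (htri : ∀ i j k, d i k ≤ d i j + d j k) {φ A D : ℝ} (hφ : 0 < φ) (hD : 0 < D)
    (hcut : ∀ S : Finset V, S.Nonempty → S ≠ univ →
      φ * ((S.card : ℝ) * ((n : ℝ) - (S.card : ℝ))) ≤ ∑ i ∈ S, ∑ j ∈ Sᶜ, c i j)
    (hA : ∑ i, ∑ j, c i j * d i j ≤ A) (hDd : D ≤ ∑ i, ∑ j, d i j) : φ * D / A ≤ gap n := by
  let e : Fin n ≃ V := (Fintype.equivFinOfCardEq hn).symm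
  refine gap_ge_fin (c := fun i j => c (e i) (e j)) (d := fun i j => d (e i) (e j))
    ⟨fun i j => hcs _ _, fun i j => hc0 _ _, fun i => hcd _⟩ (hd.comp e)
    (fun i j k => htri _ _ _) hφ hD (fun S h1 h2 => ?_) ?_ ?_
  · have h := hcut (S.map e.toEmbedding) (h1.map) (fun h => h2 ?_)
    · rw [Finset.card_map, Finset.sum_map] at h
      refine h.trans (le_of_eq (Finset.sum_congr rfl fun i _ => ?_))
      have : (S.map e.toEmbedding)ᶜ = Sᶜ.map e.toEmbedding := by
        ext x; simp [Finset.mem_map_equiv]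
      rw [this, Finset.sum_map]; rfl
    · ext i
      have : e i ∈ S.map e.toEmbedding := h ▸ mem_univ _
      simpa using this
  · rw [← (Equiv.sum_comp e fun x => ∑ y, c x y * d x y)] at hA
    simpa only [← (Equiv.sum_comp e fun y => c (e _) y * d (e _) y)] using hA
  · rw [← (Equiv.sum_comp e fun x => ∑ y, d x y)] at hDd
    simpa only [← (Equiv.sum_comp e fun y => d (e _) y)] using hDd

end Vale.Agent.P318
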