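import Vale.Agent.P318.RFib
import Vale.Agent.P318.RRows

/-!
Random rows of a random code lattice: norms, anticoncentration modulo `p`, and the property that
short lattice vectors close to the real span of few rows lie in their integer span.
-/

namespace Vale.Agent.P318.R

open Finset
open scoped BigOperators

section Marg
variable {α Ω : Type*} [Fintype α] [DecidableEq α] [Fintype Ω] [Nonempty Ω]

lemma pr_const (P : Prop) [Decidable P] : pr (fun _ : Ω => P) = if P then 1 else 0 := by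
  rw [pr_eq_expect]
  exact Fintype.expect_const _

lemma pr_eval (l : α) (E : Ω → Prop) : pr (fun w : α → Ω => E (w l)) = pr E := by
  classical
  rw [pr_eq_expect, pr_eq_expect]
  simpa using expect_prod_pi_mem (Ω := fun _ : α => Ω) {l}
    (fun _ u => if E u then (1 : ℝ) else 0)

lemma pr_restrict (T : Finset α) (G : (T → Ω) → Prop) :
    pr (fun w : α → Ω => G fun i => w i) = pr G := by
  classical
  have h := pr_equiv (Equiv.piEquivPiSubtypeProd (fun i => i ∈ T) fun _ : α => Ω)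
    (fun q => G q.1)
  refine Eq.trans ?_ (h.trans ?_)
  · rfl
  · rw [pr_prod, pr_eq_expect G]
    exact expect_congr rfl fun ω _ => pr_const (Ω := {i // ¬ i ∈ T} → Ω) (G ω)

end Marg

variable {p : ℕ} {ι κ σ : Type*} [Fintype ι] [Fintype κ] [DecidableEq ι] [DecidableEq κ]
  [Fintype σ] [DecidableEq σ]

/-- Comparison of several independent rows with the product law. -/
lemma pr_fib_pi_le [Fact p.Prime] (H : κ → ι → ZMod p) (G : (σ → ι → ℤ) → Prop) :
    pr (fun w : σ → Fib H => G fun i => row (w i)) ≤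
      ((p : ℝ) ^ Fintype.card κ) ^ Fintype.card σ *
        pr fun e : σ → ι → Bool × Bool =>
          (∀ i, syn H (fun j => sg (e i j)) = 0) ∧ G fun i j => sg (e i j) := by
  classical
  rw [pr_eq_card, pr_eq_card]
  have h1 : (univ.filter fun w : σ → Fib H => G fun i => row (w i)).card =
      (univ.filter fun e : σ → ι → Bool × Bool =>
        (∀ i, syn H (fun j => sg (e i j)) = 0) ∧ G fun i j => sg (e i j)).card := by
    refine card_bij (fun w _ i => (w i).1) (fun w hw => ?_) (fun w _ w' _ h => ?_) fun e he => ?_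
    · exact mem_filter.2 ⟨mem_univ _, fun i => (w i).2, (mem_filter.1 hw).2⟩
    · exact funext fun i => Subtype.ext (congrFun h i)
    · obtain ⟨h1, h2⟩ := (mem_filter.1 he).2
      exact ⟨fun i => ⟨e i, h1 i⟩, mem_filter.2 ⟨mem_univ _, h2⟩, rfl⟩
  rw [h1, Fintype.card_fun, Fintype.card_fun (α := σ)]
  have h2 := one_le_pow₀ (n := Fintype.card σ) (one_le_fib_mass H)
  have h3 : (0 : ℝ) < Fintype.card (Fib H) := Nat.cast_pos.2 Fintype.card_pos
  have h4 : (0 : ℝ) < Fintype.card (ι → Bool × Bool) := Nat.cast_pos.2 Fintype.card_pos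
  push_cast
  refine (le_mul_of_one_le_left (by positivity) h2).trans (le_of_eq ?_)
  rw [mul_pow, div_pow]
  field_simp

/-- Most rows have many nonzero entries. -/
lemma pr_row_small [Fact p.Prime] (H : κ → ι → ZMod p) :
    pr (fun e : Fib H => ∑ j, (row e j : ℝ) ^ 2 ≤ Fintype.card ι / 4) ≤
      (p : ℝ) ^ Fintype.card κ * Real.exp (-(Fintype.card ι / 16)) := by
  refine (pr_fib_le H fun k => ∑ j, (k j : ℝ) ^ 2 ≤ Fintype.card ι / 4).trans ?_
  refine mul_le_mul_of_nonneg_left ?_ (by positivity)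
  have h := pr_card_le_le (Ω := fun _ : ι => Bool × Bool) univ (fun _ s => sg s ≠ 0) (q := 1 / 2)
    fun _ _ => by
      rw [pr_eq_expect, expect_sg (fun n => if n ≠ 0 then (1 : ℝ) else 0)]
      norm_num
  rw [card_univ] at h
  refine le_trans (pr_mono fun e he => ?_) (h.trans (le_of_eq ?_))
  · refine le_trans (le_of_eq ?_) (he.trans (le_of_eq (by ring)))
    rw [card_filter]
    push_cast
    refine sum_congr rfl fun j _ => ?_
    rcases sg_cases (e j) with h | h | h <;> simp [h]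
  · congr 1
    ring

lemma large_half {c u : ℤ} (hc : 2 * |c| ≤ p) :
    (1 : ℝ) / 2 ≤ pr fun s : Bool × Bool => ∀ n : ℤ, (p : ℤ) ∣ n - (u + c * sg s) → |c| ≤ 2 * |n| := by
  classical
  rw [pr_eq_expect, expect_sg (fun m => if (∀ n : ℤ, (p : ℤ) ∣ n - (u + c * m) → |c| ≤ 2 * |n|)
    then (1 : ℝ) else 0)]
  have key : ∀ m : ℤ, |m| = 1 → ¬ (∀ n : ℤ, (p : ℤ) ∣ n - (u + c * 0) → |c| ≤ 2 * |n|) →
      ∀ n : ℤ, (p : ℤ) ∣ n - (u + c * m) → |c| ≤ 2 * |n| := by
    intro m hm h0 n hn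
    push Not at h0
    obtain ⟨n0, h1, h2⟩ := h0
    by_contra h3
    push Not at h3
    have h4 : (p : ℤ) ∣ n - n0 - c * m := by
      have e : n - n0 - c * m = n - (u + c * m) - (n0 - (u + c * 0)) := by ring
      rw [e]
      exact dvd_sub hn h1
    have h5 : |c * m| = |c| := by rw [abs_mul, hm, mul_one]
    have h6 : |n - n0| < |c| := by
      have := abs_sub n n0
      omega
    have h7 : |n - n0 - c * m| < p := by
      have := abs_sub (n - n0) (c * m)
      omega
    have h8 := Int.eq_zero_of_abs_lt_dvd h4 h7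
    rw [sub_eq_zero] at h8
    rw [h8] at h6
    omega
  by_cases h0 : ∀ n : ℤ, (p : ℤ) ∣ n - (u + c * 0) → |c| ≤ 2 * |n|
  · rw [if_pos h0]
    split_ifs <;> norm_num
  · rw [if_neg h0, if_pos (key 1 (by simp) h0), if_pos (key (-1) (by simp) h0)]
    norm_num

/-- Anticoncentration modulo `p` for one row. -/
lemma pr_ac_one [Fact p.Prime] (H : κ → ι → ZMod p) (u : ι → ℤ) {c : ℤ} (hc : 2 * |c| ≤ p) :
    pr (fun e : Fib H => ∃ k : ι → ℤ, (∀ j, (p : ℤ) ∣ k j - (u j + c * row e j)) ∧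
      16 * ∑ j, (k j : ℝ) ^ 2 < Fintype.card ι * (c : ℝ) ^ 2) ≤
      (p : ℝ) ^ Fintype.card κ * Real.exp (-(Fintype.card ι / 16)) := by
  classical
  refine (pr_fib_le H fun b => ∃ k : ι → ℤ, (∀ j, (p : ℤ) ∣ k j - (u j + c * b j)) ∧
      16 * ∑ j, (k j : ℝ) ^ 2 < Fintype.card ι * (c : ℝ) ^ 2).trans ?_
  refine mul_le_mul_of_nonneg_left ?_ (by positivity)
  have h := pr_card_le_le (Ω := fun _ : ι => Bool × Bool) univ
    (fun j s => ∀ n : ℤ, (p : ℤ) ∣ n - (u j + c * sg s) → |c| ≤ 2 * |n|) (q := 1 / 2)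
    fun _ _ => large_half hc
  rw [card_univ] at h
  refine le_trans (pr_mono fun e he => ?_) (h.trans (le_of_eq ?_))
  · obtain ⟨k, hk, hk2⟩ := he
    by_contra h1
    push Not at h1
    set S := univ.filter fun j => ∀ n : ℤ, (p : ℤ) ∣ n - (u j + c * sg (e j)) → |c| ≤ 2 * |n|
    have h2 : (S.card : ℝ) * ((c : ℝ) ^ 2 / 4) ≤ ∑ j ∈ S, (k j : ℝ) ^ 2 := by
      rw [← nsmul_eq_mul]
      refine card_nsmul_le_sum _ _ _ fun j hj => ?_
      have h3 : |c| ≤ 2 * |k j| := (mem_filter.1 hj).2 _ (hk j)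
      have h4 : |(c : ℝ)| ≤ 2 * |(k j : ℝ)| := by exact_mod_cast h3
      have h5 := pow_le_pow_left₀ (abs_nonneg _) h4 2
      rw [mul_pow, sq_abs, sq_abs] at h5
      linarith
    have h3 : ∑ j ∈ S, (k j : ℝ) ^ 2 ≤ ∑ j, (k j : ℝ) ^ 2 :=
      sum_le_sum_of_subset_of_nonneg (subset_univ _) fun _ _ _ => sq_nonneg _
    nlinarith [sq_nonneg (c : ℝ)]
  · congr 1
    ring

/-- Anticoncentration modulo `p` of the integer combinations of the rows `b`. -/
def AC (p : ℕ) (b : σ → ι → ℤ) : Prop :=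
  ∀ c : σ → ℤ, (∀ i, 2 * |c i| ≤ p) → ∀ (l : σ) (k : ι → ℤ),
    (∀ j, (p : ℤ) ∣ k j - ∑ i, c i * b i j) →
      Fintype.card ι * (c l : ℝ) ^ 2 ≤ 16 * ∑ j, (k j : ℝ) ^ 2

lemma pr_not_ac [Fact p.Prime] (H : κ → ι → ZMod p) :
    pr (fun w : σ → Fib H => ¬ AC p fun i => row (w i)) ≤
      (2 * (p : ℝ) + 1) ^ Fintype.card σ * (Fintype.card σ *
        ((p : ℝ) ^ Fintype.card κ * Real.exp (-(Fintype.card ι / 16)))) := by
  have h1 := pr_exists_mem_le_card_mul (Ω := σ → Fib H)
    (Fintype.piFinset fun _ : σ => Icc (-(p : ℤ)) p)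
    (fun c w => (∀ i, 2 * |c i| ≤ p) ∧ ∃ l ∈ (univ : Finset σ), ∃ k : ι → ℤ,
      (∀ j, (p : ℤ) ∣ k j - ∑ i, c i * row (w i) j) ∧
        16 * ∑ j, (k j : ℝ) ^ 2 < Fintype.card ι * (c l : ℝ) ^ 2)
    (δ := Fintype.card σ * ((p : ℝ) ^ Fintype.card κ * Real.exp (-(Fintype.card ι / 16))))
    fun c _ => by
      by_cases hc : ∀ i, 2 * |c i| ≤ p
      · refine le_trans (pr_mono fun w hw => hw.2) ?_
        refine pr_exists_mem_le_card_mul _ _ fun l _ => ?_
        refine pr_le_of_freeze {l} _ (by positivity) fun w0 => ?_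
        refine le_trans (pr_mono fun w hw => ?_) ((pr_eval l _).trans_le
          (pr_ac_one H (fun j => ∑ i ∈ univ.erase l, c i * row (w0 i) j) (hc l)))
        obtain ⟨k, hk, hk2⟩ := hw
        refine ⟨k, fun j => ?_, hk2⟩
        have := hk j
        rw [← sum_erase_add _ _ (mem_univ l)] at this
        convert this using 3
        · refine sum_congr rfl fun i hi => ?_
          rw [piecewise_eq_of_notMem _ _ _ (by simpa using (mem_erase.1 hi).1)]
        · rw [piecewise_eq_of_mem _ _ _ (mem_singleton_self l)]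
      · exact le_trans (pr_mono (F := fun _ => False) fun w hw => hc hw.1)
          (by rw [pr_const]; simp only [if_false]; positivity)
  refine le_trans (pr_mono fun w hw => ?_) (h1.trans (le_of_eq ?_))
  · unfold AC at hw
    push Not at hw
    obtain ⟨c, hc, l, k, hk, hk2⟩ := hw
    refine ⟨c, Fintype.mem_piFinset.2 fun i => mem_Icc.2 (abs_le.1 ?_), hc, l, mem_univ _, k, hk,
      hk2⟩
    have := hc i
    have := abs_nonneg (c i)
    omega
  · rw [Fintype.card_piFinset, prod_const, card_univ, Int.card_Icc]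
    congr 1
    have : ((p : ℤ) + 1 - -(p : ℤ)).toNat = 2 * p + 1 := by omega
    rw [this]
    push_cast
    rfl

/-- A random matrix kills an independent family with probability `p^(-r |σ|)`. -/
lemma pr_syn_family [Fact p.Prime] (v : σ → ι → ℤ)
    (hv : ∀ y : σ → ZMod p, (∀ j, ∑ i, y i * (v i j : ZMod p) = 0) → y = 0) :
    pr (fun H : κ → ι → ZMod p => ∀ i, syn H (v i) = 0) =
      (((p : ℝ) ^ Fintype.card κ) ^ Fintype.card σ)⁻¹ := by
  classical
  rw [pr_eq_expect]
  have e : ∀ H : κ → ι → ZMod p, (if ∀ i, syn H (v i) = 0 then (1 : ℝ) else 0) =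
      ∏ a, (if (fun i => ∑ j, H a j * (v i j : ZMod p)) = 0 then (1 : ℝ) else 0) := by
    intro H
    rw [prod_ite_zero]
    simp only [mem_univ, true_imp_iff, prod_const_one]
    congr 1
    simp only [funext_iff, syn, eq_iff_iff]
    exact forall_comm
  simp only [e]
  rw [expect_prod_pi (Ω := fun _ : κ => ι → ZMod p)
    (fun _ h => if (fun i => ∑ j, h j * (v i j : ZMod p)) = 0 then (1 : ℝ) else 0)]
  have hp : (p : ℂ) ≠ 0 := Nat.cast_ne_zero.2 (Fact.out : p.Prime).ne_zero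
  have e2 : 𝔼 h : ι → ZMod p, (if (fun i => ∑ j, h j * (v i j : ZMod p)) = 0 then (1 : ℝ) else 0) =
      ((p : ℝ) ^ Fintype.card σ)⁻¹ := by
    have h1 : 𝔼 h : ι → ZMod p, (∑ y : σ → ZMod p,
        (ZMod.stdAddChar (∑ i, y i * ∑ j, h j * (v i j : ZMod p)) : ℂ)) = 1 := by
      rw [expect_sum_comm, sum_eq_single 0]
      · simp
      · intro y _ hy
        have h2 : (fun j => ∑ i, y i * (v i j : ZMod p)) ≠ 0 := fun h => hy (hv y (congrFun h))
        have h3 := expect_dot h2 (fun u => (ZMod.stdAddChar u : ℂ))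
        have h4 : ∀ h : ι → ZMod p, ∑ i, y i * ∑ j, h j * (v i j : ZMod p) =
            ∑ j, h j * ∑ i, y i * (v i j : ZMod p) := by
          intro h
          simp only [mul_sum]
          rw [sum_comm]
          exact sum_congr rfl fun _ _ => sum_congr rfl fun _ _ => by ring
        simp only [h4]
        rw [h3, Fintype.expect_eq_sum_div_card, AddChar.sum_eq_zero_of_ne_one, zero_div]
        intro h
        have h1 : ZMod.stdAddChar (N := p) 1 = ZMod.stdAddChar (N := p) 0 := by rw [h]; rfl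
        exact one_ne_zero (ZMod.injective_stdAddChar h1)
      · simp
    simp only [sum_char_dot] at h1
    apply Complex.ofReal_injective
    rw [Fintype.expect_eq_sum_div_card] at h1 ⊢
    push_cast
    rw [← mul_one ((p : ℂ) ^ Fintype.card σ)⁻¹, ← h1, ← mul_div_assoc, mul_sum]
    congr 1
    refine sum_congr rfl fun h _ => ?_
    split_ifs
    · simp [hp]
    · simp
  simp only [e2]
  rw [prod_const, card_univ, inv_pow, ← pow_mul, ← pow_mul, mul_comm]

lemma abs_round_le {x : ℝ} {Q : ℕ} (h : |x| ≤ Q) : |round x| ≤ (Q : ℤ) := by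
  have h1 := abs_le.1 (abs_sub_round x)
  have h2 := abs_le.1 h
  have h3 : ((round x : ℤ) : ℝ) < ((Q : ℤ) + 1 : ℤ) := by push_cast; linarith [h1.1, h2.2]
  have h4 : ((-(Q : ℤ) - 1 : ℤ) : ℝ) < (round x : ℤ) := by push_cast; linarith [h1.2, h2.1]
  have h5 := Int.cast_lt.1 h3
  have h6 := Int.cast_lt.1 h4
  rw [abs_le]
  omega

omit [DecidableEq ι] [DecidableEq σ] in
lemma nr_comb_le {b : σ → ι → ℤ} (hb : ∀ i j, |(b i j : ℝ)| ≤ 1) {t : σ → ℝ} {η : ℝ}
    (hη : ∑ i, |t i| ≤ η) : nr (fun j => ∑ i, t i * b i j) ≤ η * √(Fintype.card ι : ℝ) := by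
  have h0 : 0 ≤ η := (sum_nonneg fun _ _ => abs_nonneg _).trans hη
  refine nr_le_of_sq_le (by positivity) ?_
  rw [mul_pow, Real.sq_sqrt (Nat.cast_nonneg _)]
  refine (sum_le_card_nsmul _ _ (η ^ 2) fun j _ => ?_).trans
    (le_of_eq (by rw [card_univ, nsmul_eq_mul, mul_comm]))
  rw [← sq_abs]
  refine pow_le_pow_left₀ (abs_nonneg _) ((abs_sum_le_sum_abs _ _).trans
    (le_trans (sum_le_sum fun i _ => ?_) hη)) 2
  rw [abs_mul]
  exact mul_le_of_le_one_right (abs_nonneg _) (hb i j)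

omit [DecidableEq ι] [DecidableEq σ] in
/-- Anticoncentration gives a lower bound for real combinations. -/
lemma AC.sup_le {b : σ → ι → ℤ} (h : AC p b) (hb : ∀ i j, |(b i j : ℝ)| ≤ 1)
    (hp : 8 * Fintype.card σ ≤ p) (t : σ → ℝ) (l : σ) :
    |t l| * √(Fintype.card ι : ℝ) ≤ 8 * nr fun j => ∑ i, t i * b i j := by
  obtain ⟨l0, -, hl0⟩ := exists_max_image univ (fun i => |t i|) ⟨l, mem_univ _⟩
  have hX := nr_nonneg fun j => ∑ i, t i * (b i j : ℝ)
  set m : ℝ := √(Fintype.card ι : ℝ) with hm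
  have hm0 : 0 ≤ m := Real.sqrt_nonneg _
  refine (mul_le_mul_of_nonneg_right (hl0 l (mem_univ _)) hm0).trans ?_
  set τ := |t l0| with hτ
  rcases (abs_nonneg (t l0)).eq_or_lt with h0 | h0
  · rw [hτ, ← h0, zero_mul]; positivity
  rw [← hτ] at h0
  have hs : (0 : ℝ) < Fintype.card σ := Nat.cast_pos.2 (Fintype.card_pos_iff.2 ⟨l⟩)
  set s : ℝ := (Fintype.card σ : ℝ) with hsdef
  let c : σ → ℤ := fun i => round (4 * s / τ * t i)
  have hc : ∀ i, |c i| ≤ ((4 * Fintype.card σ : ℕ) : ℤ) := fun i => abs_round_le (by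
    rw [abs_mul, abs_of_pos (by positivity), div_mul_eq_mul_div, div_le_iff₀ h0]
    push_cast
    exact mul_le_mul_of_nonneg_left (hl0 i (mem_univ _)) (by positivity))
  have hc0 : 4 * s ≤ |(c l0 : ℝ)| := by
    have h1 : |4 * s / τ * t l0| = 4 * s := by
      rw [abs_mul, abs_of_pos (by positivity), ← hτ]; field_simp
    have h2 := abs_sub_round (4 * s / τ * t l0)
    have h3 := abs_sub_abs_le_abs_sub (4 * s / τ * t l0) (c l0 : ℝ)
    have h4 : (((4 * Fintype.card σ : ℕ) : ℤ) - 1 : ℤ) < |c l0| := by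
      have : ((((4 * Fintype.card σ : ℕ) : ℤ) - 1 : ℤ) : ℝ) < ((|c l0| : ℤ) : ℝ) := by
        push_cast
        linarith
      exact_mod_cast this
    have h5 : ((4 * Fintype.card σ : ℕ) : ℤ) ≤ |c l0| := by omega
    rw [hsdef]
    exact_mod_cast h5
  have h1 := h c (fun i => by have := hc i; omega) l0 (fun j => ∑ i, c i * b i j) (by simp)
  have h2 : 4 * s * m ≤ 4 * nr fun j => ((∑ i, c i * b i j : ℤ) : ℝ) := by
    refine abs_le_of_sq_le_sq' ?_ (by have := nr_nonneg fun j => ((∑ i, c i * b i j : ℤ) : ℝ)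
                                      positivity) |>.2
    rw [mul_pow 4 (nr _), nr_sq, mul_pow, hm, Real.sq_sqrt (Nat.cast_nonneg _)]
    have h3 := pow_le_pow_left₀ (by positivity) hc0 2
    rw [sq_abs] at h3
    have h4 : (0 : ℝ) ≤ Fintype.card ι := Nat.cast_nonneg _
    nlinarith
  have e : (fun j => ((∑ i, c i * b i j : ℤ) : ℝ)) = (4 * s / τ) • (fun j => ∑ i, t i * b i j) +
      fun j => ∑ i, ((c i : ℝ) - 4 * s / τ * t i) * b i j := by
    funext j
    simp only [Pi.add_apply, Pi.smul_apply, smul_eq_mul, mul_sum, ← sum_add_distrib]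
    push_cast
    exact sum_congr rfl fun _ _ => by ring
  have h3 := nr_comb_le hb (t := fun i => (c i : ℝ) - 4 * s / τ * t i) (η := s / 2)
    ((sum_le_card_nsmul _ _ (1 / 2) fun i _ => by
      rw [abs_sub_comm]; exact abs_sub_round _).trans (by rw [card_univ, nsmul_eq_mul]; linarith))
  have h4 := nr_add_le ((4 * s / τ) • (fun j => ∑ i, t i * b i j))
    fun j => ∑ i, ((c i : ℝ) - 4 * s / τ * t i) * b i j
  rw [← e, nr_smul, abs_of_pos (by positivity)] at h4
  set X := nr fun j => ∑ i, t i * (b i j : ℝ)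
  have h5 : s * (m / 2) ≤ s * (4 / τ * X) := by
    have : 4 * s / τ * X = s * (4 / τ * X) := by ring
    nlinarith
  have h6 := le_of_mul_le_mul_left h5 hs
  rw [div_mul_eq_mul_div, le_div_iff₀ h0] at h6
  linarith

/-- Short lattice vectors close to the real span of the rows `b` lie in their integer span. -/
def FarSp (H : κ → ι → ZMod p) (b : σ → ι → ℤ) (L : ℝ) : Prop :=
  ∀ k : ι → ℤ, syn H k = 0 → ∑ j, (k j : ℝ) ^ 2 ≤ L ^ 2 * Fintype.card ι → ∀ t : σ → ℝ,
    ∑ j, ((k j : ℝ) - ∑ i, t i * b i j) ^ 2 ≤ Fintype.card ι / 16384 →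
      ∃ c : σ → ℤ, ∀ j, k j = ∑ i, c i * b i j

lemma card_ballZ_tiny (ι : Type*) [Fintype ι] [DecidableEq ι] {R : ℕ}
    (hR : (R : ℝ) ≤ Fintype.card ι / 1000) :
    ((ballZ ι R).card : ℝ) ≤ Real.exp (Fintype.card ι / 100) := by
  refine (card_ballZ_le ι R (t := 7) (by norm_num)).trans ?_
  have h1 : Real.exp (-7) ≤ 1 / 1000 := by
    have h2 := Real.exp_one_gt_d9
    have h3 : Real.exp 7 = Real.exp 1 ^ 7 := by rw [← Real.exp_nat_mul]; norm_num
    have h4 : (1000 : ℝ) ≤ Real.exp 7 := by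
      rw [h3]
      calc (1000 : ℝ) ≤ 2.7182818283 ^ 7 := by norm_num
        _ ≤ _ := pow_le_pow_left₀ (by norm_num) h2.le _
    rw [Real.exp_neg, one_div]
    exact inv_anti₀ (by norm_num) h4
  have h2 := Real.exp_pos (-7)
  have h3 : 1 + 2 * Real.exp (-7) / (1 - Real.exp (-7)) ≤ Real.exp (3 / 1000) := by
    have : 2 * Real.exp (-7) / (1 - Real.exp (-7)) ≤ 3 / 1000 := by
      rw [div_le_iff₀ (by linarith)]; linarith
    linarith [Real.add_one_le_exp (3 / 1000 : ℝ)]
  have h4 : 0 ≤ 1 + 2 * Real.exp (-7) / (1 - Real.exp (-7)) := by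
    have : 0 < 1 - Real.exp (-7) := by linarith
    positivity
  refine (mul_le_mul_of_nonneg_left (pow_le_pow_left₀ h4 h3 _) (Real.exp_pos _).le).trans ?_
  rw [← Real.exp_nat_mul, ← Real.exp_add]
  refine Real.exp_le_exp.2 ?_
  have : (0 : ℝ) ≤ Fintype.card ι := Nat.cast_nonneg _
  linarith

/-- The finite set of integer points that can be close to the span of `b`. -/
noncomputable def Kset (b : σ → ι → ℤ) (B : ℕ) : Finset (ι → ℤ) :=
  (Fintype.piFinset fun _ : σ => Icc (-(B : ℤ)) B).biUnion fun n =>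
    (ballZ ι ⌊(Fintype.card ι : ℝ) / 1000⌋₊).image fun d j =>
      d j + round (∑ i, (n i : ℝ) / (64 * Fintype.card σ) * b i j)

lemma card_Kset_le (b : σ → ι → ℤ) (B : ℕ) :
    ((Kset b B).card : ℝ) ≤ (2 * B + 1) ^ Fintype.card σ * Real.exp (Fintype.card ι / 100) := by
  have h1 : (Kset b B).card ≤ (Fintype.piFinset fun _ : σ => Icc (-(B : ℤ)) B).card *
      (ballZ ι ⌊(Fintype.card ι : ℝ) / 1000⌋₊).card :=
    card_biUnion_le_card_mul _ _ _ fun n _ => card_image_le
  rw [Fintype.card_piFinset, prod_const, card_univ, Int.card_Icc] at h1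
  have h2 : ((B : ℤ) + 1 - -(B : ℤ)).toNat = 2 * B + 1 := by omega
  rw [h2] at h1
  have h3 : ((Kset b B).card : ℝ) ≤ (2 * B + 1) ^ Fintype.card σ *
      ((ballZ ι ⌊(Fintype.card ι : ℝ) / 1000⌋₊).card : ℝ) := by exact_mod_cast h1
  exact h3.trans (mul_le_mul_of_nonneg_left
    (card_ballZ_tiny ι (Nat.floor_le (by positivity))) (by positivity))

lemma mem_Kset {b : σ → ι → ℤ} (h : AC p b) (hb : ∀ i j, |(b i j : ℝ)| ≤ 1)
    (hp : 8 * Fintype.card σ ≤ p) [Nonempty ι] {L : ℝ} (hL : 0 ≤ L) {B : ℕ}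
    (hB : 512 * Fintype.card σ * (L + 1) ≤ B) {k : ι → ℤ}
    (hk : ∑ j, (k j : ℝ) ^ 2 ≤ L ^ 2 * Fintype.card ι) {t : σ → ℝ}
    (ht : ∑ j, ((k j : ℝ) - ∑ i, t i * b i j) ^ 2 ≤ Fintype.card ι / 16384) : k ∈ Kset b B := by
  have hM : (0 : ℝ) < Fintype.card ι := Nat.cast_pos.2 Fintype.card_pos
  set m : ℝ := √(Fintype.card ι : ℝ) with hm
  have hm0 : 0 < m := Real.sqrt_pos.2 hM
  have hm2 : m ^ 2 = Fintype.card ι := Real.sq_sqrt hM.le
  set s : ℝ := (Fintype.card σ : ℝ) with hsdef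
  have h1 : nr (fun j => (k j : ℝ)) ≤ L * m := nr_le_of_sq_le (by positivity) (by
    rw [mul_pow, hm2]; exact hk)
  have h2 : nr ((fun j => (k j : ℝ)) - fun j => ∑ i, t i * b i j) ≤ m / 128 :=
    nr_le_of_sq_le (by positivity) (by
      rw [div_pow, hm2]; exact ht.trans (le_of_eq (by norm_num)))
  have h3 := nr_sub_le (fun j => (k j : ℝ)) ((fun j => (k j : ℝ)) - fun j => ∑ i, t i * b i j)
  rw [sub_sub_cancel] at h3
  have h4 : ∀ l, |t l| ≤ 8 * (L + 1) := fun l => by
    have := h.sup_le hb hp t l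
    refine le_of_mul_le_mul_right ?_ hm0
    nlinarith
  let n : σ → ℤ := fun i => round (64 * s * t i)
  have h5 := nr_comb_le hb (t := fun i => t i - (n i : ℝ) / (64 * s)) (η := 1 / 128) (by
    rcases isEmpty_or_nonempty σ with h0 | h0
    · simp
    have hs : 0 < s := Nat.cast_pos.2 Fintype.card_pos
    refine (sum_le_card_nsmul _ _ (1 / (128 * s)) fun i _ => ?_).trans (le_of_eq ?_)
    · have e : t i - (n i : ℝ) / (64 * s) = (64 * s * t i - n i) / (64 * s) := by field_simp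
      rw [e, abs_div, abs_of_pos (by positivity : 0 < 64 * s), div_le_iff₀ (by positivity)]
      exact (abs_sub_round _).trans (le_of_eq (by field_simp; norm_num))
    · rw [card_univ, nsmul_eq_mul, ← hsdef]; field_simp)
  let y : ι → ℝ := fun j => ∑ i, (n i : ℝ) / (64 * s) * b i j
  have h6 : nr ((fun j => (k j : ℝ)) - y) ≤ m / 64 := by
    have e : (fun j => (k j : ℝ)) - y = ((fun j => (k j : ℝ)) - fun j => ∑ i, t i * b i j) +
        fun j => ∑ i, (t i - (n i : ℝ) / (64 * s)) * b i j := by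
      funext j
      simp only [Pi.sub_apply, Pi.add_apply, y, sub_mul, sum_sub_distrib]
      ring
    rw [e]
    refine (nr_add_le _ _).trans ?_
    linarith
  refine mem_biUnion.2 ⟨n, Fintype.mem_piFinset.2 fun i => mem_Icc.2 (abs_le.1 (abs_round_le ?_)),
    mem_image.2 ⟨fun j => k j - round (y j), mem_ballZ.2 ?_, funext fun j => sub_add_cancel _ _⟩⟩
  · rw [abs_mul, abs_of_nonneg (by positivity)]
    refine le_trans ?_ hB
    have : 0 ≤ s := Nat.cast_nonneg _
    nlinarith [h4 i]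
  · have h7 := pow_le_pow_left₀ (nr_nonneg _) h6 2
    rw [nr_sq, div_pow, hm2] at h7
    have h8 : ((∑ j, (k j - round (y j)) ^ 2 : ℤ) : ℝ) ≤ Fintype.card ι / 1000 := by
      push_cast
      refine (sum_le_sum (g := fun j => 4 * (((fun j => (k j : ℝ)) - y) j) ^ 2)
        fun j _ => ?_).trans ?_
      · have h9 := round_le (y j) (k j)
        have h10 := abs_sub_le (k j : ℝ) (y j) (round (y j))
        rw [abs_sub_comm (y j) (k j)] at h9
        have h11 := pow_le_pow_left₀ (abs_nonneg _) (h10.trans (add_le_add le_rfl h9)) 2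
        rw [sq_abs, ← two_mul, mul_pow, sq_abs] at h11
        simp only [Pi.sub_apply]
        linarith
      · rw [← mul_sum]; linarith
    have h9 : (0 : ℤ) ≤ ∑ j, (k j - round (y j)) ^ 2 := sum_nonneg fun _ _ => sq_nonneg _
    obtain ⟨q, hq⟩ := Int.eq_ofNat_of_zero_le h9
    rw [hq] at h8 ⊢
    exact_mod_cast Nat.le_floor (by exact_mod_cast h8)

omit [DecidableEq ι] [DecidableEq σ] in
/-- A short vector in the span modulo `p` is in the integer span. -/
lemma AC.int_span [Fact p.Prime] {b : σ → ι → ℤ} (h : AC p b) (hb : ∀ i j, |(b i j : ℝ)| ≤ 1)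
    [Nonempty ι] {L : ℝ} (hL : 0 ≤ L)
    (hp : L * √(Fintype.card ι : ℝ) + 4 * L * Fintype.card σ < p) {k : ι → ℤ}
    (hk : ∑ j, (k j : ℝ) ^ 2 ≤ L ^ 2 * Fintype.card ι) (y : σ → ZMod p)
    (hy : ∀ j, (k j : ZMod p) = ∑ i, y i * (b i j : ZMod p)) :
    ∃ c : σ → ℤ, ∀ j, k j = ∑ i, c i * b i j := by
  have hM : (0 : ℝ) < Fintype.card ι := Nat.cast_pos.2 Fintype.card_pos
  let c : σ → ℤ := fun i => (y i).valMinAbs
  have hc : ∀ i, 2 * |c i| ≤ p := fun i => by
    have := ZMod.natAbs_valMinAbs_le (y i)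
    rw [← Int.natCast_natAbs]
    simp only [c]
    omega
  have hd : ∀ j, (p : ℤ) ∣ k j - ∑ i, c i * b i j := fun j => by
    rw [← ZMod.intCast_zmod_eq_zero_iff_dvd]
    push_cast
    simp only [c, ZMod.coe_valMinAbs]
    rw [hy j, sub_self]
  have h1 : ∀ l, |(c l : ℝ)| ≤ 4 * L := fun l => by
    have h2 := h c hc l k hd
    refine abs_le_of_sq_le_sq ?_ (by positivity)
    refine le_of_mul_le_mul_left ?_ hM
    nlinarith
  refine ⟨c, fun j => sub_eq_zero.1 (Int.eq_zero_of_abs_lt_dvd (hd j) ?_)⟩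
  have h2 : |(k j : ℝ)| ≤ L * √(Fintype.card ι : ℝ) :=
    (abs_le_nr (fun j => (k j : ℝ)) j).trans (nr_le_of_sq_le (by positivity) (by
      rw [mul_pow, Real.sq_sqrt hM.le]; exact hk))
  have h3 : |∑ i, (c i : ℝ) * b i j| ≤ 4 * L * Fintype.card σ := by
    refine (abs_sum_le_sum_abs _ _).trans ((sum_le_card_nsmul _ _ (4 * L) fun i _ => ?_).trans
      (le_of_eq (by rw [card_univ, nsmul_eq_mul, mul_comm])))
    rw [abs_mul]
    exact (mul_le_of_le_one_right (abs_nonneg _) (hb i j)).trans (h1 i)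
  have h4 := abs_sub (k j : ℝ) (∑ i, (c i : ℝ) * b i j)
  have h5 : ((|k j - ∑ i, c i * b i j| : ℤ) : ℝ) < ((p : ℤ) : ℝ) := by
    push_cast
    linarith
  exact_mod_cast h5

lemma pr_H_not_far [Fact p.Prime] [Nonempty ι] {b : σ → ι → ℤ} (hb : ∀ i j, |(b i j : ℝ)| ≤ 1)
    (hp8 : 8 * Fintype.card σ ≤ p) {L : ℝ} (hL : 0 ≤ L)
    (hp : L * √(Fintype.card ι : ℝ) + 4 * L * Fintype.card σ < p) {B : ℕ}
    (hB : 512 * Fintype.card σ * (L + 1) ≤ B) :
    pr (fun H : κ → ι → ZMod p => (∀ i, syn H (b i) = 0) ∧ AC p b ∧ ¬ FarSp H b L) ≤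
      (2 * B + 1) ^ Fintype.card σ * Real.exp (Fintype.card ι / 100) *
        (((p : ℝ) ^ Fintype.card κ) ^ (Fintype.card σ + 1))⁻¹ := by
  classical
  have hM : (0 : ℝ) < Fintype.card ι := Nat.cast_pos.2 Fintype.card_pos
  by_cases h : AC p b
  swap
  · exact le_trans (pr_mono (F := fun _ => False) fun H hH => h hH.2.1)
      (by rw [pr_const]; simp only [if_false]; positivity)
  have h1 := pr_exists_mem_le_card_mul (Ω := κ → ι → ZMod p) (Kset b B)
    (fun k H => (¬ ∃ y : σ → ZMod p, ∀ j, (k j : ZMod p) = ∑ i, y i * (b i j : ZMod p)) ∧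
      ∀ o : Option σ, syn H (o.elim k b) = 0)
    (δ := (((p : ℝ) ^ Fintype.card κ) ^ (Fintype.card σ + 1))⁻¹) fun k _ => by
      by_cases hk : ∃ y : σ → ZMod p, ∀ j, (k j : ZMod p) = ∑ i, y i * (b i j : ZMod p)
      · exact le_trans (pr_mono (F := fun _ => False) fun H hH => hH.1 hk)
          (by rw [pr_const]; simp only [if_false]; positivity)
      refine le_trans (pr_mono fun H hH => hH.2) (le_of_eq ?_)
      rw [pr_syn_family (fun o : Option σ => o.elim k b), Fintype.card_option]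
      intro y hy
      simp only [Fintype.sum_option, Option.elim_none, Option.elim_some] at hy
      have hy0 : y none = 0 := by
        by_contra h0
        refine hk ⟨fun i => -y (some i) / y none, fun j => ?_⟩
        have h2 := hy j
        apply mul_left_cancel₀ h0
        rw [mul_sum, eq_neg_of_add_eq_zero_left h2, ← sum_neg_distrib]
        exact sum_congr rfl fun i _ => by field_simp
      funext o
      rcases o with _ | l
      · exact hy0
      have h2 := h (fun i => (y (some i)).valMinAbs) (fun i => by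
        have := ZMod.natAbs_valMinAbs_le (y (some i))
        rw [← Int.natCast_natAbs]
        omega) l 0 fun j => by
          rw [← ZMod.intCast_zmod_eq_zero_iff_dvd]
          have := hy j
          rw [hy0, zero_mul, zero_add] at this
          simp [this]
      simp only [Pi.zero_apply, Int.cast_zero, ne_eq, OfNat.ofNat_ne_zero, not_false_eq_true,
        zero_pow, sum_const_zero, mul_zero] at h2
      have h3 : (((y (some l)).valMinAbs : ℤ) : ℝ) ^ 2 ≤ 0 :=
        le_of_mul_le_mul_left (by simpa using h2) hM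
      have h4 : (((y (some l)).valMinAbs : ℤ) : ℝ) = 0 :=
        pow_eq_zero_iff two_ne_zero |>.1 (le_antisymm h3 (sq_nonneg _))
      exact (ZMod.valMinAbs_eq_zero _).1 (by exact_mod_cast h4)
  refine le_trans (pr_mono fun H hH => ?_)
    (h1.trans (mul_le_mul_of_nonneg_right (card_Kset_le b B) (by positivity)))
  obtain ⟨h2, -, h3⟩ := hH
  unfold FarSp at h3
  push Not at h3
  obtain ⟨k, hk0, hk, t, ht, h4⟩ := h3
  refine ⟨k, mem_Kset h hb hp8 hL hB hk ht, fun ⟨y, hy⟩ => ?_, fun o => ?_⟩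
  · obtain ⟨c, hc⟩ := h.int_span hb hL hp hk y hy
    obtain ⟨j, hj⟩ := h4 c
    exact hj (hc j)
  · rcases o with _ | l
    · exact hk0
    · exact h2 l

lemma expect_pr_not_far [Fact p.Prime] [Nonempty ι] (hp8 : 8 * Fintype.card σ ≤ p) {L : ℝ}
    (hL : 0 ≤ L) (hp : L * √(Fintype.card ι : ℝ) + 4 * L * Fintype.card σ < p) {B : ℕ}
    (hB : 512 * Fintype.card σ * (L + 1) ≤ B) :
    𝔼 H : κ → ι → ZMod p, pr (fun w : σ → Fib H =>
      AC p (fun i => row (w i)) ∧ ¬ FarSp H (fun i => row (w i)) L) ≤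
      (2 * B + 1) ^ Fintype.card σ * Real.exp (Fintype.card ι / 100) *
        ((p : ℝ) ^ Fintype.card κ)⁻¹ := by
  have hq : (0 : ℝ) < (p : ℝ) ^ Fintype.card κ :=
    pow_pos (Nat.cast_pos.2 (Fact.out : p.Prime).pos) _
  refine (expect_le_expect fun H _ => pr_fib_pi_le H fun b => AC p b ∧ ¬ FarSp H b L).trans ?_
  rw [← mul_expect]
  unfold pr
  rw [expect_comm]
  have := expect_le (univ_nonempty (α := σ → ι → Bool × Bool)) fun e _ =>
    pr_H_not_far (κ := κ) (b := fun i j => sg (e i j)) (fun i j => abs_sg_le _) hp8 hL hp hB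
  refine (mul_le_mul_of_nonneg_left this (by positivity)).trans (le_of_eq ?_)
  rw [pow_succ]
  field_simp

variable {α : Type*} [Fintype α] [DecidableEq α]

/-- `FarSp` for the rows in a set `T`. -/
def Far (H : κ → ι → ZMod p) (b : α → ι → ℤ) (T : Finset α) (L : ℝ) : Prop :=
  ∀ k : ι → ℤ, syn H k = 0 → ∑ j, (k j : ℝ) ^ 2 ≤ L ^ 2 * Fintype.card ι → ∀ t : α → ℝ,
    ∑ j, ((k j : ℝ) - ∑ i ∈ T, t i * b i j) ^ 2 ≤ Fintype.card ι / 16384 →
      ∃ c : α → ℤ, ∀ j, k j = ∑ i ∈ T, c i * b i j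

omit [Fintype κ] [DecidableEq ι] [DecidableEq κ] [Fintype α] in
lemma far_of_farSp {H : κ → ι → ZMod p} {b : α → ι → ℤ} {T : Finset α} {L : ℝ}
    (h : FarSp H (fun i : T => b i) L) : Far H b T L := by
  intro k hk0 hk t ht
  obtain ⟨c, hc⟩ := h k hk0 hk (fun i => t i) (by
    have e : ∀ j, ∑ i : T, t i * (b i j : ℝ) = ∑ i ∈ T, t i * (b i j : ℝ) := fun j =>
      sum_coe_sort T fun i => t i * (b i j : ℝ)
    simpa only [e] using ht)
  refine ⟨fun i => if hi : i ∈ T then c ⟨i, hi⟩ else 0, fun j => ?_⟩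
  rw [hc j, ← sum_coe_sort T]
  exact sum_congr rfl fun i _ => by simp

/-- There is a good parity check matrix for which random rows have the property `Far` with high
probability. -/
theorem exists_goodH_far [Fact p.Prime] (hM : 2000 ≤ Fintype.card ι)
    (hp : (Fintype.card ι : ℝ) ≤ (p : ℝ) ^ 2)
    (hlo : Real.exp (Fintype.card ι / 40) ≤ (p : ℝ) ^ Fintype.card κ)
    (hhi : (p : ℝ) ^ Fintype.card κ ≤ Real.exp (Fintype.card ι / 20)) (s : ℕ) (hp8 : 8 * s ≤ p)
    {L : ℝ} (hL : 0 ≤ L) (hpL : L * √(Fintype.card ι : ℝ) + 4 * L * s < p) :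
    ∃ H : κ → ι → ZMod p, GoodH H ∧
      pr (fun w : α → Fib H => ∃ T : Finset α, T.card ≤ s ∧ ¬ Far H (fun i => row (w i)) T L) ≤
        ((Fintype.card α : ℝ) + 1) ^ s * ((8 * (1024 * s * (L + 1) + 3) ^ s +
          (2 * (p : ℝ) + 1) ^ s * s) * Real.exp (-(Fintype.card ι / 80))) := by
  have : Nonempty ι := Fintype.card_pos_iff.1 (by omega)
  set M : ℝ := (Fintype.card ι : ℝ) with hMdef
  have hq : (0 : ℝ) < (p : ℝ) ^ Fintype.card κ := (Real.exp_pos _).trans_le hlo
  set 𝒯 := (univ : Finset (Finset α)).filter fun T => T.card ≤ s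
  have hT : (𝒯.card : ℝ) ≤ ((Fintype.card α : ℝ) + 1) ^ s := by
    exact_mod_cast card_filter_card_le (α := α) s
  set δ := ((Fintype.card α : ℝ) + 1) ^ s * ((1024 * s * (L + 1) + 3) ^ s * Real.exp (-(M / 80)))
    with hδ
  have hδ0 : 0 < δ := by positivity
  let f : (κ → ι → ZMod p) → ℝ := fun H => ∑ T ∈ 𝒯, pr (fun w : T → Fib H =>
    AC p (fun i => row (w i)) ∧ ¬ FarSp H (fun i => row (w i)) L)
  have hf0 : ∀ H, 0 ≤ f H := fun H => sum_nonneg fun _ _ => pr_nonneg _
  have hf : 𝔼 H, f H ≤ δ := by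
    simp only [f]
    rw [expect_sum_comm]
    refine (sum_le_card_nsmul _ _ ((1024 * s * (L + 1) + 3) ^ s * Real.exp (-(M / 80)))
      fun T hT => ?_).trans (by rw [nsmul_eq_mul, hδ]; gcongr)
    have hTs : T.card ≤ s := (mem_filter.1 hT).2
    have hTs' : (T.card : ℝ) ≤ s := by exact_mod_cast hTs
    refine (expect_pr_not_far (σ := T) (B := ⌈512 * (s : ℝ) * (L + 1)⌉₊)
      (by rw [Fintype.card_coe]; omega) hL
      (by rw [Fintype.card_coe]; nlinarith)
      (by rw [Fintype.card_coe]; refine le_trans ?_ (Nat.le_ceil _); gcongr)).trans ?_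
    rw [Fintype.card_coe, mul_assoc]
    have h1 := Nat.ceil_lt_add_one (a := 512 * (s : ℝ) * (L + 1)) (by positivity)
    refine mul_le_mul ((pow_le_pow_left₀ (by positivity) (by linarith) _).trans
      (pow_le_pow_right₀ (by have : 0 ≤ (s : ℝ) * (L + 1) := by positivity
                             linarith) hTs)) ?_ (by positivity) (by positivity)
    rw [← div_eq_mul_inv, div_le_iff₀ hq]
    refine le_trans ?_ (mul_le_mul_of_nonneg_left hlo (Real.exp_pos _).le)
    rw [← Real.exp_add]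
    have : 0 ≤ M := Nat.cast_nonneg _
    exact Real.exp_le_exp.2 (by linarith)
  have h1 : pr (fun H => 8 * δ < f H) ≤ 1 / 8 := by
    refine (pr_le_expect (f := fun H => (8 * δ)⁻¹ * f H) (fun H => by have := hf0 H; positivity)
      fun H hH => ?_).trans ?_
    · rw [← div_eq_inv_mul, le_div_iff₀ (by positivity)]; linarith
    · rw [← mul_expect, ← div_eq_inv_mul, div_le_iff₀ (by positivity)]; linarith
  obtain ⟨H, hH⟩ := exists_not_of_pr_lt_one (lt_of_le_of_lt ((pr_or_le _ _).trans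
    (add_le_add (pr_not_goodH hM hp hlo hhi) h1)) (by norm_num))
  rw [not_or, not_not, not_lt] at hH
  refine ⟨H, hH.1, ?_⟩
  have h2 := pr_exists_mem_le (Ω := α → Fib H) 𝒯 fun T w =>
    AC p (fun i : T => row (w i)) ∧ ¬ FarSp H (fun i : T => row (w i)) L
  have h3 := pr_exists_mem_le_card_mul (Ω := α → Fib H) 𝒯 (fun T w =>
    ¬ AC p (fun i : T => row (w i))) (δ := (2 * (p : ℝ) + 1) ^ s * s * Real.exp (-(M / 80)))
    fun T hT => by
      have hTs : T.card ≤ s := (mem_filter.1 hT).2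
      have hTs' : (T.card : ℝ) ≤ s := by exact_mod_cast hTs
      rw [pr_restrict T fun w : T → Fib H => ¬ AC p fun i => row (w i)]
      refine (pr_not_ac H).trans ?_
      rw [Fintype.card_coe, mul_assoc]
      refine mul_le_mul (pow_le_pow_right₀ (by have : (0 : ℝ) ≤ p := Nat.cast_nonneg _
                                               linarith) hTs)
        (mul_le_mul hTs' ?_ (by positivity) (by positivity)) (by positivity) (by positivity)
      refine (mul_le_mul_of_nonneg_right hhi (Real.exp_pos _).le).trans ?_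
      rw [← Real.exp_add]
      exact Real.exp_le_exp.2 (by linarith)
  have h4 : ∑ T ∈ 𝒯, pr (fun w : α → Fib H =>
      AC p (fun i : T => row (w i)) ∧ ¬ FarSp H (fun i : T => row (w i)) L) = f H :=
    sum_congr rfl fun T _ => pr_restrict T fun w : T → Fib H =>
      AC p (fun i => row (w i)) ∧ ¬ FarSp H (fun i => row (w i)) L
  rw [h4] at h2
  refine le_trans (pr_mono fun w hw => ?_) ((pr_or_le _ _).trans ((add_le_add (h2.trans hH.2)
    (h3.trans (mul_le_mul_of_nonneg_right hT (by positivity)))).trans (le_of_eq ?_)))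
  · obtain ⟨T, hT, hw⟩ := hw
    have hT' : T ∈ 𝒯 := mem_filter.2 ⟨mem_univ _, hT⟩
    by_cases h : AC p fun i : T => row (w i)
    · exact Or.inl ⟨T, hT', h, fun h' => hw (far_of_farSp h')⟩
    · exact Or.inr ⟨T, hT', h⟩
  · rw [hδ]; ring

end Vale.Agent.P318.R
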