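import Vale.Agent.P318.RCode
import Mathlib.Analysis.SpecialFunctions.Trigonometric.DerivHyp

/-!
Rows `ε - ε'` with `ε, ε' ∈ {0,1}^ι` conditioned on lying in the lattice `{k : H k = 0}`:
Fourier formula, comparison with the unconditioned law, subgaussian moment bound, characteristic
function bound.
-/

namespace Vale.Agent.P318.R

open Finset
open scoped BigOperators

variable {p : ℕ} {ι κ : Type*} [Fintype ι] [Fintype κ]

/-- The difference of two bits. -/
def sg (e : Bool × Bool) : ℤ := (if e.1 then 1 else 0) - (if e.2 then 1 else 0)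

lemma sg_cases (e : Bool × Bool) : sg e = 0 ∨ sg e = 1 ∨ sg e = -1 := by
  obtain ⟨a, b⟩ := e
  cases a <;> cases b <;> simp [sg]

lemma abs_sg_le (e : Bool × Bool) : |(sg e : ℝ)| ≤ 1 := by
  rcases sg_cases e with h | h | h <;> simp [h]

lemma expect_sg {K : Type*} [Field K] [CharZero K] (φ : ℤ → K) :
    𝔼 e : Bool × Bool, φ (sg e) = (2 * φ 0 + φ 1 + φ (-1)) / 4 := by
  rw [Fintype.expect_eq_sum_div_card]
  simp [Fintype.sum_prod_type, sg]
  ring

/-- Pairs of bit vectors whose difference has syndrome zero. -/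
def Fib (H : κ → ι → ZMod p) : Type _ := {e : ι → Bool × Bool // syn H (fun j => sg (e j)) = 0}

noncomputable instance fibFintype [DecidableEq ι] (H : κ → ι → ZMod p) : Fintype (Fib H) :=
  open Classical in Subtype.fintype _

omit [Fintype κ] in
instance fibNonempty (H : κ → ι → ZMod p) : Nonempty (Fib H) :=
  ⟨⟨fun _ => (false, false), by
    have : (fun _ : ι => sg (false, false)) = 0 := by funext j; simp [sg]
    rw [this, syn_zero]⟩⟩

/-- The integer vector of a point of the fibre. -/
def row {H : κ → ι → ZMod p} (e : Fib H) : ι → ℤ := fun j => sg (e.1 j)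

omit [Fintype κ] in
lemma syn_row {H : κ → ι → ZMod p} (e : Fib H) : syn H (row e) = 0 := e.2

omit [Fintype κ] in
lemma row_cases {H : κ → ι → ZMod p} (e : Fib H) (j : ι) :
    row e j = 0 ∨ row e j = 1 ∨ row e j = -1 := sg_cases _

omit [Fintype κ] in
lemma abs_row_le {H : κ → ι → ZMod p} (e : Fib H) (j : ι) : |(row e j : ℝ)| ≤ 1 := abs_sg_le _

/-- The negative of a point of the fibre. -/
def fibNeg {H : κ → ι → ZMod p} : Fib H ≃ Fib H :=
  have key : ∀ e : Fib H, syn H (fun j => sg (e.1 j).swap) = 0 := fun e => by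
    have h : (fun j => sg (e.1 j).swap) = (-1 : ℤ) • fun j => sg (e.1 j) := by
      funext j
      simp [sg]
    rw [h, syn_smul, e.2, smul_zero]
  { toFun := fun e => ⟨fun j => (e.1 j).swap, key e⟩
    invFun := fun e => ⟨fun j => (e.1 j).swap, key e⟩
    left_inv := fun e => Subtype.ext (funext fun j => Prod.swap_swap _)
    right_inv := fun e => Subtype.ext (funext fun j => Prod.swap_swap _) }

omit [Fintype κ] in
lemma row_fibNeg {H : κ → ι → ZMod p} (e : Fib H) (j : ι) : row (fibNeg e) j = -row e j := by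
  change sg (e.1 j).swap = -sg (e.1 j)
  simp [sg]

variable [DecidableEq ι] [DecidableEq κ]

omit [DecidableEq κ] in
lemma expect_ite_syn {K : Type*} [Field K] [CharZero K] (H : κ → ι → ZMod p)
    (g : (ι → ℤ) → K) :
    𝔼 e : ι → Bool × Bool, (if syn H (fun j => sg (e j)) = 0 then g (fun j => sg (e j)) else 0) =
      (Fintype.card (Fib H) : K) / Fintype.card (ι → Bool × Bool) * 𝔼 e : Fib H, g (row e) := by
  have h0 : (Fintype.card (Fib H) : K) ≠ 0 := Nat.cast_ne_zero.2 Fintype.card_ne_zero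
  rw [Fintype.expect_eq_sum_div_card, Fintype.expect_eq_sum_div_card, ← sum_filter,
    sum_subtype (p := fun e : ι → Bool × Bool => syn H (fun j => sg (e j)) = 0) _ (by simp)
      (F := fibFintype H)]
  field_simp
  rfl

omit [Fintype ι] [DecidableEq ι] in
lemma sum_char_dot [Fact p.Prime] (u : κ → ZMod p) :
    ∑ y : κ → ZMod p, (ZMod.stdAddChar (∑ a, y a * u a) : ℂ) =
      if u = 0 then (p : ℂ) ^ Fintype.card κ else 0 := by
  have e : ∀ y : κ → ZMod p, (ZMod.stdAddChar (∑ a, y a * u a) : ℂ) =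
      ∏ a, ZMod.stdAddChar (y a * u a) := by
    intro y
    induction (univ : Finset κ) using Finset.induction_on with
    | empty => simp
    | insert a s ha ih => rw [sum_insert ha, prod_insert ha, AddChar.map_add_eq_mul, ih]
  simp only [e]
  rw [← Fintype.piFinset_univ, ← prod_univ_sum (fun _ : κ => (univ : Finset (ZMod p)))
    (fun a x => (ZMod.stdAddChar (x * u a) : ℂ))]
  simp only [AddChar.sum_mulShift _ (ZMod.isPrimitive_stdAddChar p), ZMod.card]
  split_ifs with h
  · subst h
    simp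
  · obtain ⟨a, ha⟩ := Function.ne_iff.1 h
    exact prod_eq_zero (mem_univ a) (by simp [show u a ≠ 0 from ha])

/-- Fourier formula for product functions on the fibre. -/
lemma fib_fourier [Fact p.Prime] (H : κ → ι → ZMod p) (φ : ι → ℤ → ℂ) :
    (p : ℂ) ^ Fintype.card κ * ((Fintype.card (Fib H) : ℂ) / Fintype.card (ι → Bool × Bool) *
      𝔼 e : Fib H, ∏ j, φ j (row e j)) =
      ∑ y : κ → ZMod p, ∏ j, 𝔼 s : Bool × Bool,
        φ j (sg s) * ZMod.stdAddChar (dualv H y j * (sg s : ZMod p)) := by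
  classical
  rw [← expect_ite_syn H (fun k => ∏ j, φ j (k j)), mul_expect]
  have e : ∀ y : κ → ZMod p, ∏ j, 𝔼 s : Bool × Bool,
      φ j (sg s) * ZMod.stdAddChar (dualv H y j * (sg s : ZMod p)) =
      𝔼 e : ι → Bool × Bool, (∏ j, φ j (sg (e j))) *
        ZMod.stdAddChar (∑ a, y a * syn H (fun j => sg (e j)) a) := by
    intro y
    rw [← expect_prod_pi (Ω := fun _ : ι => Bool × Bool)
      (fun j s => φ j (sg s) * ZMod.stdAddChar (dualv H y j * (sg s : ZMod p)))]
    refine expect_congr rfl fun e _ => ?_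
    rw [prod_mul_distrib, dot_syn]
    congr 1
    induction (univ : Finset ι) using Finset.induction_on with
    | empty => simp
    | insert a s ha ih => rw [sum_insert ha, prod_insert ha, AddChar.map_add_eq_mul, ih]
  simp only [e]
  rw [← expect_sum_comm]
  refine expect_congr rfl fun e _ => ?_
  rw [← mul_sum, sum_char_dot]
  split_ifs <;> simp [mul_comm]

lemma expect_exp_char [Fact p.Prime] (z : ℂ) (u : ZMod p) :
    𝔼 s : Bool × Bool, Complex.exp (z * (sg s : ℤ)) * ZMod.stdAddChar (u * (sg s : ZMod p)) =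
      (2 + Complex.exp (z + ang u * Complex.I) + Complex.exp (-(z + ang u * Complex.I))) / 4 := by
  rw [expect_sg (fun n : ℤ => Complex.exp (z * (n : ℤ)) * ZMod.stdAddChar (u * (n : ZMod p)))]
  simp only [Int.cast_zero, mul_zero, Complex.exp_zero, AddChar.map_zero_eq_one, mul_one,
    Int.cast_one, Int.cast_neg, mul_neg, AddChar.map_neg_eq_inv, stdAddChar_eq]
  rw [← Complex.exp_neg, ← Complex.exp_add, ← Complex.exp_add, neg_add]

lemma norm_two_add_exp (w : ℂ) :
    ‖(2 + Complex.exp w + Complex.exp (-w)) / 4‖ = (Real.cosh w.re + Real.cos w.im) / 2 := by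
  have h0 : 0 ≤ (Real.cosh w.re + Real.cos w.im) / 2 := by
    linarith [Real.one_le_cosh w.re, Real.neg_one_le_cos w.im]
  rw [← sq_eq_sq₀ (norm_nonneg _) h0, ← Complex.normSq_eq_norm_sq, Complex.normSq_apply]
  simp only [Complex.div_ofNat_re, Complex.div_ofNat_im, Complex.add_re, Complex.add_im,
    Complex.exp_re, Complex.exp_im, Complex.neg_re, Complex.neg_im, Real.cos_neg, Real.sin_neg,
    Complex.re_ofNat, Complex.im_ofNat, Real.cosh_eq]
  have h1 : Real.exp w.re * Real.exp (-w.re) = 1 := by rw [← Real.exp_add]; simp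
  have h2 := Real.sin_sq_add_cos_sq w.im
  set a := Real.exp w.re
  set b := Real.exp (-w.re)
  set c := Real.cos w.im
  set s := Real.sin w.im
  have h3 : s ^ 2 = 1 - c ^ 2 := by linarith
  have e : (0 + a * s + b * -s) / 4 * ((0 + a * s + b * -s) / 4) = (a - b) ^ 2 * s ^ 2 / 16 := by
    ring
  rw [e, h3]
  linear_combination ((c ^ 2 - 1) / 4) * h1

/-- The fibre has density at least `p^{-r}`. -/
lemma one_le_fib_mass [Fact p.Prime] (H : κ → ι → ZMod p) :
    1 ≤ (p : ℝ) ^ Fintype.card κ *
      ((Fintype.card (Fib H) : ℝ) / Fintype.card (ι → Bool × Bool)) := by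
  have h := fib_fourier H (fun _ n => Complex.exp (0 * (n : ℤ)))
  simp only [expect_exp_char] at h
  simp only [zero_mul, Complex.exp_zero, prod_const_one, Fintype.expect_const, mul_one,
    zero_add] at h
  have e : ∀ x : ℝ, (2 + Complex.exp (x * Complex.I) + Complex.exp (-(x * Complex.I))) / 4 =
      (((1 + Real.cos x) / 2 : ℝ) : ℂ) := by
    intro x
    push_cast
    rw [Complex.cos, neg_mul]
    ring
  simp only [e] at h
  have h2 : (p : ℝ) ^ Fintype.card κ *
      ((Fintype.card (Fib H) : ℝ) / Fintype.card (ι → Bool × Bool)) =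
      ∑ y : κ → ZMod p, ∏ j, (1 + Real.cos (ang (dualv H y j))) / 2 := by
    apply Complex.ofReal_injective
    push_cast at h ⊢
    exact h
  rw [h2]
  refine le_trans (le_of_eq ?_) (single_le_sum
    (f := fun y : κ → ZMod p => ∏ j, (1 + Real.cos (ang (dualv H y j))) / 2)
    (fun y _ => prod_nonneg fun j _ => by linarith [Real.neg_one_le_cos (ang (dualv H y j))])
    (mem_univ 0))
  simp [dualv_zero, ang]

/-- Comparison of the conditioned law with the product law. -/
lemma expect_fib_le [Fact p.Prime] (H : κ → ι → ZMod p) (g : (ι → ℤ) → ℝ) (hg : ∀ k, 0 ≤ g k) :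
    𝔼 e : Fib H, g (row e) ≤
      (p : ℝ) ^ Fintype.card κ * 𝔼 e : ι → Bool × Bool, g fun j => sg (e j) := by
  classical
  have h1 := one_le_fib_mass H
  have h2 := expect_ite_syn H g
  have h3 : 0 ≤ 𝔼 e : Fib H, g (row e) := expect_nonneg fun _ _ => hg _
  have h4 : (𝔼 e : ι → Bool × Bool,
      (if syn H (fun j => sg (e j)) = 0 then g (fun j => sg (e j)) else 0)) ≤
      𝔼 e : ι → Bool × Bool, g fun j => sg (e j) :=
    expect_le_expect fun e _ => by split_ifs; exacts [le_rfl, hg _]
  calc 𝔼 e : Fib H, g (row e) ≤ ((p : ℝ) ^ Fintype.card κ *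
      ((Fintype.card (Fib H) : ℝ) / Fintype.card (ι → Bool × Bool))) * 𝔼 e : Fib H, g (row e) :=
        le_mul_of_one_le_left h3 h1
    _ = (p : ℝ) ^ Fintype.card κ * ((Fintype.card (Fib H) : ℝ) /
        Fintype.card (ι → Bool × Bool) * 𝔼 e : Fib H, g (row e)) := mul_assoc _ _ _
    _ ≤ _ := mul_le_mul_of_nonneg_left (h2.symm.le.trans h4) (by positivity)

lemma pr_fib_le [Fact p.Prime] (H : κ → ι → ZMod p) (E : (ι → ℤ) → Prop) :
    pr (fun e : Fib H => E (row e)) ≤
      (p : ℝ) ^ Fintype.card κ * pr fun e : ι → Bool × Bool => E fun j => sg (e j) := by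
  classical
  rw [pr_eq_expect, pr_eq_expect]
  exact expect_fib_le H (fun k => if E k then 1 else 0) fun k => by split_ifs <;> norm_num

/-- The basic bound for exponentials with complex coefficients. -/
lemma norm_fib_exp_le [Fact p.Prime] (H : κ → ι → ZMod p) (z : ι → ℂ) :
    ‖𝔼 e : Fib H, Complex.exp (∑ j, z j * (row e j : ℤ))‖ ≤
      ∑ y : κ → ZMod p, ∏ j,
        (Real.cosh (z j).re + Real.cos ((z j).im + ang (dualv H y j))) / 2 := by
  have h := fib_fourier H (fun j n => Complex.exp (z j * (n : ℤ)))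
  simp only [expect_exp_char, ← Complex.exp_sum] at h
  have h1 := one_le_fib_mass H
  have h2 := congrArg norm h
  rw [← mul_assoc, norm_mul] at h2
  have h3 : ‖(p : ℂ) ^ Fintype.card κ *
      ((Fintype.card (Fib H) : ℂ) / Fintype.card (ι → Bool × Bool))‖ =
      (p : ℝ) ^ Fintype.card κ *
        ((Fintype.card (Fib H) : ℝ) / Fintype.card (ι → Bool × Bool)) := by
    simp only [norm_mul, norm_pow, norm_div, Complex.norm_natCast]
  rw [h3] at h2
  refine (le_mul_of_one_le_left (norm_nonneg _) h1).trans (h2.le.trans ?_)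
  refine (norm_sum_le _ _).trans (le_of_eq (sum_congr rfl fun y _ => ?_))
  rw [norm_prod]
  refine prod_congr rfl fun j _ => ?_
  rw [norm_two_add_exp]
  simp

lemma cosh_add_le (v c : ℝ) (h1 : -1 ≤ c) :
    (Real.cosh v + c) / 2 ≤ Real.exp (v ^ 2 - (1 - c) / 2) := by
  have h2 := Real.cosh_le_exp_half_sq v
  set u := Real.exp (v ^ 2 / 2)
  have hu : 1 ≤ u := Real.one_le_exp (by positivity)
  have e : Real.exp (v ^ 2 - (1 - c) / 2) = u * u * Real.exp (-((1 - c) / 2)) := by
    rw [← Real.exp_add, ← Real.exp_add]; congr 1; ring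
  rw [e]
  have h3 := Real.add_one_le_exp (-((1 - c) / 2))
  have h4 : Real.exp (-1) ≤ Real.exp (-((1 - c) / 2)) := Real.exp_le_exp.2 (by linarith)
  have h5 := Real.exp_neg_one_gt_d9
  have h6 : (u * u - 1) * 0.36 ≤ (u * u - 1) * Real.exp (-((1 - c) / 2)) :=
    mul_le_mul_of_nonneg_left (by linarith) (by nlinarith)
  nlinarith

/-- Subgaussian moment bound for a row of the fibre. -/
theorem fib_mgf [Fact p.Prime] {H : κ → ι → ZMod p} (hH : GoodH H) (v : ι → ℝ) :
    𝔼 e : Fib H, Real.exp (∑ j, v j * row e j) ≤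
      (1 + (p : ℝ) ^ Fintype.card κ * Real.exp (-(Fintype.card ι / 4))) *
        Real.exp (∑ j, v j ^ 2) := by
  have h := norm_fib_exp_le H (fun j => (v j : ℂ))
  have e : (𝔼 e : Fib H, Complex.exp (∑ j, (v j : ℂ) * (row e j : ℤ))) =
      ((𝔼 e : Fib H, Real.exp (∑ j, v j * row e j) : ℝ) : ℂ) := by
    simp only [Fintype.expect_eq_sum_div_card]
    push_cast
    rfl
  rw [e, Complex.norm_real, Real.norm_eq_abs] at h
  refine ((le_abs_self _).trans h).trans ?_
  simp only [Complex.ofReal_re, Complex.ofReal_im, zero_add]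
  have hb : ∀ y : κ → ZMod p, ∏ j, (Real.cosh (v j) + Real.cos (ang (dualv H y j))) / 2 ≤
      ((if y = 0 then 1 else 0) + Real.exp (-(Fintype.card ι / 4))) *
        Real.exp (∑ j, v j ^ 2) := by
    intro y
    have h1 : ∏ j, (Real.cosh (v j) + Real.cos (ang (dualv H y j))) / 2 ≤
        Real.exp (∑ j, (v j ^ 2 - (1 - Real.cos (ang (dualv H y j))) / 2)) := by
      rw [Real.exp_sum]
      exact prod_le_prod (fun j _ => by
        linarith [Real.one_le_cosh (v j), Real.neg_one_le_cos (ang (dualv H y j))])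
        fun j _ => cosh_add_le _ _ (Real.neg_one_le_cos _)
    refine h1.trans ?_
    rw [sum_sub_distrib, sub_eq_neg_add, Real.exp_add]
    refine mul_le_mul_of_nonneg_right ?_ (Real.exp_pos _).le
    split_ifs with hy
    · refine le_trans (Real.exp_le_one_iff.2 ?_) (le_add_of_nonneg_right (Real.exp_pos _).le)
      rw [neg_nonpos]
      exact sum_nonneg fun j _ => by linarith [Real.cos_le_one (ang (dualv H y j))]
    · rw [zero_add]
      refine Real.exp_le_exp.2 ?_
      have := hH.dual y hy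
      rw [← sum_div, sum_sub_distrib]
      simp only [sum_const, card_univ, nsmul_eq_mul, mul_one]
      linarith
  refine (sum_le_sum fun y _ => hb y).trans (le_of_eq ?_)
  rw [← sum_mul, sum_add_distrib]
  simp [ZMod.card]

/-- The distance (in the `sin²` sense) of the angles `x` to the dual point `y`. -/
noncomputable def sig (H : κ → ι → ZMod p) (x : ι → ℝ) (y : κ → ZMod p) : ℝ :=
  ∑ j, (1 - Real.cos (x j + ang (dualv H y j))) / 2

lemma one_sub_cos_sub_le (a b : ℝ) :
    1 - Real.cos (a - b) ≤ 2 * ((1 - Real.cos a) + (1 - Real.cos b)) := by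
  have ha : Real.cos a = 1 - 2 * Real.sin (a / 2) ^ 2 := by
    rw [← Real.cos_two_mul_eq_one_sub]; congr 1; ring
  have hb : Real.cos b = 1 - 2 * Real.sin (b / 2) ^ 2 := by
    rw [← Real.cos_two_mul_eq_one_sub]; congr 1; ring
  have hab : Real.cos (a - b) = 1 - 2 * Real.sin (a / 2 - b / 2) ^ 2 := by
    rw [← Real.cos_two_mul_eq_one_sub]; congr 1; ring
  rw [ha, hb, hab, Real.sin_sub]
  have h1 := Real.cos_sq_le_one (a / 2)
  have h2 := Real.cos_sq_le_one (b / 2)
  set s := Real.sin (a / 2)
  set t := Real.sin (b / 2)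
  set c := Real.cos (a / 2)
  set d := Real.cos (b / 2)
  nlinarith [sq_nonneg (s * d + c * t), mul_le_mul_of_nonneg_left h2 (sq_nonneg s),
    mul_le_mul_of_nonneg_left h1 (sq_nonneg t)]

omit [DecidableEq ι] [DecidableEq κ] in
lemma sig_add_sig [Fact p.Prime] {H : κ → ι → ZMod p} (hH : GoodH H) (x : ι → ℝ)
    {y y' : κ → ZMod p} (h : y ≠ y') : (Fintype.card ι : ℝ) / 8 ≤ sig H x y + sig H x y' := by
  have h1 := hH.dual (y - y') (sub_ne_zero.2 h)
  have h2 : ∑ j, (1 - Real.cos (ang (dualv H (y - y') j))) ≤ 4 * (sig H x y + sig H x y') := by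
    unfold sig
    rw [← sum_add_distrib, mul_sum]
    refine sum_le_sum fun j _ => ?_
    rw [dualv_sub, Pi.sub_apply, cos_ang_sub]
    have := one_sub_cos_sub_le (x j + ang (dualv H y j)) (x j + ang (dualv H y' j))
    rw [add_sub_add_left_eq_sub] at this
    linarith
  rw [sum_sub_distrib] at h2
  simp only [sum_const, card_univ, nsmul_eq_mul, mul_one] at h2
  linarith

/-- Characteristic function bound for a row of the fibre. -/
theorem fib_cf [Fact p.Prime] {H : κ → ι → ZMod p} (hH : GoodH H) (x : ι → ℝ) {s : ℝ}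
    (hs : ∀ y, s ≤ sig H x y) :
    ‖𝔼 e : Fib H, Complex.exp (((∑ j, x j * row e j : ℝ) : ℂ) * Complex.I)‖ ≤
      Real.exp (-s) + (p : ℝ) ^ Fintype.card κ * Real.exp (-(Fintype.card ι / 16)) := by
  have h := norm_fib_exp_le H (fun j => (x j : ℂ) * Complex.I)
  have e : ∀ e : Fib H, ∑ j, (x j : ℂ) * Complex.I * (row e j : ℤ) =
      ((∑ j, x j * row e j : ℝ) : ℂ) * Complex.I := by
    intro e
    push_cast
    rw [sum_mul]
    exact sum_congr rfl fun _ _ => by ring
  simp only [e] at h
  refine h.trans ?_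
  simp only [Complex.mul_re, Complex.ofReal_re, Complex.I_re, mul_zero, Complex.ofReal_im,
    Complex.I_im, mul_one, sub_self, Real.cosh_zero, Complex.mul_im, add_zero]
  have h1 : ∀ y : κ → ZMod p, ∏ j, (1 + Real.cos (x j + ang (dualv H y j))) / 2 ≤
      Real.exp (-sig H x y) := by
    intro y
    unfold sig
    rw [← sum_neg_distrib, Real.exp_sum]
    refine prod_le_prod (fun j _ => by
      linarith [Real.neg_one_le_cos (x j + ang (dualv H y j))]) fun j _ => ?_
    linarith [Real.add_one_le_exp (-((1 - Real.cos (x j + ang (dualv H y j))) / 2))]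
  obtain ⟨y0, -, hy0⟩ := exists_min_image univ (sig H x) ⟨0, mem_univ _⟩
  have h2 : ∀ y : κ → ZMod p, Real.exp (-sig H x y) ≤
      (if y = y0 then Real.exp (-s) else 0) + Real.exp (-(Fintype.card ι / 16)) := by
    intro y
    split_ifs with hy
    · exact le_trans (Real.exp_le_exp.2 (neg_le_neg (hs y)))
        (le_add_of_nonneg_right (Real.exp_pos _).le)
    · rw [zero_add]
      have := sig_add_sig hH x hy
      have := hy0 y (mem_univ _)
      exact Real.exp_le_exp.2 (by linarith)
  refine (sum_le_sum fun y _ => (h1 y).trans (h2 y)).trans (le_of_eq ?_)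
  rw [sum_add_distrib]
  simp [ZMod.card]

end Vale.Agent.P318.R
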