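import Vale.Agent.P318.RSparse
import Mathlib.LinearAlgebra.Matrix.Trace
import Mathlib.LinearAlgebra.Matrix.Symmetric

/-!
Matrix concentration for sums of independent rank one matrices (moment method with exchangeable
pairs): `∑ v_i v_iᵀ` is close to its mean in operator norm when `|v_i|² log(dim)` is small.
-/

namespace Vale.Agent.P318.R

open Finset Matrix
open scoped BigOperators

namespace Mat

variable {κ : Type*} [Fintype κ] [DecidableEq κ]

/-- Hilbert-Schmidt inner product. -/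
def hs (P Q : Matrix κ κ ℝ) : ℝ := ∑ a, ∑ b, P a b * Q a b

omit [DecidableEq κ] in
lemma hs_eq (P Q : Matrix κ κ ℝ) : hs P Q = trace (Pᵀ * Q) := by
  simp only [hs, trace, diag_apply, mul_apply, transpose_apply]
  exact sum_comm

omit [DecidableEq κ] in
lemma hs_self_nonneg (P : Matrix κ κ ℝ) : 0 ≤ hs P P :=
  sum_nonneg fun _ _ => sum_nonneg fun _ _ => mul_self_nonneg _

omit [DecidableEq κ] in
lemma two_hs_le (P Q : Matrix κ κ ℝ) : 2 * hs P Q ≤ hs P P + hs Q Q := by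
  simp only [hs, mul_sum, ← sum_add_distrib]
  exact sum_le_sum fun a _ => sum_le_sum fun b _ => by nlinarith [sq_nonneg (P a b - Q a b)]

lemma pow_sub_pow (Y W : Matrix κ κ ℝ) (n : ℕ) :
    Y ^ (n + 1) - W ^ (n + 1) = ∑ j ∈ range (n + 1), Y ^ j * (Y - W) * W ^ (n - j) := by
  have h := sum_range_sub (fun j => Y ^ j * W ^ (n + 1 - j)) (n + 1)
  simp only [Nat.sub_self, pow_zero, mul_one, one_mul, Nat.sub_zero] at h
  rw [← h]
  refine sum_congr rfl fun j hj => ?_
  have hj' : j ≤ n := Nat.lt_succ_iff.1 (mem_range.1 hj)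
  rw [Nat.add_sub_add_right, show n + 1 - j = n - j + 1 by omega, pow_succ, pow_succ', mul_sub,
    sub_mul]
  simp only [mul_assoc]

lemma convex_le_max {f : ℕ → ℝ} {m : ℕ} (h : ∀ s, s + 2 ≤ m → 2 * f (s + 1) ≤ f s + f (s + 2)) :
    ∀ s ≤ m, f s ≤ max (f 0) (f m) := by
  induction m with
  | zero => intro s hs; rw [Nat.le_zero.1 hs]; exact le_max_left _ _
  | succ m ih =>
    intro s hs
    rcases hs.eq_or_lt with rfl | hs
    · exact le_max_right _ _
    have h1 := ih (fun s hs => h s (by omega)) s (by omega)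
    rcases le_total (f m) (f (m + 1)) with h2 | h2
    · exact h1.trans (max_le_max le_rfl h2)
    have h3 : ∀ k s, s + k = m → f (s + 1) ≤ f s := by
      intro k
      induction k with
      | zero => intro s hs; rw [show s = m by omega]; exact h2
      | succ k ihk =>
        intro s hs
        have h4 := ihk (s + 1) (by omega)
        have h5 := h s (by omega)
        linarith
    have h4 : ∀ s ≤ m, f s ≤ f 0 := by
      intro s hs
      induction s with
      | zero => exact le_rfl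
      | succ s ihs => exact (h3 (m - s) s (by omega)).trans (ihs (by omega))
    exact (h4 s (by omega)).trans (le_max_left _ _)

lemma hs_pow {D Y W : Matrix κ κ ℝ} (hD : Dᵀ = D) (hY : Yᵀ = Y) (hW : Wᵀ = W) (s t s' t' : ℕ) :
    hs (Y ^ s * D * W ^ t) (Y ^ s' * D * W ^ t') =
      trace (D * (Y ^ (s + s') * D * W ^ (t + t'))) := by
  rw [hs_eq, transpose_mul, transpose_mul, transpose_pow, transpose_pow, hD, hY, hW, mul_assoc,
    trace_mul_comm, add_comm t, pow_add, pow_add]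
  simp only [mul_assoc]

lemma trace_term_le {D Y W : Matrix κ κ ℝ} (hD : Dᵀ = D) (hY : Yᵀ = Y) (hW : Wᵀ = W) (m j : ℕ)
    (hj : j ≤ 2 * m) :
    trace (D * (Y ^ j * D * W ^ (2 * m - j))) ≤
      hs (D * W ^ m) (D * W ^ m) + hs (D * Y ^ m) (D * Y ^ m) := by
  let d : ℕ → ℝ := fun s => hs (Y ^ s * D * W ^ (m - s)) (Y ^ s * D * W ^ (m - s))
  have h1 : ∀ s ≤ m, d s ≤ hs (D * W ^ m) (D * W ^ m) + hs (D * Y ^ m) (D * Y ^ m) := by
    intro s hs'
    refine (convex_le_max (f := d) (fun s hs => ?_) s hs').trans (max_le ?_ ?_)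
    · have := two_hs_le (Y ^ s * D * W ^ (m - s)) (Y ^ (s + 2) * D * W ^ (m - (s + 2)))
      simp only [d]
      rw [hs_pow hD hY hW (s + 1)]
      rw [hs_pow hD hY hW s _ (s + 2), show s + (s + 2) = s + 1 + (s + 1) by omega,
        show m - s + (m - (s + 2)) = m - (s + 1) + (m - (s + 1)) by omega] at this
      exact this
    · simp only [d, pow_zero, one_mul, Nat.sub_zero]
      exact le_add_of_nonneg_right (hs_self_nonneg _)
    · have e : d m = hs (D * Y ^ m) (D * Y ^ m) := by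
        simp only [d, Nat.sub_self, pow_zero, mul_one]
        rw [hs_eq, hs_eq, trace_mul_comm, transpose_mul, transpose_mul, transpose_pow, hD, hY]
      rw [e]
      exact le_add_of_nonneg_left (hs_self_nonneg _)
  rcases Nat.even_or_odd' j with ⟨s, rfl | rfl⟩
  · have := h1 s (by omega)
    simp only [d] at this
    rwa [hs_pow hD hY hW, ← two_mul, show m - s + (m - s) = 2 * m - 2 * s by omega] at this
  · have h2 := two_hs_le (Y ^ s * D * W ^ (m - s)) (Y ^ (s + 1) * D * W ^ (m - (s + 1)))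
    rw [hs_pow hD hY hW s _ (s + 1), show s + (s + 1) = 2 * s + 1 by omega,
      show m - s + (m - (s + 1)) = 2 * m - (2 * s + 1) by omega] at h2
    have h3 := h1 s (by omega)
    have h4 := h1 (s + 1) (by omega)
    simp only [d] at h3 h4
    linarith

lemma trace_diff_le {Y W : Matrix κ κ ℝ} (hY : Yᵀ = Y) (hW : Wᵀ = W) (m : ℕ) :
    trace ((Y - W) * Y ^ (2 * m + 1)) - trace ((Y - W) * W ^ (2 * m + 1)) ≤
      (2 * m + 1) * (hs ((Y - W) * W ^ m) ((Y - W) * W ^ m) +
        hs ((Y - W) * Y ^ m) ((Y - W) * Y ^ m)) := by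
  rw [← trace_sub, ← mul_sub, pow_sub_pow, Finset.mul_sum, trace_sum]
  refine (sum_le_card_nsmul _ _ _ fun j hj => trace_term_le (by rw [transpose_sub, hY, hW]) hY hW
    m j (Nat.lt_succ_iff.1 (mem_range.1 hj))).trans (le_of_eq ?_)
  rw [card_range, nsmul_eq_mul]
  push_cast
  rfl

/-- `∑_b (v · P e_b)²`. -/
def qf (v : κ → ℝ) (P : Matrix κ κ ℝ) : ℝ := ∑ b, (∑ a, v a * P a b) ^ 2

omit [DecidableEq κ] in
lemma hs_rank_le {v v' : κ → ℝ} {η : ℝ} (hv : ∑ a, v a ^ 2 ≤ η) (hv' : ∑ a, v' a ^ 2 ≤ η)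
    (P : Matrix κ κ ℝ) :
    hs ((vecMulVec v v - vecMulVec v' v') * P) ((vecMulVec v v - vecMulVec v' v') * P) ≤
      2 * η * (qf v P + qf v' P) := by
  unfold hs qf
  rw [sum_comm, ← sum_add_distrib, Finset.mul_sum]
  refine sum_le_sum fun b _ => ?_
  have e : ∀ a, ((vecMulVec v v - vecMulVec v' v') * P) a b =
      v a * (∑ c, v c * P c b) - v' a * ∑ c, v' c * P c b := by
    intro a
    simp only [mul_apply, Matrix.sub_apply, vecMulVec_apply, Finset.mul_sum, ← sum_sub_distrib]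
    exact sum_congr rfl fun _ _ => by ring
  simp only [e]
  set x := ∑ c, v c * P c b
  set y := ∑ c, v' c * P c b
  refine (sum_le_sum (g := fun a => 2 * x ^ 2 * v a ^ 2 + 2 * y ^ 2 * v' a ^ 2)
    fun a _ => by nlinarith [sq_nonneg (v a * x + v' a * y)]).trans ?_
  rw [sum_add_distrib, ← Finset.mul_sum, ← Finset.mul_sum]
  nlinarith [mul_le_mul_of_nonneg_left hv (sq_nonneg x), mul_le_mul_of_nonneg_left hv' (sq_nonneg y)]

variable {α Ω : Type*} [Fintype α] [DecidableEq α] [Fintype Ω] [Nonempty Ω]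

/-- The mean of `v vᵀ`. -/
noncomputable def Xb (v : Ω → κ → ℝ) : Matrix κ κ ℝ := of fun a b => 𝔼 u, v u a * v u b

/-- The deviation of the Gram matrix. -/
noncomputable def dev (v : α → Ω → κ → ℝ) (w : α → Ω) : Matrix κ κ ℝ :=
  ∑ i, (vecMulVec (v i (w i)) (v i (w i)) - Xb (v i))

omit [DecidableEq α] [Nonempty Ω] [Fintype κ] [DecidableEq κ] in
lemma dev_symm (v : α → Ω → κ → ℝ) (w : α → Ω) : (dev v w)ᵀ = dev v w := by
  ext a b
  simp only [dev, transpose_apply, Matrix.sum_apply, Matrix.sub_apply, vecMulVec_apply, Xb, of_apply, mul_comm]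

omit [Nonempty Ω] [Fintype κ] [DecidableEq κ] in
lemma dev_sub_update (v : α → Ω → κ → ℝ) (w : α → Ω) (i : α) (u : Ω) :
    dev v w - dev v (Function.update w i u) =
      vecMulVec (v i (w i)) (v i (w i)) - vecMulVec (v i u) (v i u) := by
  unfold dev
  rw [← sum_sub_distrib, sum_eq_single i]
  · simp
  · intro j _ hj
    simp [Function.update_of_ne hj]
  · simp

omit [DecidableEq α] [Nonempty Ω] [DecidableEq κ] in
lemma dev_form (v : α → Ω → κ → ℝ) (w : α → Ω) (x : κ → ℝ) :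
    ∑ a, x a * ∑ b, dev v w a b * x b =
      ∑ i, (∑ a, v i (w i) a * x a) ^ 2 - ∑ i, 𝔼 u, (∑ a, v i u a * x a) ^ 2 := by
  have e : ∀ i, (∑ a, v i (w i) a * x a) ^ 2 - 𝔼 u, (∑ a, v i u a * x a) ^ 2 =
      ∑ a, ∑ b, x a * ((v i (w i) a * v i (w i) b - 𝔼 u, v i u a * v i u b) * x b) := by
    intro i
    simp only [sq, sum_mul_sum, expect_sum_comm, ← sum_sub_distrib]
    refine sum_congr rfl fun a _ => sum_congr rfl fun b _ => ?_
    rw [sub_mul, mul_sub, expect_mul, mul_expect]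
    congr 1
    · ring
    · exact expect_congr rfl fun _ _ => by ring
  rw [← sum_sub_distrib]
  simp only [e, dev, Matrix.sum_apply, Matrix.sub_apply, vecMulVec_apply, Xb, of_apply,
    Finset.sum_mul, Finset.mul_sum]
  rw [sum_comm (f := fun (i : α) (a : κ) => ∑ b, _)]
  exact sum_congr rfl fun a _ => sum_comm

omit [Fintype κ] [DecidableEq κ] [Nonempty Ω] in
lemma expect_swap (i : α) (F : (α → Ω) → Ω → ℝ) :
    𝔼 w : α → Ω, 𝔼 u : Ω, F w u = 𝔼 w : α → Ω, 𝔼 u : Ω, F (Function.update w i u) (w i) := by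
  let e : (α → Ω) × Ω ≃ (α → Ω) × Ω :=
    { toFun := fun p => (Function.update p.1 i p.2, p.1 i)
      invFun := fun p => (Function.update p.1 i p.2, p.1 i)
      left_inv := fun p => by simp
      right_inv := fun p => by simp }
  have h1 : 𝔼 p : (α → Ω) × Ω, F (Function.update p.1 i p.2) (p.1 i) =
      𝔼 p : (α → Ω) × Ω, F p.1 p.2 := Fintype.expect_equiv e _ _ fun p => rfl
  rw [← univ_product_univ, expect_product, expect_product] at h1
  exact h1.symm

omit [DecidableEq κ] [Nonempty Ω] in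
lemma trace_Xb (v : Ω → κ → ℝ) (P : Matrix κ κ ℝ) :
    trace (Xb v * P) = 𝔼 u, trace (vecMulVec (v u) (v u) * P) := by
  simp only [trace, diag_apply, mul_apply, Xb, of_apply, vecMulVec_apply, expect_sum_comm,
    expect_mul]

lemma step (v : α → Ω → κ → ℝ) {η : ℝ} (hv : ∀ i u, ∑ a, v i u a ^ 2 ≤ η)
    (hG : ∀ x : κ → ℝ, ∑ i, 𝔼 u, (∑ a, v i u a * x a) ^ 2 ≤ ∑ a, x a ^ 2) (hη : 0 ≤ η) (m : ℕ) :
    𝔼 w, hs (dev v w ^ (m + 1)) (dev v w ^ (m + 1)) ≤
      (2 * m + 1) * η * (𝔼 w, hs (dev v w ^ (m + 1)) (dev v w ^ (m + 1)) +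
        5 * 𝔼 w, hs (dev v w ^ m) (dev v w ^ m)) := by
  let X : α → Ω → Matrix κ κ ℝ := fun i u => vecMulVec (v i u) (v i u)
  have e1 : ∀ w, hs (dev v w ^ (m + 1)) (dev v w ^ (m + 1)) =
      ∑ i, 𝔼 u, trace ((X i (w i) - X i u) * dev v w ^ (2 * m + 1)) := by
    intro w
    rw [hs_eq, transpose_pow, dev_symm, ← pow_add, show m + 1 + (m + 1) = 2 * m + 1 + 1 by omega,
      pow_succ']
    conv_lhs => enter [1, 1]; unfold dev
    rw [Finset.sum_mul, trace_sum]
    refine sum_congr rfl fun i _ => ?_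
    simp only [sub_mul, trace_sub, expect_sub_distrib, Fintype.expect_const, trace_Xb, X]
  have h2 : ∀ i, 𝔼 w : α → Ω, 𝔼 u, trace ((X i (w i) - X i u) * dev v w ^ (2 * m + 1)) ≤
      (2 * m + 1) * (2 * η) * 𝔼 w : α → Ω, 𝔼 u,
        (qf (v i (w i)) (dev v w ^ m) + qf (v i u) (dev v w ^ m)) := by
    intro i
    have h3 := expect_swap i fun w u => trace ((X i (w i) - X i u) * dev v w ^ (2 * m + 1))
    have h4 := expect_swap i fun w u => qf (v i (w i)) (dev v w ^ m) + qf (v i u) (dev v w ^ m)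
    simp only [Function.update_self] at h3 h4
    have h5 : 𝔼 w : α → Ω, 𝔼 u, (trace ((X i (w i) - X i u) * dev v w ^ (2 * m + 1)) +
        trace ((X i u - X i (w i)) * dev v (Function.update w i u) ^ (2 * m + 1))) ≤
        𝔼 w : α → Ω, 𝔼 u, (2 * m + 1) * (2 * η) *
          ((qf (v i (w i)) (dev v w ^ m) + qf (v i u) (dev v w ^ m)) +
            (qf (v i u) (dev v (Function.update w i u) ^ m) +
              qf (v i (w i)) (dev v (Function.update w i u) ^ m))) := by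
      refine expect_le_expect fun w _ => expect_le_expect fun u _ => ?_
      have h6 := trace_diff_le (dev_symm v w) (dev_symm v (Function.update w i u)) m
      rw [dev_sub_update] at h6
      have h7 := hs_rank_le (hv i (w i)) (hv i u) (dev v w ^ m)
      have h8 := hs_rank_le (hv i (w i)) (hv i u) (dev v (Function.update w i u) ^ m)
      rw [← neg_sub (X i (w i)) (X i u), neg_mul, trace_neg, ← sub_eq_add_neg]
      refine h6.trans ?_
      rw [mul_assoc]
      exact mul_le_mul_of_nonneg_left (by linarith) (by positivity)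
    simp only [expect_add_distrib, ← mul_expect] at h3 h4 h5 ⊢
    rw [← h3, ← h4] at h5
    linarith
  have h9 : ∀ w : α → Ω, ∑ i, 𝔼 u, (qf (v i (w i)) (dev v w ^ m) + qf (v i u) (dev v w ^ m)) ≤
      (hs (dev v w ^ (m + 1)) (dev v w ^ (m + 1)) + 5 * hs (dev v w ^ m) (dev v w ^ m)) / 2 := by
    intro w
    set P := dev v w ^ m
    have h10 : ∑ i, 𝔼 u, qf (v i u) P ≤ hs P P := by
      simp only [qf, expect_sum_comm, hs]
      rw [sum_comm, sum_comm (f := fun a b => P a b * P a b)]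
      exact sum_le_sum fun b _ => (hG fun a => P a b).trans (le_of_eq
        (sum_congr rfl fun _ _ => sq _))
    have h11 : ∑ i, qf (v i (w i)) P = hs P (dev v w * P) + ∑ i, 𝔼 u, qf (v i u) P := by
      simp only [qf, expect_sum_comm, hs]
      rw [sum_comm, sum_comm (f := fun a b => P a b * (dev v w * P) a b),
        sum_comm (f := fun i b => 𝔼 u, (∑ a, v i u a * P a b) ^ 2), ← sum_add_distrib]
      refine sum_congr rfl fun b _ => ?_
      have := dev_form v w fun a => P a b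
      simp only [mul_apply]
      linarith
    have h12 := two_hs_le P (dev v w * P)
    simp only [expect_add_distrib, Fintype.expect_const, sum_add_distrib]
    rw [pow_succ']
    linarith
  calc _ = ∑ i, 𝔼 w : α → Ω, 𝔼 u, trace ((X i (w i) - X i u) * dev v w ^ (2 * m + 1)) := by
        simp only [e1, expect_sum_comm]
    _ ≤ (2 * m + 1) * (2 * η) * 𝔼 w : α → Ω, ∑ i, 𝔼 u,
        (qf (v i (w i)) (dev v w ^ m) + qf (v i u) (dev v w ^ m)) := by
        rw [expect_sum_comm, Finset.mul_sum]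
        exact sum_le_sum fun i _ => h2 i
    _ ≤ (2 * m + 1) * (2 * η) * 𝔼 w : α → Ω, (hs (dev v w ^ (m + 1)) (dev v w ^ (m + 1)) +
        5 * hs (dev v w ^ m) (dev v w ^ m)) / 2 :=
        mul_le_mul_of_nonneg_left (expect_le_expect fun w _ => h9 w) (by positivity)
    _ = _ := by
        rw [← expect_div, expect_add_distrib, ← mul_expect]
        ring

lemma moment (v : α → Ω → κ → ℝ) {η : ℝ} (hv : ∀ i u, ∑ a, v i u a ^ 2 ≤ η)
    (hG : ∀ x : κ → ℝ, ∑ i, 𝔼 u, (∑ a, v i u a * x a) ^ 2 ≤ ∑ a, x a ^ 2) (hη : 0 ≤ η) (q : ℕ)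
    (hq : 4 * q * η ≤ 1) : ∀ m ≤ q,
    𝔼 w, hs (dev v w ^ m) (dev v w ^ m) ≤ (20 * q * η) ^ m * Fintype.card κ := by
  intro m hm
  induction m with
  | zero =>
    simp [hs_eq]
  | succ m ih =>
    have h1 := step v hv hG hη m
    have h2 := ih (by omega)
    have h3 : ((m : ℝ) + 1) ≤ q := by exact_mod_cast hm
    have h4 : 0 ≤ 𝔼 w, hs (dev v w ^ (m + 1)) (dev v w ^ (m + 1)) :=
      expect_nonneg fun _ _ => hs_self_nonneg _
    have h5 : 0 ≤ 𝔼 w, hs (dev v w ^ m) (dev v w ^ m) :=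
      expect_nonneg fun _ _ => hs_self_nonneg _
    have h6 : (2 * m + 1) * η ≤ 2 * q * η := mul_le_mul_of_nonneg_right (by linarith) hη
    set a := 𝔼 w, hs (dev v w ^ (m + 1)) (dev v w ^ (m + 1))
    set b := 𝔼 w, hs (dev v w ^ m) (dev v w ^ m)
    have h7 : a ≤ 2 * q * η * (a + 5 * b) :=
      h1.trans (mul_le_mul_of_nonneg_right h6 (by positivity))
    have h8 : a ≤ 20 * q * η * b := by nlinarith
    rw [pow_succ', mul_assoc]
    exact h8.trans (mul_le_mul_of_nonneg_left h2 (by positivity))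

lemma pow_le_hs {Y : Matrix κ κ ℝ} (hY : Yᵀ = Y) {δ : ℝ} (hδ : 0 ≤ δ) {x : κ → ℝ}
    (hx : δ * ∑ a, x a ^ 2 < |∑ a, x a * ∑ b, Y a b * x b|) (k : ℕ) :
    δ ^ (2 * 2 ^ k) ≤ hs (Y ^ 2 ^ k) (Y ^ 2 ^ k) := by
  have h0 : 0 < ∑ a, x a ^ 2 := by
    rcases (sum_nonneg fun a _ => sq_nonneg (x a) : 0 ≤ ∑ a, x a ^ 2).eq_or_lt with h | h
    · have h1 : ∀ a, x a = 0 := fun a => pow_eq_zero_iff two_ne_zero |>.1
        ((sum_eq_zero_iff_of_nonneg fun a _ => sq_nonneg (x a)).1 h.symm a (mem_univ a))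
      simp [h1] at hx
    · exact h
  have e : ∀ j, ∑ a, x a * ∑ b, (Y ^ (j + j)) a b * x b = ∑ a, (∑ b, (Y ^ j) a b * x b) ^ 2 := by
    intro j
    have h1 : x ⬝ᵥ (Y ^ (j + j) *ᵥ x) = (Y ^ j *ᵥ x) ⬝ᵥ (Y ^ j *ᵥ x) := by
      rw [pow_add, ← mulVec_mulVec, dotProduct_mulVec, ← mulVec_transpose, transpose_pow, hY]
    simpa only [dotProduct, mulVec, sq] using h1
  have h1 : ∀ k, δ ^ 2 ^ k * ∑ a, x a ^ 2 ≤ |∑ a, x a * ∑ b, (Y ^ 2 ^ k) a b * x b| := by
    intro k
    induction k with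
    | zero => simpa using hx.le
    | succ k ih =>
      refine le_trans ?_ (le_abs_self _)
      rw [pow_succ, mul_two, e, pow_add]
      have h2 := pow_le_pow_left₀ (by positivity) ih 2
      rw [sq_abs] at h2
      have h3 := h2.trans (sum_mul_sq_le_sq_mul_sq _ _ _)
      refine le_of_mul_le_mul_left (le_trans (le_of_eq ?_) h3) h0
      ring
  have h2 := h1 (k + 1)
  rw [pow_succ, mul_two, e, abs_of_nonneg (sum_nonneg fun _ _ => sq_nonneg _)] at h2
  rw [two_mul]
  refine le_of_mul_le_mul_right (h2.trans ?_) h0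
  unfold hs
  rw [Finset.sum_mul]
  refine sum_le_sum fun a _ => (sum_mul_sq_le_sq_mul_sq _ _ _).trans (le_of_eq ?_)
  simp only [sq]

end Mat

/-- Concentration of the Gram form of independent short vectors. -/
theorem pr_gram_dev {κ α Ω : Type*} [Fintype κ] [Fintype α] [DecidableEq α] [Fintype Ω]
    [Nonempty Ω] (v : α → Ω → κ → ℝ) {η δ : ℝ} (hv : ∀ i u, ∑ a, v i u a ^ 2 ≤ η)
    (hG : ∀ x : κ → ℝ, ∑ i, 𝔼 u, (∑ a, v i u a * x a) ^ 2 ≤ ∑ a, x a ^ 2) (hη : 0 ≤ η)
    (hδ : 0 < δ) (k : ℕ) (hq : 4 * 2 ^ k * η ≤ 1) :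
    pr (fun w : α → Ω => ∃ x : κ → ℝ, δ * ∑ a, x a ^ 2 <
      |∑ i, (∑ a, v i (w i) a * x a) ^ 2 - ∑ i, 𝔼 u, (∑ a, v i u a * x a) ^ 2|) ≤
      Fintype.card κ * (20 * 2 ^ k * η / δ ^ 2) ^ 2 ^ k := by
  classical
  have h1 := Mat.moment v hv hG hη (2 ^ k) (by push_cast; exact hq) _ le_rfl
  refine (pr_le_expect (f := fun w => (δ ^ (2 * 2 ^ k))⁻¹ *
    Mat.hs (Mat.dev v w ^ 2 ^ k) (Mat.dev v w ^ 2 ^ k))
    (fun w => mul_nonneg (by positivity) (Mat.hs_self_nonneg _)) fun w hw => ?_).trans ?_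
  · obtain ⟨x, hx⟩ := hw
    rw [← Mat.dev_form] at hx
    rw [← div_eq_inv_mul, one_le_div (by positivity)]
    exact Mat.pow_le_hs (Mat.dev_symm v w) hδ.le hx k
  · rw [← mul_expect]
    refine (mul_le_mul_of_nonneg_left h1 (by positivity)).trans (le_of_eq ?_)
    rw [div_pow, pow_mul]
    push_cast
    field_simp

end Vale.Agent.P318.R
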