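import Vale.Agent.P318.RCode
import Mathlib.Analysis.InnerProductSpace.PiL2

/-!
Nets by rounding, operator norms of matrices with independent subgaussian rows, off-diagonal
restricted isometry.
-/

namespace Vale.Agent.P318.R

open Finset
open scoped BigOperators

/-- Euclidean norm of a vector. -/
noncomputable def nr {σ : Type*} [Fintype σ] (x : σ → ℝ) : ℝ := √(∑ i, x i ^ 2)

section Nr
variable {σ : Type*} [Fintype σ]

lemma nr_nonneg (x : σ → ℝ) : 0 ≤ nr x := Real.sqrt_nonneg _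

lemma nr_sq (x : σ → ℝ) : nr x ^ 2 = ∑ i, x i ^ 2 :=
  Real.sq_sqrt (sum_nonneg fun _ _ => sq_nonneg _)

lemma nr_eq_norm (x : σ → ℝ) : nr x = ‖(WithLp.toLp 2 x : EuclideanSpace ℝ σ)‖ := by
  rw [EuclideanSpace.norm_eq]
  simp [nr]

lemma nr_add_le (x y : σ → ℝ) : nr (x + y) ≤ nr x + nr y := by
  simp only [nr_eq_norm]
  exact norm_add_le (WithLp.toLp 2 x : EuclideanSpace ℝ σ) (WithLp.toLp 2 y)

lemma nr_neg (x : σ → ℝ) : nr (-x) = nr x := by simp [nr]

lemma nr_sub_le (x y : σ → ℝ) : nr (x - y) ≤ nr x + nr y := by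
  rw [sub_eq_add_neg, ← nr_neg y]
  exact nr_add_le _ _

lemma nr_smul (c : ℝ) (x : σ → ℝ) : nr (c • x) = |c| * nr x := by
  simp only [nr, Pi.smul_apply, smul_eq_mul, mul_pow]
  rw [← mul_sum, Real.sqrt_mul (sq_nonneg c), Real.sqrt_sq_eq_abs]

lemma nr_eq_zero {x : σ → ℝ} (h : nr x = 0) : x = 0 := by
  have h1 := nr_sq x
  rw [h] at h1
  funext i
  have h2 : x i ^ 2 ≤ 0 := by
    have := single_le_sum (f := fun i => x i ^ 2) (fun _ _ => sq_nonneg _) (mem_univ i)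
    linarith
  exact pow_eq_zero_iff (two_ne_zero) |>.1 (le_antisymm h2 (sq_nonneg _))

lemma abs_le_nr (x : σ → ℝ) (i : σ) : |x i| ≤ nr x :=
  Real.abs_le_sqrt (single_le_sum (f := fun i => x i ^ 2) (fun _ _ => sq_nonneg _) (mem_univ i))

lemma nr_le_of_sq_le {x : σ → ℝ} {c : ℝ} (hc : 0 ≤ c) (h : ∑ i, x i ^ 2 ≤ c ^ 2) : nr x ≤ c :=
  Real.sqrt_le_iff.2 ⟨hc, h⟩

lemma abs_dot_le (x y : σ → ℝ) : |∑ i, x i * y i| ≤ nr x * nr y := by
  rw [nr, nr, ← Real.sqrt_mul (sum_nonneg fun _ _ => sq_nonneg _)]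
  exact Real.abs_le_sqrt (sum_mul_sq_le_sq_mul_sq _ _ _)

/-- A bound for all linear forms gives a bound for the norm. -/
lemma nr_le_of_dot {x : σ → ℝ} {c : ℝ} (hc : 0 ≤ c) (h : ∀ y, ∑ i, x i * y i ≤ c * nr y) :
    nr x ≤ c := by
  have h1 := h x
  have h2 : ∑ i, x i * x i = nr x ^ 2 := by
    rw [nr_sq]; exact sum_congr rfl fun _ _ => (sq _).symm
  rw [h2] at h1
  have := nr_nonneg x
  nlinarith

/-- Rounding to the grid of mesh `1/(2 √|σ|)`. -/
lemma exists_net_point [DecidableEq σ] (x : σ → ℝ) (hx : nr x ≤ 1) :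
    ∃ k ∈ ballZ σ (7 * Fintype.card σ),
      nr (x - (2 * √(Fintype.card σ : ℝ))⁻¹ • fun i => (k i : ℝ)) ≤ 1 / 4 := by
  rcases isEmpty_or_nonempty σ with h0 | h0
  · exact ⟨0, mem_ballZ.2 (by simp), by simp [nr]⟩
  have hs : (0 : ℝ) < Fintype.card σ := Nat.cast_pos.2 Fintype.card_pos
  set q : ℝ := √(Fintype.card σ : ℝ) with hq
  have hq0 : 0 < q := Real.sqrt_pos.2 hs
  have hq2 : q ^ 2 = Fintype.card σ := Real.sq_sqrt hs.le
  have herr : nr (((2 * q) • x) - fun i => (round (2 * q * x i) : ℝ)) ≤ q / 2 := by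
    refine nr_le_of_sq_le (by positivity) ?_
    refine (sum_le_card_nsmul _ _ (1 / 4) fun i _ => ?_).trans (le_of_eq ?_)
    · have := abs_le.1 (abs_sub_round (2 * q * x i))
      simp only [Pi.sub_apply, Pi.smul_apply, smul_eq_mul]
      nlinarith [this.1, this.2]
    · rw [card_univ, nsmul_eq_mul, ← hq2]; ring
  refine ⟨fun i => round (2 * q * x i), mem_ballZ.2 ?_, ?_⟩
  · have h1 : nr (fun i => (round (2 * q * x i) : ℝ)) ≤ 5 / 2 * q := by
      have h2 := nr_sub_le ((2 * q) • x) (((2 * q) • x) - fun i => (round (2 * q * x i) : ℝ))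
      rw [sub_sub_cancel, nr_smul, abs_of_pos (by positivity)] at h2
      nlinarith
    have h3 := pow_le_pow_left₀ (nr_nonneg _) h1 2
    rw [nr_sq, mul_pow, hq2] at h3
    have h4 : ((∑ i, round (2 * q * x i) ^ 2 : ℤ) : ℝ) ≤ ((7 * Fintype.card σ : ℕ) : ℝ) := by
      push_cast
      linarith
    exact_mod_cast h4
  · have e : (x - (2 * q)⁻¹ • fun i => (round (2 * q * x i) : ℝ)) =
        (2 * q)⁻¹ • (((2 * q) • x) - fun i => (round (2 * q * x i) : ℝ)) := by
      rw [smul_sub, smul_smul, inv_mul_cancel₀ (by positivity), one_smul]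
    rw [e, nr_smul, abs_of_pos (by positivity)]
    calc (2 * q)⁻¹ * _ ≤ (2 * q)⁻¹ * (q / 2) := mul_le_mul_of_nonneg_left herr (by positivity)
      _ = 1 / 4 := by field_simp; ring

end Nr

/-- The bilinear form of a matrix. -/
def bil {σ τ : Type*} [Fintype σ] [Fintype τ] (A : σ → τ → ℝ) (x : σ → ℝ) (y : τ → ℝ) : ℝ :=
  ∑ i, ∑ j, x i * A i j * y j

section Bil
variable {σ τ : Type*} [Fintype σ] [Fintype τ] (A : σ → τ → ℝ)

lemma bil_smul (a b : ℝ) (x : σ → ℝ) (y : τ → ℝ) :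
    bil A (a • x) (b • y) = a * b * bil A x y := by
  simp only [bil, mul_sum, Pi.smul_apply, smul_eq_mul]
  exact sum_congr rfl fun _ _ => sum_congr rfl fun _ _ => by ring

lemma bil_split (x u : σ → ℝ) (y v : τ → ℝ) :
    bil A x y = bil A u v + bil A (x - u) y + bil A u (y - v) := by
  simp only [bil, ← sum_add_distrib, Pi.sub_apply]
  exact sum_congr rfl fun _ _ => sum_congr rfl fun _ _ => by ring

lemma bil_le_of_unit {S : ℝ} (h : ∀ x y, nr x ≤ 1 → nr y ≤ 1 → |bil A x y| ≤ S) (x : σ → ℝ)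
    (y : τ → ℝ) : |bil A x y| ≤ S * nr x * nr y := by
  rcases (nr_nonneg x).eq_or_lt with hx | hx
  · rw [← hx, nr_eq_zero hx.symm]; simp [bil]
  rcases (nr_nonneg y).eq_or_lt with hy | hy
  · rw [← hy, nr_eq_zero hy.symm]; simp [bil]
  have := h ((nr x)⁻¹ • x) ((nr y)⁻¹ • y)
    (by rw [nr_smul, abs_of_pos (by positivity), inv_mul_cancel₀ hx.ne'])
    (by rw [nr_smul, abs_of_pos (by positivity), inv_mul_cancel₀ hy.ne'])
  rw [bil_smul, abs_mul, abs_of_pos (by positivity), ← mul_inv, inv_mul_le_iff₀ (by positivity)]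
    at this
  linarith

/-- The net argument. -/
theorem bil_le_of_net [DecidableEq σ] [DecidableEq τ] {K : ℝ} (hK : 0 ≤ K)
    (h : ∀ k ∈ ballZ σ (7 * Fintype.card σ), ∀ l ∈ ballZ τ (7 * Fintype.card τ),
      |bil A (fun i => k i) (fun j => l j)| ≤
        K * √(Fintype.card σ : ℝ) * √(Fintype.card τ : ℝ)) (x : σ → ℝ) (y : τ → ℝ) :
    |bil A x y| ≤ K * nr x * nr y := by
  let V : Set ℝ := {t | ∃ x y, nr x ≤ 1 ∧ nr y ≤ 1 ∧ t = |bil A x y|}
  have hbd : BddAbove V := by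
    refine ⟨∑ i, ∑ j, |A i j|, ?_⟩
    rintro t ⟨x, y, hx, hy, rfl⟩
    refine (abs_sum_le_sum_abs _ _).trans (sum_le_sum fun i _ => ?_)
    refine (abs_sum_le_sum_abs _ _).trans (sum_le_sum fun j _ => ?_)
    rw [abs_mul, abs_mul]
    have h1 := (abs_le_nr x i).trans hx
    have h2 := (abs_le_nr y j).trans hy
    calc |x i| * |A i j| * |y j| ≤ 1 * |A i j| * 1 := by gcongr
      _ = _ := by ring
  have hS : ∀ x y, nr x ≤ 1 → nr y ≤ 1 → |bil A x y| ≤ sSup V := fun x y hx hy =>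
    le_csSup hbd ⟨x, y, hx, hy, rfl⟩
  have hS0 : 0 ≤ sSup V := (abs_nonneg _).trans (hS 0 0 (by simp [nr]) (by simp [nr]))
  have hle : sSup V ≤ K / 4 + 9 / 16 * sSup V := by
    refine csSup_le ⟨_, 0, 0, by simp [nr], by simp [nr], rfl⟩ ?_
    rintro t ⟨x, y, hx, hy, rfl⟩
    obtain ⟨k, hk, hkx⟩ := exists_net_point x hx
    obtain ⟨l, hl, hly⟩ := exists_net_point y hy
    set u : σ → ℝ := (2 * √(Fintype.card σ : ℝ))⁻¹ • fun i => (k i : ℝ) with hu
    set v : τ → ℝ := (2 * √(Fintype.card τ : ℝ))⁻¹ • fun i => (l i : ℝ) with hv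
    have hun : nr u ≤ 5 / 4 := by
      have := nr_sub_le x (x - u)
      rw [sub_sub_cancel] at this
      linarith
    have h1 : |bil A u v| ≤ K / 4 := by
      rw [hu, hv, bil_smul, abs_mul, abs_of_nonneg (by positivity)]
      refine (mul_le_mul_of_nonneg_left (h k hk l hl) (by positivity)).trans ?_
      have a1 : (√(Fintype.card σ : ℝ))⁻¹ * √(Fintype.card σ : ℝ) ≤ 1 := inv_mul_le_one
      have a2 : (√(Fintype.card τ : ℝ))⁻¹ * √(Fintype.card τ : ℝ) ≤ 1 := inv_mul_le_one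
      have e : (2 * √(Fintype.card σ : ℝ))⁻¹ * (2 * √(Fintype.card τ : ℝ))⁻¹ *
          (K * √(Fintype.card σ : ℝ) * √(Fintype.card τ : ℝ)) =
          K / 4 * (((√(Fintype.card σ : ℝ))⁻¹ * √(Fintype.card σ : ℝ)) *
            ((√(Fintype.card τ : ℝ))⁻¹ * √(Fintype.card τ : ℝ))) := by
        rw [mul_inv, mul_inv]; ring
      rw [e]
      exact mul_le_of_le_one_right (by positivity) (mul_le_one₀ a1 (by positivity) a2)
    have h2 := bil_le_of_unit A hS (x - u) y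
    have h3 := bil_le_of_unit A hS u (y - v)
    have h4 : sSup V * nr (x - u) * nr y ≤ sSup V * (1 / 4) * 1 := by
      have := nr_nonneg y
      gcongr
    have h5 : sSup V * nr u * nr (y - v) ≤ sSup V * (5 / 4) * (1 / 4) := by
      have := nr_nonneg (y - v)
      gcongr
    rw [bil_split A x u y v]
    have h6 := abs_add_three (bil A u v) (bil A (x - u) y) (bil A u (y - v))
    linarith
  exact bil_le_of_unit A (fun x y hx hy => (hS x y hx hy).trans (by linarith)) x y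

end Bil

end Vale.Agent.P318.R
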